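import Crest.Agent.Crz.Defs

/-!
# Averages over the unit circle
-/

set_option autoImplicit false

open Complex Metric Set
open scoped Topology ComplexOrder ComplexConjugate

namespace Crest.Agent.Crz

section av

variable {E : Type*} [NormedAddCommGroup E] [NormedSpace ℝ E]

/-- continuity on the unit circle -/
def CC {X : Type*} [TopologicalSpace X] (f : ℂ → X) : Prop := ContinuousOn f (sphere 0 1)

/-- average over the unit circle -/
noncomputable def av (f : ℂ → E) : E := Real.circleAverage f 0 1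

omit [NormedSpace ℝ E] in
lemma CC.ci {f : ℂ → E} (hf : CC f) : CircleIntegrable f 0 1 :=
  ContinuousOn.circleIntegrable zero_le_one hf

lemma av_congr {f g : ℂ → E} (h : ∀ z : ℂ, ‖z‖ = 1 → f z = g z) : av f = av g := by
  refine Real.circleAverage_congr_sphere ?_
  intro z hz
  exact h z (by simpa using hz)

lemma av_add {f g : ℂ → E} (hf : CC f) (hg : CC g) :
    av (fun z => f z + g z) = av f + av g :=
  Real.circleAverage_fun_add hf.ci hg.ci

lemma av_sub {f g : ℂ → E} (hf : CC f) (hg : CC g) :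
    av (fun z => f z - g z) = av f - av g :=
  Real.circleAverage_fun_sub hf.ci hg.ci

lemma av_sum {ι : Type*} {s : Finset ι} {f : ι → ℂ → E} (h : ∀ i ∈ s, CC (f i)) :
    av (fun z => ∑ i ∈ s, f i z) = ∑ i ∈ s, av (f i) :=
  Real.circleAverage_fun_sum (fun i hi => (h i hi).ci)

lemma av_const_mul (a : ℂ) (f : ℂ → ℂ) : av (fun z => a * f z) = a * av f :=
  Real.circleAverage_fun_smul (𝕜 := ℂ) (a := a) (f := f)

lemma av_mul_const (a : ℂ) (f : ℂ → ℂ) : av (fun z => f z * a) = av f * a := by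
  rw [mul_comm (av f) a, ← av_const_mul]
  simp only [mul_comm]

lemma av_const_mul_real (a : ℝ) (f : ℂ → ℝ) : av (fun z => a * f z) = a * av f :=
  Real.circleAverage_fun_smul (𝕜 := ℝ) (a := a) (f := f)

lemma av_const [CompleteSpace E] (a : E) : av (fun _ => a) = a :=
  Real.circleAverage_const a 0 1

lemma av_neg (f : ℂ → ℂ) : av (fun z => - f z) = - av f := by
  have := av_const_mul (-1) f
  simpa using this

lemma av_mono {f g : ℂ → ℝ} (hf : CC f) (hg : CC g) (h : ∀ z : ℂ, ‖z‖ = 1 → f z ≤ g z) :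
    av f ≤ av g := by
  refine Real.circleAverage_mono hf.ci hg.ci ?_
  intro z hz
  exact h z (by simpa using hz)

lemma av_nonneg {f : ℂ → ℝ} (h : ∀ z : ℂ, ‖z‖ = 1 → 0 ≤ f z) : 0 ≤ av f := by
  refine Real.circleAverage_nonneg_of_nonneg ?_
  intro z hz
  exact h z (by simpa using hz)

lemma av_re {f : ℂ → ℂ} (hf : CC f) : av (fun z => (f z).re) = (av f).re :=
  ContinuousLinearMap.circleAverage_comp_comm Complex.reCLM hf.ci

lemma av_im {f : ℂ → ℂ} (hf : CC f) : av (fun z => (f z).im) = (av f).im :=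
  ContinuousLinearMap.circleAverage_comp_comm Complex.imCLM hf.ci

lemma av_conj {f : ℂ → ℂ} (hf : CC f) : av (fun z => conj (f z)) = conj (av f) :=
  ContinuousLinearMap.circleAverage_comp_comm (Complex.conjCLE : ℂ →L[ℝ] ℂ) hf.ci

lemma av_ofReal {f : ℂ → ℝ} (hf : CC f) : av (fun z => (f z : ℂ)) = ((av f : ℝ) : ℂ) :=
  ContinuousLinearMap.circleAverage_comp_comm Complex.ofRealCLM hf.ci

lemma av_eq_integral (f : ℂ → E) :
    av f = (2 * Real.pi)⁻¹ • ∫ θ in (0 : ℝ)..2 * Real.pi, f (circleMap 0 1 θ) := rfl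

/-- mean value property -/
lemma av_hol {f : ℂ → ℂ} {ρ : ℝ} (hρ : 1 < ρ) (hf : DifferentiableOn ℂ f (ball 0 ρ)) :
    av f = f 0 := by
  unfold av
  refine DiffContOnCl.circleAverage (f := f) (c := 0) (R := 1) ?_
  rw [abs_one]
  refine DifferentiableOn.diffContOnCl (hf.mono ?_)
  rw [closure_ball (0 : ℂ) one_ne_zero]
  exact closedBall_subset_ball hρ

end av

section basic

lemma CC.add {f g : ℂ → ℂ} (hf : CC f) (hg : CC g) : CC (fun z => f z + g z) :=
  ContinuousOn.add hf hg

lemma CC.sub {f g : ℂ → ℂ} (hf : CC f) (hg : CC g) : CC (fun z => f z - g z) :=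
  ContinuousOn.sub hf hg

lemma CC.mul {f g : ℂ → ℂ} (hf : CC f) (hg : CC g) : CC (fun z => f z * g z) :=
  ContinuousOn.mul hf hg

lemma CC.addR {f g : ℂ → ℝ} (hf : CC f) (hg : CC g) : CC (fun z => f z + g z) :=
  ContinuousOn.add hf hg

lemma CC.mulR {f g : ℂ → ℝ} (hf : CC f) (hg : CC g) : CC (fun z => f z * g z) :=
  ContinuousOn.mul hf hg

lemma CC.const {X : Type*} [TopologicalSpace X] (c : X) : CC (fun _ : ℂ => c) :=
  continuousOn_const

lemma CC.conj {f : ℂ → ℂ} (hf : CC f) : CC (fun z => conj (f z)) :=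
  Complex.continuous_conj.comp_continuousOn hf

lemma CC.re {f : ℂ → ℂ} (hf : CC f) : CC (fun z => (f z).re) :=
  Complex.continuous_re.comp_continuousOn hf

lemma CC.normsq {f : ℂ → ℂ} (hf : CC f) : CC (fun z => ‖f z‖ ^ 2) :=
  (ContinuousOn.norm hf).pow 2

lemma CC.sum {ι : Type*} {s : Finset ι} {f : ι → ℂ → ℂ} (h : ∀ i ∈ s, CC (f i)) :
    CC (fun z => ∑ i ∈ s, f i z) :=
  continuousOn_finsetSum s h

lemma CC.sumR {ι : Type*} {s : Finset ι} {f : ι → ℂ → ℝ} (h : ∀ i ∈ s, CC (f i)) :
    CC (fun z => ∑ i ∈ s, f i z) :=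
  continuousOn_finsetSum s h

lemma CC.pow (n : ℕ) : CC (fun z : ℂ => z ^ n) := (continuous_pow n).continuousOn

lemma ne_zero_of_norm_one {z : ℂ} (hz : ‖z‖ = 1) : z ≠ 0 := by
  intro h; simp [h] at hz

lemma CC.invpow (n : ℕ) : CC (fun z : ℂ => z⁻¹ ^ n) := by
  refine ContinuousOn.pow (ContinuousOn.inv₀ continuousOn_id ?_) n
  intro z hz
  exact ne_zero_of_norm_one (by simpa using hz)

lemma av_conj_eq_inv {z : ℂ} (hz : ‖z‖ = 1) : conj z = z⁻¹ := by
  rw [Complex.inv_def, Complex.normSq_eq_norm_sq, hz]; simp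

lemma conj_inv_pow {z : ℂ} (hz : ‖z‖ = 1) (n : ℕ) : conj (z⁻¹ ^ n) = z ^ n := by
  rw [map_pow, map_inv₀, av_conj_eq_inv hz, inv_inv]

lemma conj_pow' {z : ℂ} (hz : ‖z‖ = 1) (n : ℕ) : conj (z ^ n) = z⁻¹ ^ n := by
  rw [map_pow, av_conj_eq_inv hz]

/-- `av (ζ^k) = δ_{k0}`. -/
lemma av_pow (k : ℕ) : av (fun z : ℂ => z ^ k) = if k = 0 then 1 else 0 := by
  have h := av_hol (f := fun z : ℂ => z ^ k) (ρ := 2) (by norm_num)
    ((differentiable_pow k).differentiableOn)
  rw [h]
  rcases Nat.eq_zero_or_pos k with rfl | hk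
  · simp
  · rw [if_neg hk.ne']; exact zero_pow hk.ne'

lemma av_invpow (k : ℕ) : av (fun z : ℂ => z⁻¹ ^ k) = if k = 0 then 1 else 0 := by
  have h : av (fun z : ℂ => z⁻¹ ^ k) = av (fun z : ℂ => conj (z ^ k)) :=
    av_congr (fun z hz => by rw [conj_pow' hz])
  rw [h, av_conj (CC.pow k), av_pow]
  split_ifs <;> simp

lemma av_invpow_mul_pow (j k : ℕ) :
    av (fun z : ℂ => z⁻¹ ^ j * z ^ k) = if j = k then 1 else 0 := by
  rcases le_total j k with hjk | hjk
  · obtain ⟨l, rfl⟩ := Nat.exists_eq_add_of_le hjk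
    have h : av (fun z : ℂ => z⁻¹ ^ j * z ^ (j + l)) = av (fun z : ℂ => z ^ l) := by
      refine av_congr (fun z hz => ?_)
      have hz0 := ne_zero_of_norm_one hz
      rw [inv_pow, pow_add]
      field_simp
    rw [h, av_pow]
    by_cases hl : l = 0
    · simp [hl]
    · rw [if_neg hl, if_neg (by omega)]
  · obtain ⟨l, rfl⟩ := Nat.exists_eq_add_of_le hjk
    have h : av (fun z : ℂ => z⁻¹ ^ (k + l) * z ^ k) = av (fun z : ℂ => z⁻¹ ^ l) := by
      refine av_congr (fun z hz => ?_)
      have hz0 := ne_zero_of_norm_one hz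
      rw [inv_pow, inv_pow, pow_add]
      field_simp
    rw [h, av_invpow]
    by_cases hl : l = 0
    · simp [hl]
    · rw [if_neg hl, if_neg (by omega)]

end basic

section series

/-- power series on the unit circle -/
noncomputable def ser (a : ℕ → ℂ) (z : ℂ) : ℂ := ∑' n, z ^ n * a n

lemma summable_ser {a : ℕ → ℂ} (ha : Summable fun n => ‖a n‖) {z : ℂ} (hz : ‖z‖ = 1) :
    Summable fun n => z ^ n * a n := by
  refine Summable.of_norm ?_
  simpa [norm_mul, norm_pow, hz] using ha

lemma CC.ser {a : ℕ → ℂ} (ha : Summable fun n => ‖a n‖) : CC (ser a) := by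
  refine continuousOn_tsum (u := fun n => ‖a n‖) (fun n => ?_) ha ?_
  · exact (continuous_pow n).continuousOn.mul continuousOn_const
  · intro n z hz
    have hz' : ‖z‖ = 1 := by simpa using hz
    simp [norm_pow, hz']

/-- exchange of sum and average. -/
lemma av_mul_ser {g : ℂ → ℂ} (hg : CC g) {a : ℕ → ℂ} (ha : Summable fun n => ‖a n‖) :
    HasSum (fun n => av (fun z => g z * z ^ n) * a n) (av (fun z => g z * ser a z)) := by
  -- a bound of g on the circle
  obtain ⟨B, hB⟩ : ∃ B, ∀ z : ℂ, ‖z‖ = 1 → ‖g z‖ ≤ B := by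
    obtain ⟨B, hB⟩ := (isCompact_sphere (0 : ℂ) 1).exists_bound_of_continuousOn hg
    exact ⟨B, fun z hz => hB z (by simpa using hz)⟩
  have hcm : ∀ θ : ℝ, ‖circleMap 0 1 θ‖ = 1 := fun θ => by simp
  have hgc : Continuous fun θ : ℝ => g (circleMap 0 1 θ) := by
    refine ContinuousOn.comp_continuous hg (continuous_circleMap 0 1) (fun θ => ?_)
    simp
  have key : HasSum (fun n => ∫ θ in (0 : ℝ)..2 * Real.pi,
      g (circleMap 0 1 θ) * ((circleMap 0 1 θ) ^ n * a n))
      (∫ θ in (0 : ℝ)..2 * Real.pi, g (circleMap 0 1 θ) * ser a (circleMap 0 1 θ)) := by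
    refine intervalIntegral.hasSum_integral_of_dominated_convergence
      (bound := fun n _ => B * ‖a n‖) (fun n => ?_) (fun n => ?_) ?_ ?_ ?_
    · refine Continuous.aestronglyMeasurable ?_
      exact hgc.mul (((continuous_circleMap 0 1).pow n).mul continuous_const)
    · refine Filter.Eventually.of_forall (fun θ _ => ?_)
      rw [norm_mul, norm_mul, norm_pow, hcm, one_pow, one_mul]
      exact mul_le_mul_of_nonneg_right (hB _ (hcm θ)) (norm_nonneg _)
    · exact Filter.Eventually.of_forall (fun θ _ => ha.mul_left B)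
    · exact intervalIntegrable_const
    · refine Filter.Eventually.of_forall (fun θ _ => ?_)
      exact (summable_ser ha (hcm θ)).hasSum.mul_left _
  have h2 := key.const_smul (2 * Real.pi)⁻¹
  have h5 : (fun n => av (fun z => g z * z ^ n) * a n) = fun n => (2 * Real.pi)⁻¹ •
      ∫ θ in (0 : ℝ)..2 * Real.pi, g (circleMap 0 1 θ) * ((circleMap 0 1 θ) ^ n * a n) := by
    funext n
    rw [← av_mul_const]
    unfold av Real.circleAverage
    congr 1
    refine intervalIntegral.integral_congr (fun θ _ => ?_)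
    simp only
    ring
  rw [h5]
  exact h2

/-- Fourier coefficients of a power series. -/
lemma av_invpow_mul_ser {a : ℕ → ℂ} (ha : Summable fun n => ‖a n‖) (j : ℕ) :
    av (fun z => z⁻¹ ^ j * ser a z) = a j := by
  have h := av_mul_ser (CC.invpow j) ha
  refine h.unique ?_
  have h3 : (fun n => av (fun z : ℂ => z⁻¹ ^ j * z ^ n) * a n)
      = fun n => if n = j then a j else 0 := by
    funext n
    rw [av_invpow_mul_pow]
    by_cases hn : n = j
    · subst hn; simp
    · rw [if_neg (Ne.symm hn), if_neg hn, zero_mul]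
  rw [h3]
  exact hasSum_ite_eq j (a j)

/-- `av (ser a * ser b) = a 0 * b 0`. -/
lemma av_ser_mul_ser {a b : ℕ → ℂ} (ha : Summable fun n => ‖a n‖) (hb : Summable fun n => ‖b n‖) :
    av (fun z => ser a z * ser b z) = a 0 * b 0 := by
  have h := av_mul_ser (CC.ser ha) hb
  refine h.unique ?_
  have h3 : (fun n => av (fun z : ℂ => ser a z * z ^ n) * b n)
      = fun n => if n = 0 then a 0 * b 0 else 0 := by
    funext n
    have h4 : av (fun z : ℂ => ser a z * z ^ n) = if n = 0 then a 0 else 0 := by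
      have h5 := av_mul_ser (CC.pow n) ha
      have h6 : av (fun z : ℂ => ser a z * z ^ n) = av (fun z : ℂ => z ^ n * ser a z) :=
        av_congr (fun z _ => mul_comm _ _)
      rw [h6]
      refine h5.unique ?_
      have h7 : (fun k => av (fun z : ℂ => z ^ n * z ^ k) * a k)
          = fun k => if k = 0 then (if n = 0 then a 0 else 0) else 0 := by
        funext k
        have h8 : av (fun z : ℂ => z ^ n * z ^ k) = if n + k = 0 then 1 else 0 := by
          rw [← av_pow]
          exact av_congr (fun z _ => by rw [pow_add])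
        rw [h8]
        by_cases hk : k = 0
        · subst hk; by_cases hn : n = 0 <;> simp [hn]
        · rw [if_neg (by omega), if_neg hk, zero_mul]
      rw [h7]
      exact hasSum_ite_eq 0 _
    rw [h4]
    by_cases hn : n = 0
    · subst hn; simp
    · simp [hn]
  rw [h3]
  exact hasSum_ite_eq 0 _

/-- Parseval for a power series. -/
lemma av_normsq_ser {a : ℕ → ℂ} (ha : Summable fun n => ‖a n‖) :
    HasSum (fun n => ‖a n‖ ^ 2) (av (fun z => ‖ser a z‖ ^ 2)) := by
  have h := av_mul_ser (CC.ser ha).conj ha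
  have h1 : (fun n => av (fun z => conj (ser a z) * z ^ n) * a n)
      = fun n => ((‖a n‖ ^ 2 : ℝ) : ℂ) := by
    funext n
    have h2 : av (fun z => conj (ser a z) * z ^ n) = conj (a n) := by
      rw [← av_invpow_mul_ser ha n, ← av_conj ((CC.invpow n).mul (CC.ser ha))]
      refine av_congr (fun z hz => ?_)
      rw [map_mul, conj_inv_pow hz, mul_comm]
    rw [h2, mul_comm, Complex.mul_conj, Complex.normSq_eq_norm_sq]
  have h3 : av (fun z => conj (ser a z) * ser a z) = ((av (fun z => ‖ser a z‖ ^ 2) : ℝ) : ℂ) := by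
    rw [← av_ofReal (CC.ser ha).normsq]
    refine av_congr (fun z _ => ?_)
    rw [mul_comm, Complex.mul_conj, Complex.normSq_eq_norm_sq]
  rw [h1, h3] at h
  exact_mod_cast h

end series

end Crest.Agent.Crz
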