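import Crest.Agent.Crz.Defs

/-!
Row 132, chunk 3b: operator positivity of the Faber generating function.
-/

set_option autoImplicit false

open Complex Metric Set Polynomial Filter
open scoped Topology ComplexOrder

namespace Crest.Agent.Crz

namespace OpPosAux

/-- uniqueness of power series coefficients. -/
lemma ps_unique {V : Type*} [NormedAddCommGroup V] [NormedSpace ℂ V] {a b : ℕ → V} {r : ℝ}
    (hr : 0 < r) (s : ℂ → V)
    (ha : ∀ z ∈ ball (0 : ℂ) r, HasSum (fun n => z ^ n • a n) (s z))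
    (hb : ∀ z ∈ ball (0 : ℂ) r, HasSum (fun n => z ^ n • b n) (s z)) : a = b := by
  have key : ∀ c : ℕ → V, (∀ z ∈ ball (0 : ℂ) r, HasSum (fun n => z ^ n • c n) (s z)) →
      HasFPowerSeriesAt s
        (fun n => ContinuousMultilinearMap.mkPiRing ℂ (Fin n) (c n)) (0 : ℂ) := by
    intro c hc
    rw [hasFPowerSeriesAt_iff]
    filter_upwards [ball_mem_nhds (0 : ℂ) hr] with z hz
    have h := hc z hz
    rw [zero_add]
    simpa [FormalMultilinearSeries.coeff] using h
  have h := (key a ha).eq_formalMultilinearSeries (key b hb)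
  funext n
  have h1 := congrFun h n
  have h2 := congrArg (fun φ => φ (fun _ => (1 : ℂ))) h1
  simpa using h2

lemma hs_congr {V : Type*} [AddCommMonoid V] [TopologicalSpace V] {f g : ℕ → V} {a : V}
    (h : HasSum f a) (hfg : ∀ n, f n = g n) : HasSum g a := by
  rwa [← funext hfg]

/-- Taylor coefficients. -/
noncomputable def tc {V : Type*} [NormedAddCommGroup V] [NormedSpace ℂ V] (f : ℂ → V) (n : ℕ) :
    V := ((n.factorial : ℂ)⁻¹) • iteratedDeriv n f 0

lemma hasSum_tc {V : Type*} [NormedAddCommGroup V] [NormedSpace ℂ V] [CompleteSpace V]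
    {f : ℂ → V} {ρ : ℝ} (hf : DifferentiableOn ℂ f (ball 0 ρ)) {z : ℂ} (hz : z ∈ ball (0 : ℂ) ρ) :
    HasSum (fun n => z ^ n • tc f n) (f z) := by
  have h := hasSum_taylorSeries_on_ball hf hz
  simp only [sub_zero] at h
  have h1 : (fun n => z ^ n • tc f n) =
      fun n : ℕ => (n.factorial : ℂ)⁻¹ • z ^ n • iteratedDeriv n f 0 := by
    funext n
    rw [tc, smul_comm]
  rw [h1]
  exact h

lemma tc_eq_kcoef (κ : ℂ → ℂ) (n : ℕ) : tc κ n = kcoef κ n := by
  rw [tc, kcoef, smul_eq_mul, div_eq_inv_mul]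

/-- shift of a coefficient sequence. -/
def sh {V : Type*} [Zero V] (c : ℕ → V) : ℕ → V
  | 0 => 0
  | n + 1 => c n

lemma hasSum_shift {V : Type*} [NormedAddCommGroup V] [NormedSpace ℂ V] {c : ℕ → V} {z : ℂ}
    {s : V} (h : HasSum (fun n => z ^ n • c n) s) :
    HasSum (fun n => z ^ n • sh c n) (z • s) := by
  have h2 := h.const_smul z
  have h3 : (fun n => z • z ^ n • c n) = fun n => z ^ (n + 1) • sh c (n + 1) := by
    funext n
    rw [smul_smul, ← pow_succ']
    rfl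
  rw [h3] at h2
  have h1 := (hasSum_nat_add_iff (f := fun n => z ^ n • sh c n) 1).1 h2
  simpa [sh] using h1

lemma hasSum_eker {κ : ℂ → ℂ} {ρ : ℝ} (hκ : DifferentiableOn ℂ κ (ball 0 ρ)) {z : ℂ}
    (hz : z ∈ ball (0 : ℂ) ρ) :
    HasSum (fun n : ℕ => z ^ n • ((1 - (n : ℂ)) * kcoef κ n)) (eker κ z) := by
  have h1 := hasSum_tc hκ hz
  have h2 := hasSum_shift (hasSum_tc (hκ.deriv isOpen_ball) hz)
  have h3 := h1.sub h2
  rw [eker, ← smul_eq_mul z]
  refine hs_congr h3 fun n => ?_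
  rw [← smul_sub]
  congr 1
  cases n with
  | zero => simp [sh, tc_eq_kcoef]
  | succ n =>
    have h4 : tc (deriv κ) n = ((n : ℂ) + 1) * kcoef κ (n + 1) := by
      rw [tc, kcoef, ← iteratedDeriv_succ', Nat.factorial_succ, smul_eq_mul]
      have h5 : ((n : ℂ) + 1) ≠ 0 := by exact_mod_cast Nat.succ_ne_zero n
      have h6 : (n.factorial : ℂ) ≠ 0 := by exact_mod_cast Nat.factorial_ne_zero n
      push_cast
      field_simp
    rw [sh, h4, tc_eq_kcoef]
    push_cast
    ring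

lemma summable_norm {V : Type*} [NormedAddCommGroup V] [NormedSpace ℂ V] [FiniteDimensional ℂ V]
    {f : ℕ → V} (h : Summable f) : Summable fun n => ‖f n‖ := by
  have : FiniteDimensional ℝ V := FiniteDimensional.complexToReal V
  exact summable_norm_iff.2 h

section Alg

variable {𝔄 : Type*} [NormedRing 𝔄] [NormedAlgebra ℂ 𝔄] [CompleteSpace 𝔄] [FiniteDimensional ℂ 𝔄]

lemma cauchy_prod {c : ℕ → 𝔄} {k : ℕ → ℂ} {z : ℂ} {s : 𝔄} {t : ℂ}
    (hc : HasSum (fun n => z ^ n • c n) s) (hk : HasSum (fun n => z ^ n • k n) t) :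
    HasSum (fun n => z ^ n • ∑ i ∈ Finset.range (n + 1), k (n - i) • c i) (t • s) := by
  have h2 := hk.smul_const (1 : 𝔄)
  have hs1 : Summable (fun n => ‖z ^ n • c n‖) := summable_norm (V := 𝔄) hc.summable
  have hs2 : Summable (fun n => ‖(z ^ n • k n) • (1 : 𝔄)‖) := summable_norm (V := 𝔄) h2.summable
  have h3 := tsum_mul_tsum_eq_tsum_sum_antidiagonal_of_summable_norm hs1 hs2
  have h4 := (summable_norm_sum_mul_antidiagonal_of_summable_norm hs1 hs2).of_norm
  rw [hc.tsum_eq, h2.tsum_eq] at h3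
  have h6 : t • s = s * t • (1 : 𝔄) := by rw [mul_smul_comm, mul_one]
  rw [h6, h3]
  refine hs_congr h4.hasSum fun n => ?_
  rw [Finset.Nat.sum_antidiagonal_eq_sum_range_succ_mk, Finset.smul_sum]
  refine Finset.sum_congr rfl fun i hi => ?_
  rw [Finset.mem_range] at hi
  simp only [smul_eq_mul, mul_smul_comm, mul_one]
  rw [smul_smul, smul_smul]
  congr 1
  rw [mul_right_comm, ← pow_add]
  congr 2
  omega

lemma coef_rec_abs {κ : ℂ → ℂ} {ρ : ℝ} (hρ : 0 < ρ) (hκ : DifferentiableOn ℂ κ (ball 0 ρ))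
    (A : 𝔄) {G : ℂ → 𝔄} (hG : DifferentiableOn ℂ G (ball 0 ρ))
    (hmul : ∀ z ∈ ball (0 : ℂ) ρ, (κ z • (1 : 𝔄) - z • A) * G z = eker κ z • 1) :
    (fun n : ℕ => (∑ k ∈ Finset.range (n + 1), kcoef κ (n - k) • tc G k) -
      sh (fun n => A * tc G n) n) = fun n : ℕ => ((1 - (n : ℂ)) * kcoef κ n) • (1 : 𝔄) := by
  refine ps_unique hρ (fun z => eker κ z • (1 : 𝔄)) (fun z hz => ?_) (fun z hz => ?_)
  · have h1 := hasSum_tc hG hz
    have h5 := cauchy_prod h1 (hasSum_tc hκ hz)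
    have h6 := hasSum_shift (c := fun n => A * tc G n) (z := z) (s := A * G z) (by
      have h7 := h1.mul_left A
      refine hs_congr h7 fun n => ?_
      rw [mul_smul_comm])
    have h8 := h5.sub h6
    have h9 : κ z • G z - z • (A * G z) = eker κ z • 1 := by
      rw [← hmul z hz, sub_mul, smul_mul_assoc, one_mul, smul_mul_assoc]
    rw [h9] at h8
    refine hs_congr h8 fun n => ?_
    rw [smul_sub]
    simp only [tc_eq_kcoef]
  · have h1 := (hasSum_eker hκ hz).smul_const (1 : 𝔄)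
    refine hs_congr h1 fun n => ?_
    rw [smul_assoc]

end Alg

section Op

variable {E : Type*} [NormedAddCommGroup E] [InnerProductSpace ℂ E] [FiniteDimensional ℂ E]

/-- the pencil `κ(ζ) - ζ A`. -/
noncomputable def pen (κ : ℂ → ℂ) (A : E →L[ℂ] E) (z : ℂ) : E →L[ℂ] E :=
  κ z • (1 : E →L[ℂ] E) - z • A

/-- the generating function. -/
noncomputable def gen (κ : ℂ → ℂ) (A : E →L[ℂ] E) (z : ℂ) : E →L[ℂ] E :=
  eker κ z • Ring.inverse (pen κ A z)

omit [FiniteDimensional ℂ E] in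
lemma inner_pen (κ : ℂ → ℂ) (A : E →L[ℂ] E) (z : ℂ) (x : E) :
    inner ℂ x (pen κ A z x) = κ z * inner ℂ x x - z * inner ℂ x (A x) := by
  have h : pen κ A z x = κ z • x - z • A x := rfl
  rw [h, inner_sub_right, inner_smul_right, inner_smul_right]

lemma isUnit_pen {κ : ℂ → ℂ} {ρ : ℝ} {A : E →L[ℂ] E}
    (hA : ∀ x : E, ‖x‖ = 1 → StarAt κ ρ (inner ℂ x (A x))) {z : ℂ} (hz : z ∈ ball (0 : ℂ) ρ) :
    IsUnit (pen κ A z) := by
  have : CompleteSpace E := FiniteDimensional.complete ℂ E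
  rw [ContinuousLinearMap.isUnit_iff_bijective]
  have hinj : Function.Injective (pen κ A z) := by
    rw [injective_iff_map_eq_zero]
    intro x hx
    by_contra hne
    have hn : (‖x‖ : ℂ) ≠ 0 := by exact_mod_cast norm_ne_zero_iff.2 hne
    have h1 := (hA ((‖x‖ : ℂ)⁻¹ • x) (by
      rw [norm_smul, norm_inv, norm_real, norm_norm, inv_mul_cancel₀ (norm_ne_zero_iff.2 hne)])).ne
        z hz
    have h2 := inner_pen κ A z ((‖x‖ : ℂ)⁻¹ • x)
    rw [map_smul, hx, smul_zero, inner_zero_right, inner_self_eq_norm_sq_to_K, norm_smul, norm_inv,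
      norm_real, norm_norm, inv_mul_cancel₀ (norm_ne_zero_iff.2 hne)] at h2
    apply h1
    have h3 : κ z - z * inner ℂ ((‖x‖ : ℂ)⁻¹ • x) (A ((‖x‖ : ℂ)⁻¹ • x)) = 0 := by
      rw [h2]; simp
    exact sub_eq_zero.1 h3
  exact ⟨hinj, (LinearMap.injective_iff_surjective (f := (pen κ A z).toLinearMap)).1 hinj⟩

omit [FiniteDimensional ℂ E] in
lemma differentiableOn_pen {κ : ℂ → ℂ} {ρ : ℝ} (hκ : DifferentiableOn ℂ κ (ball 0 ρ))
    (A : E →L[ℂ] E) : DifferentiableOn ℂ (pen κ A) (ball 0 ρ) := by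
  unfold pen
  exact (hκ.smul_const _).sub (differentiableOn_id.smul_const _)

lemma differentiableOn_gen {κ : ℂ → ℂ} {ρ : ℝ} (hκ : DifferentiableOn ℂ κ (ball 0 ρ))
    {A : E →L[ℂ] E} (hA : ∀ x : E, ‖x‖ = 1 → StarAt κ ρ (inner ℂ x (A x))) :
    DifferentiableOn ℂ (gen κ A) (ball 0 ρ) := by
  have : CompleteSpace E := FiniteDimensional.complete ℂ E
  intro z hz
  have h1 : DifferentiableWithinAt ℂ (eker κ) (ball 0 ρ) z := by
    unfold eker
    exact (hκ z hz).sub (differentiableWithinAt_id.mul ((hκ.deriv isOpen_ball) z hz))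
  have h2 : DifferentiableWithinAt ℂ (fun z => Ring.inverse (pen κ A z)) (ball 0 ρ) z := by
    obtain ⟨u, hu⟩ := isUnit_pen hA hz
    have h3 : DifferentiableAt ℂ (Ring.inverse : (E →L[ℂ] E) → (E →L[ℂ] E)) (pen κ A z) := by
      rw [← hu]; exact differentiableAt_inverse u.isUnit
    exact h3.comp_differentiableWithinAt z (differentiableOn_pen hκ A z hz)
  exact h1.smul h2

lemma gen_mul {κ : ℂ → ℂ} {ρ : ℝ} {A : E →L[ℂ] E}
    (hA : ∀ x : E, ‖x‖ = 1 → StarAt κ ρ (inner ℂ x (A x))) {z : ℂ} (hz : z ∈ ball (0 : ℂ) ρ) :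
    pen κ A z * gen κ A z = eker κ z • 1 := by
  rw [gen, mul_smul_comm, Ring.mul_inverse_cancel _ (isUnit_pen hA hz)]

lemma coef_rec {κ : ℂ → ℂ} {ρ : ℝ} (hρ : 0 < ρ) (hκ : DifferentiableOn ℂ κ (ball 0 ρ))
    {A : E →L[ℂ] E} (hA : ∀ x : E, ‖x‖ = 1 → StarAt κ ρ (inner ℂ x (A x))) :
    (fun n : ℕ => (∑ k ∈ Finset.range (n + 1), kcoef κ (n - k) • tc (gen κ A) k) -
      sh (fun n => A * tc (gen κ A) n) n) =
        fun n : ℕ => ((1 - (n : ℂ)) * kcoef κ n) • (1 : E →L[ℂ] E) := by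
  have : CompleteSpace E := FiniteDimensional.complete ℂ E
  exact coef_rec_abs hρ hκ A (differentiableOn_gen hκ hA) fun z hz => gen_mul hA hz

lemma tc_gen {κ : ℂ → ℂ} {ρ : ℝ} (h : ConvexCurve κ ρ) {A : E →L[ℂ] E}
    (hA : ∀ x : E, ‖x‖ = 1 → StarAt κ ρ (inner ℂ x (A x))) (n : ℕ) :
    aeval A (faber κ n) = tc (gen κ A) n := by
  have hρ : 0 < ρ := lt_trans zero_lt_one h.one_lt
  have hrec := coef_rec hρ h.diff hA
  have hk0 : kcoef κ 0 ≠ 0 := by
    simpa [kcoef] using h.zero_ne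
  induction n using Nat.strong_induction_on with
  | _ n ih =>
    cases n with
    | zero =>
      have h1 := congrFun hrec 0
      simp only [zero_add, Finset.range_one, Finset.sum_singleton, Nat.sub_zero, sh, sub_zero,
        Nat.cast_zero, one_mul] at h1
      rw [faber, map_one]
      exact (smul_right_injective _ hk0 h1).symm
    | succ n =>
      have h1 := congrFun hrec (n + 1)
      simp only [Finset.sum_range_succ _ (n + 1), Nat.sub_self, sh] at h1
      have h2 : ∑ k ∈ Finset.range (n + 1), kcoef κ (n + 1 - k) • tc (gen κ A) k =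
          ∑ i : Fin (n + 1), kcoef κ (n + 1 - i) • aeval A (faber κ i) := by
        rw [Finset.sum_range]
        exact Finset.sum_congr rfl fun i _ => by rw [ih i (by omega)]
      rw [h2] at h1
      have h3 : kcoef κ 0 • aeval A (faber κ (n + 1)) =
          (-(n : ℂ) * kcoef κ (n + 1)) • (1 : E →L[ℂ] E) + A * tc (gen κ A) n -
            ∑ i : Fin (n + 1), kcoef κ (n + 1 - i) • aeval A (faber κ i) := by
        rw [faber, map_mul, aeval_C, ← ih n (by omega)]
        simp only [map_sub, map_add, map_mul, map_sum, aeval_C, aeval_X]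
        rw [← Algebra.smul_def, smul_smul, mul_inv_cancel₀ hk0, one_smul]
        simp only [Algebra.algebraMap_eq_smul_one, smul_mul_assoc, one_mul, smul_smul]
      have h4 : kcoef κ 0 • tc (gen κ A) (n + 1) =
          (-(n : ℂ) * kcoef κ (n + 1)) • (1 : E →L[ℂ] E) + A * tc (gen κ A) n -
            ∑ i : Fin (n + 1), kcoef κ (n + 1 - i) • aeval A (faber κ i) := by
        have h5 : (1 - ((n + 1 : ℕ) : ℂ)) * kcoef κ (n + 1) = -(n : ℂ) * kcoef κ (n + 1) := by
          push_cast; ring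
        rw [h5] at h1
        rw [← h1]
        abel
      exact smul_right_injective _ hk0 (h3.trans h4.symm)

end Op

end OpPosAux

open OpPosAux in
/-- CHUNK 3b (OPPOS). -/
theorem opPos_faber {E : Type*} [NormedAddCommGroup E] [InnerProductSpace ℂ E]
    [FiniteDimensional ℂ E] (κ : ℂ → ℂ) (ρ : ℝ) (h : ConvexCurve κ ρ) (A : E →L[ℂ] E)
    (hA : ∀ x : E, ‖x‖ = 1 → StarAt κ ρ (inner ℂ x (A x))) : OpPos A (faber κ) := by
  have : CompleteSpace E := FiniteDimensional.complete ℂ E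
  have hball : ∀ z : ℂ, ‖z‖ = 1 → z ∈ ball (0 : ℂ) ρ := by
    intro z hz
    rw [mem_ball_zero_iff, hz]; exact h.one_lt
  have hS : ∀ z : ℂ, ‖z‖ = 1 → HasSum (fun n => z ^ n • aeval A (faber κ n)) (gen κ A z) := by
    intro z hz
    have h1 := hasSum_tc (differentiableOn_gen h.diff hA) (hball z hz)
    exact hs_congr h1 fun n => by rw [tc_gen h hA]
  refine ⟨?_, ?_⟩
  · have h1 := summable_norm (hS 1 norm_one).summable
    simpa using h1
  · intro z hz x
    have h1 : HasSum (fun n => z ^ n * inner ℂ x ((aeval A (faber κ n) : E →L[ℂ] E) x))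
        (inner ℂ x (gen κ A z x)) := by
      have h2 := ((innerSL ℂ x).comp (ContinuousLinearMap.apply ℂ E x)).hasSum (hS z hz)
      refine hs_congr h2 fun n => ?_
      simp
    rw [h1.tsum_eq]
    -- positivity
    set y : E := Ring.inverse (pen κ A z) x with hy
    have hx : pen κ A z y = x := by
      have h2 := Ring.mul_inverse_cancel _ (isUnit_pen hA (hball z hz))
      have h3 := congrArg (fun B : E →L[ℂ] E => B x) h2
      exact h3
    have hgen : gen κ A z x = eker κ z • y := rfl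
    rw [hgen, inner_smul_right]
    have h2 : inner ℂ x y = starRingEnd ℂ (inner ℂ y (pen κ A z y)) := by
      rw [hx, inner_conj_symm]
    rw [h2, inner_pen]
    by_cases hy0 : y = 0
    · rw [hy0]; simp
    have hn : ‖y‖ ≠ 0 := norm_ne_zero_iff.2 hy0
    have hnc : (‖y‖ : ℂ) ≠ 0 := by exact_mod_cast hn
    set a : ℂ := inner ℂ ((‖y‖ : ℂ)⁻¹ • y) (A ((‖y‖ : ℂ)⁻¹ • y)) with ha
    have hst := hA ((‖y‖ : ℂ)⁻¹ • y) (by
      rw [norm_smul, norm_inv, norm_real, norm_norm, inv_mul_cancel₀ hn])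
    rw [← ha] at hst
    have h3 : inner ℂ y (A y) = (‖y‖ : ℂ) ^ 2 * a := by
      rw [ha, map_smul, inner_smul_left, inner_smul_right, map_inv₀, conj_ofReal]
      field_simp
    have h4 : inner ℂ y y = (‖y‖ : ℂ) ^ 2 := inner_self_eq_norm_sq_to_K y
    rw [h3, h4]
    have h5 := hst.pos z hz
    have h6 : κ z - z * a ≠ 0 := sub_ne_zero.2 (hst.ne z (hball z hz))
    have h7 : eker κ z * starRingEnd ℂ (κ z * (‖y‖ : ℂ) ^ 2 - z * ((‖y‖ : ℂ) ^ 2 * a)) =
        ((‖y‖ ^ 2 * normSq (κ z - z * a) : ℝ) : ℂ) * (eker κ z / (κ z - z * a)) := by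
      have h8 : κ z * (‖y‖ : ℂ) ^ 2 - z * ((‖y‖ : ℂ) ^ 2 * a) =
          ((‖y‖ ^ 2 : ℝ) : ℂ) * (κ z - z * a) := by push_cast; ring
      rw [h8, map_mul, conj_ofReal, ofReal_mul, ← mul_conj (κ z - z * a)]
      field_simp
    rw [h7, re_ofReal_mul]
    exact mul_nonneg (mul_nonneg (sq_nonneg _) (normSq_nonneg _)) h5

end Crest.Agent.Crz
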