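import Mathlib

/-!
Row 132: the Toeplitz-Hausdorff theorem.
-/

set_option autoImplicit false

open Complex Set

namespace Crest.Agent.Crz

namespace THAux

variable {E : Type*} [NormedAddCommGroup E] [InnerProductSpace ℂ E]

/-- a phase that makes the mixed terms real. -/
lemma exists_phase (g h : ℂ) :
    ∃ ω : ℂ, ‖ω‖ = 1 ∧ (starRingEnd ℂ ω * g + ω * h).im = 0 := by
  by_cases hd : h - starRingEnd ℂ g = 0
  · refine ⟨1, norm_one, ?_⟩
    have h1 : h = starRingEnd ℂ g := sub_eq_zero.1 hd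
    rw [h1]
    simp
  · have hn : ‖h - starRingEnd ℂ g‖ ≠ 0 := norm_ne_zero_iff.2 hd
    refine ⟨starRingEnd ℂ (h - starRingEnd ℂ g) / ‖h - starRingEnd ℂ g‖, ?_, ?_⟩
    · rw [norm_div, RCLike.norm_conj, norm_real, norm_norm, div_self hn]
    · set ω := starRingEnd ℂ (h - starRingEnd ℂ g) / (‖h - starRingEnd ℂ g‖ : ℂ) with hω
      have h1 : (starRingEnd ℂ ω * g + ω * h).im = (ω * (h - starRingEnd ℂ g)).im := by
        simp only [add_im, mul_im, conj_re, conj_im, sub_re, sub_im]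
        ring
      rw [h1]
      have h2 : ω * (h - starRingEnd ℂ g) = ((‖h - starRingEnd ℂ g‖ : ℝ) : ℂ) := by
        have hnc : ((‖h - starRingEnd ℂ g‖ : ℝ) : ℂ) ≠ 0 := by exact_mod_cast hn
        rw [hω, div_mul_eq_mul_div, mul_comm, mul_conj, normSq_eq_norm_sq, div_eq_iff hnc]
        push_cast
        ring
      rw [h2, ofReal_im]

/-- normalised case: the values `0` and `1`. -/
lemma aux (A : E →L[ℂ] E) {x y : E} (hx : ‖x‖ = 1) (hy : ‖y‖ = 1) (hxA : inner ℂ x (A x) = 0)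
    (hyA : inner ℂ y (A y) = 1) {t : ℝ} (ht : t ∈ Icc (0 : ℝ) 1) :
    ∃ z : E, ‖z‖ = 1 ∧ inner ℂ z (A z) = (t : ℂ) := by
  obtain ⟨ω, hω, him⟩ := exists_phase (inner ℂ x (A y)) (inner ℂ y (A x))
  obtain ⟨x', hx'⟩ : ∃ x' : E, x' = ω • x := ⟨_, rfl⟩
  have hx'n : ‖x'‖ = 1 := by rw [hx', norm_smul, hω, hx, one_mul]
  have hx'A : inner ℂ x' (A x') = 0 := by
    rw [hx', map_smul, inner_smul_left, inner_smul_right, hxA]; simp
  obtain ⟨m, hm⟩ : ∃ m : ℂ, m = inner ℂ x' (A y) + inner ℂ y (A x') := ⟨_, rfl⟩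
  have hmim : m.im = 0 := by
    rw [hm, hx', map_smul, inner_smul_left, inner_smul_right]
    exact him
  have hmre : m = (m.re : ℂ) := by
    apply Complex.ext <;> simp [hmim]
  -- the segment
  set z : ℝ → E := fun s => ((1 - s : ℝ) : ℂ) • x' + (s : ℂ) • y with hz
  have hzne : ∀ s ∈ Icc (0 : ℝ) 1, z s ≠ 0 := by
    intro s hs h0
    have h1 : ((1 - s : ℝ) : ℂ) • x' = -((s : ℂ) • y) := eq_neg_of_add_eq_zero_left h0
    have h2 := congrArg norm h1
    rw [norm_neg, norm_smul, norm_smul, hx'n, hy, norm_real, norm_real, mul_one, mul_one,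
      Real.norm_of_nonneg hs.1, Real.norm_of_nonneg (by linarith [hs.2])] at h2
    have h3 : s = 1 / 2 := by linarith
    have h4 : x' = -y := by
      have h5 : (1 - s : ℝ) = s := by linarith
      rw [h5, ← smul_neg] at h1
      have h6 : (s : ℂ) ≠ 0 := by rw [h3]; norm_num
      exact smul_right_injective E h6 h1
    rw [h4, map_neg, inner_neg_left, inner_neg_right, neg_neg, hyA] at hx'A
    exact one_ne_zero hx'A
  have hval : ∀ s : ℝ, inner ℂ (z s) (A (z s)) = (((1 - s) * s * m.re + s ^ 2 : ℝ) : ℂ) := by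
    intro s
    simp only [hz, map_add, map_smul, inner_add_left, inner_add_right, inner_smul_left,
      inner_smul_right, hx'A, hyA, conj_ofReal]
    have h1 : ((1 - s : ℝ) : ℂ) * (((1 - s : ℝ) : ℂ) * 0) +
        (s : ℂ) * (((1 - s : ℝ) : ℂ) * inner ℂ x' (A y)) +
        (((1 - s : ℝ) : ℂ) * ((s : ℂ) * inner ℂ y (A x')) + (s : ℂ) * ((s : ℂ) * 1)) =
        ((1 - s : ℝ) : ℂ) * s * m + (s : ℂ) ^ 2 := by
      rw [hm]; ring
    have h2 : (((1 - s) * s * m.re + s ^ 2 : ℝ) : ℂ) = ((1 - s : ℝ) : ℂ) * s * m + (s : ℂ) ^ 2 := by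
      conv_rhs => rw [hmre]
      push_cast
      ring
    rw [h2, ← h1]
    ring
  -- the intermediate value theorem
  set F : ℝ → ℝ := fun s => ((1 - s) * s * m.re + s ^ 2) / ‖z s‖ ^ 2 with hF
  have hzc : Continuous z := by
    rw [hz]; fun_prop
  have hFc : ContinuousOn F (Icc 0 1) := by
    apply ContinuousOn.div
    · fun_prop
    · exact (hzc.norm.pow 2).continuousOn
    · intro s hs
      exact pow_ne_zero _ (norm_ne_zero_iff.2 (hzne s hs))
  have hF0 : F 0 = 0 := by simp [hF]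
  have hF1 : F 1 = 1 := by simp [hF, hz, hy]
  have hiv := intermediate_value_Icc (zero_le_one' ℝ) hFc
  rw [hF0, hF1] at hiv
  obtain ⟨s, hs, hst⟩ := hiv ht
  have hn : ‖z s‖ ≠ 0 := norm_ne_zero_iff.2 (hzne s hs)
  refine ⟨((‖z s‖⁻¹ : ℝ) : ℂ) • z s, ?_, ?_⟩
  · rw [norm_smul, norm_real, norm_inv, norm_norm, inv_mul_cancel₀ hn]
  · rw [map_smul, inner_smul_left, inner_smul_right, conj_ofReal, hval, ← hst, hF]
    push_cast
    ring

end THAux

open THAux in
/-- CHUNK TH (Toeplitz-Hausdorff). -/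
theorem numericalRange_convex {E : Type*} [NormedAddCommGroup E] [InnerProductSpace ℂ E]
    (A : E →L[ℂ] E) : Convex ℝ {z : ℂ | ∃ x : E, ‖x‖ = 1 ∧ z = inner ℂ x (A x)} := by
  rintro a ⟨x, hx, ha⟩ b ⟨y, hy, hb⟩ α β hα hβ hαβ
  by_cases hab : a = b
  · refine ⟨x, hx, ?_⟩
    rw [← hab, ← add_smul, hαβ, one_smul, ha]
  have hba : b - a ≠ 0 := sub_ne_zero.2 (Ne.symm hab)
  -- normalise
  set A' : E →L[ℂ] E := (b - a)⁻¹ • (A - a • (1 : E →L[ℂ] E)) with hA'
  have hA'v : ∀ z : E, ‖z‖ = 1 → inner ℂ z (A' z) = (b - a)⁻¹ * (inner ℂ z (A z) - a) := by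
    intro z hz
    have h1 : A' z = (b - a)⁻¹ • (A z - a • z) := rfl
    rw [h1, inner_smul_right, inner_sub_right, inner_smul_right, inner_self_eq_norm_sq_to_K, hz]
    simp
  obtain ⟨z, hz, hzt⟩ := aux A' hx hy (by rw [hA'v x hx, ← ha]; simp)
    (by rw [hA'v y hy, ← hb, inv_mul_cancel₀ hba]) (t := β) ⟨hβ, by linarith⟩
  refine ⟨z, hz, ?_⟩
  rw [hA'v z hz] at hzt
  have h2 : inner ℂ z (A z) = a + (b - a) * β := by
    rw [← hzt]; field_simp; ring
  rw [h2]
  have h3 : α = 1 - β := by linarith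
  rw [h3]
  simp only [real_smul]
  push_cast
  ring

end Crest.Agent.Crz
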