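import Crest.Agent.Crz.Complete
import Crest.Agent.Crz.OpPos
import Crest.Agent.Crz.TH

/-!
# The complete bound with constant 2 over the numerical range (finite dimension)
-/

set_option autoImplicit false

open Complex Metric Set Polynomial Matrix
open scoped Topology ComplexOrder ComplexConjugate

namespace Crest.Agent.Crz

variable {E : Type*} [NormedAddCommGroup E] [InnerProductSpace ℂ E] [FiniteDimensional ℂ E]

theorem complete_bound (A : E →L[ℂ] E)
    (K : Set ℂ) (hK : IsCompact K) (hconv : Convex ℝ K)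
    (hA : ∀ x : E, ‖x‖ = 1 → inner ℂ x (A x) ∈ K)
    (m : ℕ) (P : Matrix (Fin m) (Fin m) ℂ[X]) (M : ℝ)
    (hM : ∀ z ∈ K, evNorm P z ≤ M) (v : PiLp 2 (fun _ : Fin m => E)) :
    ‖opAct A P v‖ ≤ 2 * M * ‖v‖ :=
  complete_bound_aux A (fun κ ρ h1 h2 => opPos_faber κ ρ h1 A h2) K hK hconv hA m P M hM v

/-- **Crouzeix' conjecture, complete version**, in finite dimension. -/
theorem crouzeix_finite (A : E →L[ℂ] E) (m : ℕ) (P : Matrix (Fin m) (Fin m) ℂ[X]) (M : ℝ)
    (hM : ∀ x : E, ‖x‖ = 1 → evNorm P (inner ℂ x (A x)) ≤ M)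
    (v : PiLp 2 (fun _ : Fin m => E)) : ‖opAct A P v‖ ≤ 2 * M * ‖v‖ := by
  have hprop : ProperSpace E := FiniteDimensional.proper ℂ E
  have hcomp : IsCompact {z : ℂ | ∃ x : E, ‖x‖ = 1 ∧ z = inner ℂ x (A x)} := by
    have h : {z : ℂ | ∃ x : E, ‖x‖ = 1 ∧ z = inner ℂ x (A x)}
        = (fun x : E => (inner ℂ x (A x) : ℂ)) '' sphere 0 1 := by
      ext z
      constructor
      · rintro ⟨x, hx, rfl⟩
        exact ⟨x, by simpa using hx, rfl⟩
      · rintro ⟨x, hx, rfl⟩
        exact ⟨x, by simpa using hx, rfl⟩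
    rw [h]
    exact (isCompact_sphere _ _).image (continuous_id.inner A.continuous)
  refine complete_bound A _ hcomp (numericalRange_convex A) (fun x hx => ⟨x, hx, rfl⟩) m P M ?_ v
  rintro z ⟨x, hx, rfl⟩
  exact hM x hx

end Crest.Agent.Crz
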