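import Crest.Agent.Crz.Defs
import Crest.Agent.Crz.RMT

/-!
# Chunk 2 (EXT): convex curves around a compact convex set, from the Riemann map
-/

set_option autoImplicit false

open Complex Metric Set Polynomial
open scoped Topology ComplexOrder

namespace Crest.Agent.Crz

namespace Ext

/-- An injective holomorphic function has nonvanishing derivative. -/
theorem deriv_ne_zero_of_injOn {U : Set ℂ} (hU : IsOpen U) {g : ℂ → ℂ}
    (hg : DifferentiableOn ℂ g U) (hinj : InjOn g U) {z : ℂ} (hz : z ∈ U) : deriv g z ≠ 0 := by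
  intro hd
  have hga : AnalyticAt ℂ g z := hg.analyticAt (hU.mem_nhds hz)
  have hGa : AnalyticAt ℂ (fun w => g w - g z) z := hga.sub analyticAt_const
  have hne : ¬ ∀ᶠ w in 𝓝 z, (fun w => g w - g z) w = 0 := by
    intro h
    have h1 : ∀ᶠ w in 𝓝[≠] z, g w - g z = 0 ∧ w ∈ U ∧ w ≠ z := by
      have h2 := (h.and (hU.mem_nhds hz)).filter_mono (nhdsWithin_le_nhds (s := {z}ᶜ))
      filter_upwards [h2, self_mem_nhdsWithin] with w hw hw'
      exact ⟨hw.1, hw.2, hw'⟩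
    obtain ⟨w, h2, h3, h4⟩ := h1.exists
    exact h4 (hinj h3 hz (sub_eq_zero.1 h2))
  obtain ⟨n, h, hha, hh0, heq⟩ := (hGa.exists_eventuallyEq_pow_smul_nonzero_iff).2 hne
  simp only [smul_eq_mul] at heq
  have hn0 : n ≠ 0 := by
    rintro rfl
    have := heq.self_of_nhds
    simp at this
    exact hh0 this.symm
  have hn1 : n ≠ 1 := by
    rintro rfl
    have h1 : HasDerivAt (fun w => g w - g z) (h z) z := by
      have h2 : HasDerivAt (fun w => (w - z) ^ 1 * h w) (h z) z := by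
        have h3 := ((hasDerivAt_id z).sub_const z).fun_mul hha.differentiableAt.hasDerivAt
        simpa using h3
      exact h2.congr_of_eventuallyEq heq
    have h4 : HasDerivAt g (h z) z := by simpa using h1.add_const (g z)
    exact hh0 (by rw [← h4.deriv, hd])
  have hn2 : 2 ≤ n := by omega
  -- n-th root
  set c : ℂ := (h z) ^ ((n : ℂ)⁻¹) with hc
  have hcn : c ^ n = h z := cpow_nat_inv_pow _ hn0
  have hc0 : c ≠ 0 := by
    intro h0
    rw [h0, zero_pow hn0] at hcn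
    exact hh0 hcn.symm
  set k : ℂ → ℂ := fun w => c * (h w / h z) ^ ((n : ℂ)⁻¹) with hk
  have hka : AnalyticAt ℂ k z := by
    apply analyticAt_const.mul
    apply (hha.div_const).cpow analyticAt_const
    simp [hh0]
  have hkz : k z = c := by simp [hk, hh0]
  have hkn : ∀ w, k w ^ n = h w := by
    intro w
    simp only [hk]
    rw [mul_pow, hcn, cpow_nat_inv_pow _ hn0]
    field_simp
  set φ : ℂ → ℂ := fun w => (w - z) * k w with hφ
  have hφa : AnalyticAt ℂ φ z := (analyticAt_id.sub analyticAt_const).mul hka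
  have hφd : HasStrictDerivAt φ c z := by
    have h1 : HasDerivAt φ c z := by
      have h3 := ((hasDerivAt_id z).sub_const z).fun_mul hka.differentiableAt.hasDerivAt
      simpa [hkz] using h3
    have h2 := hφa.hasStrictDerivAt
    rwa [h1.deriv] at h2
  have hmap : Filter.map φ (𝓝 z) = 𝓝 (φ z) := hφd.map_nhds_eq hc0
  have hφz : φ z = 0 := by simp [hφ]
  rw [hφz] at hmap
  -- good neighbourhood
  have hgood : ∀ᶠ w in 𝓝 z, w ∈ U ∧ g w - g z = φ w ^ n := by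
    filter_upwards [heq, hU.mem_nhds hz] with w hw hw'
    refine ⟨hw', ?_⟩
    rw [hw, hφ, mul_pow, hkn]
  have himg : ∀ᶠ v in 𝓝 (0 : ℂ), ∃ w, (w ∈ U ∧ g w - g z = φ w ^ n) ∧ φ w = v := by
    rw [← hmap, Filter.eventually_map]
    filter_upwards [hgood] with w hw
    exact ⟨w, hw, rfl⟩
  obtain ⟨ω, hω1, hωn⟩ : ∃ ω : ℂ, ω ≠ 1 ∧ ω ^ n = 1 := by
    have hp := Complex.isPrimitiveRoot_exp n hn0
    exact ⟨_, hp.ne_one hn2, hp.pow_eq_one⟩
  have himg2 : ∀ᶠ v in 𝓝 (0 : ℂ), ∃ w, (w ∈ U ∧ g w - g z = φ w ^ n) ∧ φ w = ω * v := by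
    have : Filter.Tendsto (fun v : ℂ => ω * v) (𝓝 0) (𝓝 0) := by
      have h1 : Continuous (fun v : ℂ => ω * v) := by fun_prop
      simpa using h1.tendsto 0
    exact this.eventually himg
  have hfin : ∀ᶠ v in 𝓝[≠] (0 : ℂ), False := by
    have h2 := (himg.and himg2).filter_mono (nhdsWithin_le_nhds (s := {(0 : ℂ)}ᶜ))
    filter_upwards [h2, self_mem_nhdsWithin] with v hv hv'
    obtain ⟨⟨w1, ⟨hw1U, hw1⟩, hw1v⟩, ⟨w2, ⟨hw2U, hw2⟩, hw2v⟩⟩ := hv
    have e : g w1 = g w2 := by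
      have : g w1 - g z = g w2 - g z := by
        rw [hw1, hw2, hw1v, hw2v, mul_pow, hωn, one_mul]
      exact sub_left_injective this
    have e2 := hinj hw1U hw2U e
    rw [e2, hw2v] at hw1v
    have e3 : (ω - 1) * v = 0 := by rw [sub_mul, hw1v, one_mul, sub_self]
    rcases mul_eq_zero.1 e3 with h | h
    · exact hω1 (sub_eq_zero.1 h)
    · exact hv' h
  exact hfin.exists.elim (fun _ h => h)

/-! ### The domain `U*` and its Riemann map -/

/-- Inversion of the complement of `K`, with `0` added. -/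
def Ustar (K : Set ℂ) : Set ℂ := {w | w = 0 ∨ w⁻¹ ∉ K}

structure Setup (K : Set ℂ) (δ : ℝ) (g : ℂ → ℂ) : Prop where
  cpt : IsCompact K
  conv : Convex ℝ K
  δpos : 0 < δ
  ballK : ball 0 δ ⊆ K
  diff : DifferentiableOn ℂ g (ball 0 1)
  inj : InjOn g (ball 0 1)
  img : g '' ball 0 1 = Ustar K
  zero : g 0 = 0

theorem zero_mem_Ustar (K : Set ℂ) : (0 : ℂ) ∈ Ustar K := Or.inl rfl

theorem isOpen_Ustar {K : Set ℂ} (hK : IsCompact K) : IsOpen (Ustar K) := by
  rw [isOpen_iff_mem_nhds]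
  intro w hw
  by_cases h0 : w = 0
  · subst h0
    obtain ⟨M, hM⟩ := hK.isBounded.subset_closedBall 0
    have hM' : K ⊆ closedBall 0 (max M 1) :=
      hM.trans (closedBall_subset_closedBall (le_max_left _ _))
    have hpos : 0 < max M 1 := lt_max_of_lt_right one_pos
    filter_upwards [ball_mem_nhds (0 : ℂ) (inv_pos.2 hpos)] with w hw
    by_cases hw0 : w = 0
    · exact Or.inl hw0
    · right
      intro h
      have h1 := hM' h
      rw [mem_closedBall_zero_iff, norm_inv] at h1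
      rw [mem_ball_zero_iff] at hw
      have h2 : 0 < ‖w‖ := norm_pos_iff.2 hw0
      have h3 : max M 1 < ‖w‖⁻¹ := by
        rw [lt_inv_comm₀ hpos h2]; exact hw
      linarith
  · have h1 : w⁻¹ ∉ K := hw.resolve_left h0
    have h2 : ∀ᶠ v in 𝓝 w, v⁻¹ ∈ Kᶜ :=
      (continuousAt_inv₀ h0).eventually (hK.isClosed.isOpen_compl.mem_nhds h1)
    filter_upwards [h2] with v hv
    exact Or.inr hv

theorem norm_le_of_mem_Ustar {K : Set ℂ} {δ : ℝ} (hδ : 0 < δ) (hb : ball 0 δ ⊆ K) {w : ℂ}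
    (hw : w ∈ Ustar K) : ‖w‖ ≤ δ⁻¹ := by
  rcases hw with rfl | hw
  · simpa using hδ.le
  · by_cases h0 : w = 0
    · subst h0; simpa using hδ.le
    · by_contra h
      push Not at h
      apply hw
      apply hb
      rw [mem_ball_zero_iff, norm_inv]
      exact inv_lt_of_inv_lt₀ hδ h

theorem starConvex_Ustar {K : Set ℂ} (hconv : Convex ℝ K) (h0 : (0 : ℂ) ∈ K) :
    StarConvex ℝ 0 (Ustar K) := by
  intro w hw a b ha hb hab
  rw [smul_zero, zero_add]
  by_cases hb0 : b = 0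
  · left; simp [hb0]
  by_cases hw0 : w = 0
  · left; simp [hw0]
  right
  intro h
  have h1 : w⁻¹ ∉ K := hw.resolve_left hw0
  apply h1
  have h2 := hconv h0 h ha hb hab
  rw [smul_zero, zero_add] at h2
  convert h2 using 1
  rw [Complex.real_smul, Complex.real_smul]
  have : (b : ℂ) ≠ 0 := by exact_mod_cast hb0
  field_simp

noncomputable def ginv (g : ℂ → ℂ) : ℂ → ℂ := Function.invFunOn g (ball 0 1)

section setup

variable {K : Set ℂ} {δ : ℝ} {g : ℂ → ℂ}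

theorem Setup.exists_mem (S : Setup K δ g) {w : ℂ} (hw : w ∈ Ustar K) :
    ∃ ζ ∈ ball (0 : ℂ) 1, g ζ = w := by
  rw [← S.img] at hw
  exact hw

theorem Setup.ginv_mem (S : Setup K δ g) {w : ℂ} (hw : w ∈ Ustar K) :
    ginv g w ∈ ball (0 : ℂ) 1 := Function.invFunOn_mem (S.exists_mem hw)

theorem Setup.g_ginv (S : Setup K δ g) {w : ℂ} (hw : w ∈ Ustar K) : g (ginv g w) = w :=
  Function.invFunOn_eq (S.exists_mem hw)

theorem Setup.g_mem (S : Setup K δ g) {ζ : ℂ} (hζ : ζ ∈ ball (0 : ℂ) 1) :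
    g ζ ∈ Ustar K := by
  rw [← S.img]; exact mem_image_of_mem _ hζ

theorem Setup.ginv_g (S : Setup K δ g) {ζ : ℂ} (hζ : ζ ∈ ball (0 : ℂ) 1) :
    ginv g (g ζ) = ζ :=
  S.inj (S.ginv_mem (S.g_mem hζ)) hζ (S.g_ginv (S.g_mem hζ))

theorem Setup.deriv_ne (S : Setup K δ g) {ζ : ℂ} (hζ : ζ ∈ ball (0 : ℂ) 1) :
    deriv g ζ ≠ 0 := deriv_ne_zero_of_injOn isOpen_ball S.diff S.inj hζ

theorem Setup.strict (S : Setup K δ g) {ζ : ℂ} (hζ : ζ ∈ ball (0 : ℂ) 1) :
    HasStrictDerivAt g (deriv g ζ) ζ :=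
  (S.diff.analyticAt (isOpen_ball.mem_nhds hζ)).hasStrictDerivAt

theorem Setup.hasDerivAt_ginv (S : Setup K δ g) {ζ : ℂ} (hζ : ζ ∈ ball (0 : ℂ) 1) :
    HasDerivAt (ginv g) (deriv g ζ)⁻¹ (g ζ) := by
  have hcont : ContinuousAt (ginv g) (g ζ) := by
    have hmap : Filter.map g (𝓝 ζ) = 𝓝 (g ζ) := (S.strict hζ).map_nhds_eq (S.deriv_ne hζ)
    rw [ContinuousAt, ← hmap, S.ginv_g hζ, Filter.tendsto_map'_iff]
    have h1 : (ginv g ∘ g) =ᶠ[𝓝 ζ] id := by
      filter_upwards [isOpen_ball.mem_nhds hζ] with v hv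
      exact S.ginv_g hv
    exact (Filter.tendsto_congr' h1).2 Filter.tendsto_id
  have hd : HasDerivAt g (deriv g ζ) (ginv g (g ζ)) := by
    rw [S.ginv_g hζ]; exact (S.strict hζ).hasDerivAt
  refine HasDerivAt.of_local_left_inverse hcont hd (S.deriv_ne hζ) ?_
  filter_upwards [(isOpen_Ustar S.cpt).mem_nhds (S.g_mem hζ)] with y hy
  exact S.g_ginv hy

theorem Setup.ginv_diffAt (S : Setup K δ g) {w : ℂ} (hw : w ∈ Ustar K) :
    DifferentiableAt ℂ (ginv g) w := by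
  have h := S.hasDerivAt_ginv (S.ginv_mem hw)
  rw [S.g_ginv hw] at h
  exact h.differentiableAt

theorem Setup.K_nonempty (S : Setup K δ g) : K.Nonempty :=
  ⟨0, S.ballK (mem_ball_self S.δpos)⟩

/-- `g ζ / ζ` -/
noncomputable def gt (g : ℂ → ℂ) : ℂ → ℂ := dslope g 0

theorem Setup.g_eq (S : Setup K δ g) (ζ : ℂ) : g ζ = ζ * gt g ζ := by
  have := sub_smul_dslope g 0 ζ
  rw [S.zero, sub_zero, sub_zero, smul_eq_mul] at this
  exact this.symm

theorem Setup.gt_diff (S : Setup K δ g) : DifferentiableOn ℂ (gt g) (ball 0 1) :=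
  (differentiableOn_dslope (ball_mem_nhds _ one_pos)).2 S.diff

theorem Setup.gt_ne (S : Setup K δ g) {ζ : ℂ} (hζ : ζ ∈ ball (0 : ℂ) 1) :
    gt g ζ ≠ 0 := by
  by_cases h0 : ζ = 0
  · subst h0
    rw [gt, dslope_same]
    exact S.deriv_ne hζ
  · intro h
    have h1 := S.g_eq ζ
    rw [h, mul_zero, ← S.zero] at h1
    exact h0 (S.inj hζ (mem_ball_self one_pos) h1)

/-- `κ = ζ / g ζ` -/
noncomputable def kap (g : ℂ → ℂ) (ζ : ℂ) : ℂ := (gt g ζ)⁻¹

theorem Setup.kap_ne (S : Setup K δ g) {ζ : ℂ} (hζ : ζ ∈ ball (0 : ℂ) 1) :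
    kap g ζ ≠ 0 := inv_ne_zero (S.gt_ne hζ)

theorem Setup.kap_diff (S : Setup K δ g) : DifferentiableOn ℂ (kap g) (ball 0 1) :=
  S.gt_diff.fun_inv (fun _ h => S.gt_ne h)

theorem Setup.gam_eq (S : Setup K δ g) (ζ : ℂ) : gam (kap g) ζ = (g ζ)⁻¹ := by
  rw [gam, kap, S.g_eq ζ, mul_inv, div_eq_mul_inv, mul_comm]

theorem Setup.eker_eq (S : Setup K δ g) {ζ : ℂ} (hζ : ζ ∈ ball (0 : ℂ) 1) :
    eker (kap g) ζ = deriv g ζ * kap g ζ ^ 2 := by
  have h1 : HasDerivAt (gt g) (deriv (gt g) ζ) ζ :=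
    (S.gt_diff.differentiableAt (isOpen_ball.mem_nhds hζ)).hasDerivAt
  have h2 : HasDerivAt g (gt g ζ + ζ * deriv (gt g) ζ) ζ := by
    have h3 := (hasDerivAt_id ζ).fun_mul h1
    have h4 : (fun ζ => id ζ * gt g ζ) = g := by
      ext ζ; exact (S.g_eq ζ).symm
    rw [h4] at h3
    exact h3.congr_deriv (by simp)
  have h5 : HasDerivAt (kap g) (-deriv (gt g) ζ / gt g ζ ^ 2) ζ := h1.fun_inv (S.gt_ne hζ)
  have h6 := S.gt_ne hζ
  rw [eker, h5.deriv, h2.deriv, kap]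
  field_simp
  ring

theorem Setup.eker_ne (S : Setup K δ g) {ζ : ℂ} (hζ : ζ ∈ ball (0 : ℂ) 1) :
    eker (kap g) ζ ≠ 0 := by
  rw [S.eker_eq hζ]
  exact mul_ne_zero (S.deriv_ne hζ) (pow_ne_zero _ (S.kap_ne hζ))

/-- near the unit circle, `γ` is near `K` -/
theorem Setup.proper (S : Setup K δ g) {ε : ℝ} (hε : 0 < ε) :
    ∃ r < 1, ∀ ζ ∈ ball (0 : ℂ) 1, r < ‖ζ‖ → infDist ((g ζ)⁻¹) K < ε := by
  set C : Set ℂ := {w | w = 0 ∨ ε ≤ infDist w⁻¹ K} with hC
  have hCU : C ⊆ Ustar K := by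
    rintro w (hw | hw)
    · exact Or.inl hw
    · right
      intro h
      rw [infDist_zero_of_mem h] at hw
      linarith
  have hCc : IsClosed C := by
    rw [← isOpen_compl_iff, isOpen_iff_mem_nhds]
    intro w hw
    simp only [hC, mem_compl_iff, mem_ofPred_eq, not_or, not_le] at hw
    have h1 : ∀ᶠ v in 𝓝 w, v ≠ 0 := isOpen_ne.mem_nhds hw.1
    have h2 : ∀ᶠ v in 𝓝 w, infDist v⁻¹ K < ε := by
      have hc : ContinuousAt (fun v : ℂ => infDist v⁻¹ K) w :=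
        (continuous_infDist_pt K).continuousAt.comp (continuousAt_inv₀ hw.1)
      exact hc.eventually (gt_mem_nhds hw.2)
    filter_upwards [h1, h2] with v hv1 hv2
    simp only [hC, mem_compl_iff, mem_ofPred_eq, not_or, not_le]
    exact ⟨hv1, hv2⟩
  have hCcpt : IsCompact C := by
    refine (isCompact_closedBall (0 : ℂ) δ⁻¹).of_isClosed_subset hCc ?_
    intro w hw
    rw [mem_closedBall_zero_iff]
    exact norm_le_of_mem_Ustar S.δpos S.ballK (hCU hw)
  have hcont : ContinuousOn (fun w => ‖ginv g w‖) C := fun w hw =>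
    ((S.ginv_diffAt (hCU hw)).continuousAt.norm).continuousWithinAt
  obtain ⟨w0, hw0, hmax⟩ := hCcpt.exists_isMaxOn ⟨0, Or.inl rfl⟩ hcont
  refine ⟨‖ginv g w0‖, ?_, ?_⟩
  · have := S.ginv_mem (hCU hw0)
    rwa [mem_ball_zero_iff] at this
  · intro ζ hζ hr
    by_contra h
    push Not at h
    have h1 : g ζ ∈ C := Or.inr h
    have h2 : ‖ginv g (g ζ)‖ ≤ ‖ginv g w0‖ := hmax h1
    rw [S.ginv_g hζ] at h2
    linarith

/-- images of compact subsets of the disc stay away from `K` -/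
theorem Setup.away (S : Setup K δ g) {r : ℝ} (hr : r < 1) :
    ∃ d > 0, ∀ w ∈ g '' closedBall 0 r, w ≠ 0 → d ≤ infDist w⁻¹ K := by
  have hsub : closedBall (0 : ℂ) r ⊆ ball 0 1 := closedBall_subset_ball hr
  have hC : IsCompact (g '' closedBall 0 r) :=
    (isCompact_closedBall (0 : ℂ) r).image_of_continuousOn (S.diff.continuousOn.mono hsub)
  have hCU : g '' closedBall 0 r ⊆ Ustar K := by
    rintro _ ⟨ζ, hζ, rfl⟩
    exact S.g_mem (hsub hζ)
  obtain ⟨d', hd', hth⟩ := hC.exists_thickening_subset_open (isOpen_Ustar S.cpt) hCU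
  refine ⟨min (δ / 2) (d' * δ ^ 2 / 2), ?_, ?_⟩
  · have := S.δpos
    exact lt_min (by positivity) (by positivity)
  · intro w hw hw0
    by_contra h
    push Not at h
    obtain ⟨k, hk, hdist⟩ := (infDist_lt_iff S.K_nonempty).1 h
    have hδ := S.δpos
    have hwinv : δ ≤ ‖w⁻¹‖ := by
      have h1 := norm_le_of_mem_Ustar S.δpos S.ballK (hCU hw)
      rw [norm_inv]
      rw [le_inv_comm₀ hδ (norm_pos_iff.2 hw0)]
      exact h1
    rw [dist_eq_norm] at hdist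
    have h1 : ‖w⁻¹ - k‖ < δ / 2 := hdist.trans_le (min_le_left _ _)
    have h2 : ‖w⁻¹ - k‖ < d' * δ ^ 2 / 2 := hdist.trans_le (min_le_right _ _)
    have hk2 : δ / 2 < ‖k‖ := by
      have := norm_sub_norm_le w⁻¹ k
      linarith
    have hk0 : k ≠ 0 := by
      intro h0
      rw [h0, norm_zero] at hk2
      linarith
    have h3 : k⁻¹ ∈ thickening d' (g '' closedBall 0 r) := by
      rw [mem_thickening_iff]
      refine ⟨w, hw, ?_⟩
      rw [dist_eq_norm]
      have e : k⁻¹ - w = (w⁻¹ - k) * (w * k⁻¹) := by field_simp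
      rw [e, norm_mul, norm_mul, norm_inv]
      have h4 : ‖w‖ ≤ δ⁻¹ := norm_le_of_mem_Ustar S.δpos S.ballK (hCU hw)
      have h5 : ‖k‖⁻¹ < (δ / 2)⁻¹ := (inv_lt_inv₀ (by positivity) (by positivity)).2 hk2
      calc ‖w⁻¹ - k‖ * (‖w‖ * ‖k‖⁻¹) ≤ ‖w⁻¹ - k‖ * (δ⁻¹ * (δ / 2)⁻¹) := by gcongr
        _ < (d' * δ ^ 2 / 2) * (δ⁻¹ * (δ / 2)⁻¹) := by gcongr
        _ = d' := by field_simp
    have h6 := hth h3
    rcases h6 with h6 | h6
    · exact hk0 (inv_eq_zero.1 h6)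
    · rw [inv_inv] at h6
      exact h6 hk

/-- The perturbed map: for the convex combination `H = (1-t) γ + t e` (with `ζ e(ζ) = et ζ`) the
map `g⁻¹ ∘ (1/H)` expands. -/
theorem Setup.key (S : Setup K δ g) (et : ℂ → ℂ) (het : DifferentiableOn ℂ et (ball 0 1))
    (hbd : ∀ ε > 0, ∃ r < 1, ∀ ζ ∈ ball (0 : ℂ) 1, r < ‖ζ‖ → infDist (et ζ / ζ) K < ε)
    (t : ℝ) (ht0 : 0 ≤ t) (ht1 : t ≤ 1) (h0 : (1 - t) * kap g 0 + t * et 0 ≠ 0)
    (ζ : ℂ) (hζ : ζ ∈ ball (0 : ℂ) 1) (hne : (1 - t) * kap g ζ + t * et ζ ≠ 0)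
    (hU : ζ / ((1 - t) * kap g ζ + t * et ζ) ∈ Ustar K) :
    ‖ζ‖ ≤ ‖ginv g (ζ / ((1 - t) * kap g ζ + t * et ζ))‖ := by
  set hH : ℂ → ℂ := fun ζ => (1 - t) * kap g ζ + t * et ζ with hhH
  have hHd : DifferentiableOn ℂ hH (ball 0 1) :=
    (S.kap_diff.const_mul _).add (het.const_mul _)
  set W : ℂ → ℂ := fun ζ => ζ / hH ζ with hW
  -- the open set `O`
  set O1 : Set ℂ := ball (0 : ℂ) 1 ∩ hH ⁻¹' {0}ᶜ with hO1
  have hO1o : IsOpen O1 := hHd.continuousOn.isOpen_inter_preimage isOpen_ball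
    isOpen_compl_singleton
  have hWd : DifferentiableOn ℂ W O1 := by
    apply DifferentiableOn.fun_div differentiableOn_id (hHd.mono inter_subset_left)
    intro z hz
    exact hz.2
  set O : Set ℂ := O1 ∩ W ⁻¹' (Ustar K) with hO
  have hOo : IsOpen O := hWd.continuousOn.isOpen_inter_preimage hO1o (isOpen_Ustar S.cpt)
  have hO0 : (0 : ℂ) ∈ O := by
    refine ⟨⟨mem_ball_self one_pos, h0⟩, ?_⟩
    simp [hW, zero_mem_Ustar]
  set q : ℂ → ℂ := fun ζ => ginv g (W ζ) with hq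
  have hqd : DifferentiableOn ℂ q O := by
    intro z hz
    have h1 : DifferentiableAt ℂ (ginv g) (W z) := S.ginv_diffAt hz.2
    have h2 : DifferentiableAt ℂ W z :=
      hWd.differentiableAt (hO1o.mem_nhds hz.1)
    exact (h1.comp z h2).differentiableWithinAt
  have hginv0 : ginv g 0 = 0 := by
    have h := S.ginv_g (mem_ball_self one_pos)
    rw [S.zero] at h
    exact h
  have hW0 : W 0 = 0 := by simp [hW]
  have hq0 : q 0 = 0 := by
    show ginv g (W 0) = 0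
    rw [hW0, hginv0]
  have hgq : ∀ z ∈ O, g (q z) = W z := fun z hz => S.g_ginv hz.2
  have hqmem : ∀ z ∈ O, q z ∈ ball (0 : ℂ) 1 := fun z hz => S.ginv_mem hz.2
  set qt : ℂ → ℂ := dslope q 0 with hqt
  have hqtd : DifferentiableOn ℂ qt O := (differentiableOn_dslope (hOo.mem_nhds hO0)).2 hqd
  have hqeq : ∀ z, q z = z * qt z := by
    intro z
    have := sub_smul_dslope q 0 z
    rw [hq0, sub_zero, sub_zero, smul_eq_mul] at this
    exact this.symm
  have hqtne : ∀ z ∈ O, qt z ≠ 0 := by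
    intro z hz
    by_cases hz0 : z = 0
    · subst hz0
      rw [hqt, dslope_same]
      have h1 : HasDerivAt W (1 / hH 0) 0 := by
        have h2 := (hasDerivAt_id (0 : ℂ)).fun_div
          (hHd.differentiableAt (ball_mem_nhds _ one_pos)).hasDerivAt h0
        refine h2.congr_deriv ?_
        simp only [id, one_mul, zero_mul, sub_zero]
        rw [div_eq_div_iff (pow_ne_zero 2 h0) h0]
        ring
      have h3 : HasDerivAt (ginv g) (deriv g 0)⁻¹ (W 0) := by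
        have h4 := S.hasDerivAt_ginv (mem_ball_self (x := (0 : ℂ)) one_pos)
        rw [S.zero] at h4
        rw [hW0]
        exact h4
      have h5 : HasDerivAt q ((deriv g 0)⁻¹ * (1 / hH 0)) 0 := h3.comp 0 h1
      rw [h5.deriv]
      exact mul_ne_zero (inv_ne_zero (S.deriv_ne (mem_ball_self one_pos)))
        (one_div_ne_zero h0)
    · intro h
      have h1 : q z = 0 := by rw [hqeq, h, mul_zero]
      have h2 := hgq z hz
      rw [h1, S.zero] at h2
      have h3 : z = 0 := by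
        rcases div_eq_zero_iff.1 h2.symm with h | h
        · exact h
        · exact absurd h hz.1.2
      exact hz0 h3
  set u : ℂ → ℂ := fun z => (qt z)⁻¹ with hu
  have hud : DifferentiableOn ℂ u O := hqtd.fun_inv hqtne
  have hζO : ζ ∈ O := ⟨⟨hζ, hne⟩, hU⟩
  -- it suffices to bound `u`
  suffices hmain : ∀ z ∈ O, ‖u z‖ ≤ 1 by
    have h1 := hmain ζ hζO
    have h2 : q ζ = ζ * qt ζ := hqeq ζ
    have h3 : ζ = q ζ * u ζ := by
      rw [h2, hu]
      field_simp [hqtne ζ hζO]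
    calc ‖ζ‖ = ‖q ζ‖ * ‖u ζ‖ := by rw [← norm_mul, ← h3]
      _ ≤ ‖q ζ‖ * 1 := mul_le_mul_of_nonneg_left h1 (norm_nonneg _)
      _ = ‖q ζ‖ := mul_one _
  by_contra hcon
  push Not at hcon
  obtain ⟨ζ0, hζ0O, hζ0⟩ := hcon
  set a : ℝ := ‖u ζ0‖ with ha
  have ha0 : 0 < a := by linarith
  set r0 : ℝ := a⁻¹ with hr0
  have hr01 : r0 < 1 := inv_lt_one_of_one_lt₀ hζ0
  have hr0pos : 0 < r0 := inv_pos.2 ha0
  set Sset : Set ℂ := {z | z ∈ O ∧ a ≤ ‖u z‖} with hSset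
  set C : Set ℂ := g '' closedBall 0 r0 with hC
  have hsub : closedBall (0 : ℂ) r0 ⊆ ball 0 1 := closedBall_subset_ball hr01
  have hCc : IsCompact C :=
    (isCompact_closedBall (0 : ℂ) r0).image_of_continuousOn (S.diff.continuousOn.mono hsub)
  have hCU : C ⊆ Ustar K := by
    rintro _ ⟨z, hz, rfl⟩
    exact S.g_mem (hsub hz)
  have hSC : ∀ z ∈ Sset, W z ∈ C := by
    intro z hz
    refine ⟨q z, ?_, hgq z hz.1⟩
    rw [mem_closedBall_zero_iff, hqeq, norm_mul]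
    have h1 : ‖z‖ < 1 := by
      have := hz.1.1.1
      rwa [mem_ball_zero_iff] at this
    have h2 : ‖qt z‖ ≤ r0 := by
      have h3 := hz.2
      rw [hu, norm_inv] at h3
      rw [hr0]
      exact (le_inv_comm₀ (norm_pos_iff.2 (hqtne z hz.1)) ha0).2 h3
    calc ‖z‖ * ‖qt z‖ ≤ 1 * ‖qt z‖ := mul_le_mul_of_nonneg_right h1.le (norm_nonneg _)
      _ ≤ r0 := by rw [one_mul]; exact h2
  -- `Sset` stays away from the unit circle
  obtain ⟨R, hR1, hSR⟩ : ∃ R < 1, ∀ z ∈ Sset, ‖z‖ ≤ R := by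
    obtain ⟨d, hd, haway⟩ := S.away hr01
    obtain ⟨r1, hr1, h1⟩ := S.proper hd
    obtain ⟨r2, hr2, h2⟩ := hbd d hd
    refine ⟨max (max r1 r2) 0, max_lt (max_lt hr1 hr2) one_pos, ?_⟩
    intro z hz
    by_contra hlt
    push Not at hlt
    have hz1 : r1 < ‖z‖ := (le_max_left _ _).trans_lt ((le_max_left _ _).trans_lt hlt)
    have hz2 : r2 < ‖z‖ := (le_max_right _ _).trans_lt ((le_max_left _ _).trans_lt hlt)
    have hz3 : 0 < ‖z‖ := (le_max_right _ _).trans_lt hlt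
    have hz0 : z ≠ 0 := norm_pos_iff.1 hz3
    have hzb : z ∈ ball (0 : ℂ) 1 := hz.1.1.1
    have hHz : hH z ≠ 0 := hz.1.1.2
    have hW1 : W z ≠ 0 := div_ne_zero hz0 hHz
    have h3 := haway (W z) (hSC z hz) hW1
    have h4 := h1 z hzb hz1
    have h5 := h2 z hzb hz2
    rw [← mem_thickening_iff_infDist_lt S.K_nonempty] at h4 h5
    have h6 := (S.conv.thickening d) h4 h5 (by linarith : (0 : ℝ) ≤ 1 - t) ht0 (by ring)
    rw [mem_thickening_iff_infDist_lt S.K_nonempty] at h6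
    have h7 : (W z)⁻¹ = (1 - t) • (g z)⁻¹ + t • (et z / z) := by
      rw [← S.gam_eq z, gam, hW]
      simp only [hhH, Complex.real_smul]
      push_cast
      field_simp
    rw [h7] at h3
    linarith
  -- compactness
  set P : Set (ℂ × ℂ) := (closedBall (0 : ℂ) R ×ˢ C) ∩ (fun p : ℂ × ℂ => p.1 - p.2 * hH p.1) ⁻¹' {0}
    with hP
  have hRsub : closedBall (0 : ℂ) R ⊆ ball 0 1 := closedBall_subset_ball hR1
  have hPclosed : IsClosed P := by
    apply ContinuousOn.preimage_isClosed_of_isClosed _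
      ((isClosed_closedBall).prod hCc.isClosed) isClosed_singleton
    apply continuousOn_fst.sub
    apply continuousOn_snd.mul
    exact (hHd.continuousOn.mono hRsub).comp continuousOn_fst (fun p hp => hp.1)
  have hPc : IsCompact P :=
    ((isCompact_closedBall (0 : ℂ) R).prod hCc).of_isClosed_subset hPclosed inter_subset_left
  have hS1c : IsCompact (Prod.fst '' P) := hPc.image continuous_fst
  have hS1O : Prod.fst '' P ⊆ O := by
    rintro _ ⟨⟨z, w⟩, ⟨⟨hz, hw⟩, hzw⟩, rfl⟩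
    simp only [mem_preimage, mem_singleton_iff] at hzw hz hw
    have hzw' : z = w * hH z := sub_eq_zero.1 hzw
    have hHz : hH z ≠ 0 := by
      intro h
      rw [h, mul_zero] at hzw'
      rw [hzw'] at h
      exact h0 h
    refine ⟨⟨hRsub hz, hHz⟩, ?_⟩
    have : W z = w := by
      show z / hH z = w
      rw [div_eq_iff hHz]; exact hzw'
    show W z ∈ Ustar K
    rw [this]
    exact hCU hw
  have hSS1 : Sset ⊆ Prod.fst '' P := by
    intro z hz
    refine ⟨(z, W z), ⟨⟨?_, hSC z hz⟩, ?_⟩, rfl⟩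
    · rw [mem_closedBall_zero_iff]; exact hSR z hz
    · simp only [mem_preimage, mem_singleton_iff]
      have hHz : hH z ≠ 0 := hz.1.1.2
      show z - z / hH z * hH z = 0
      rw [div_mul_cancel₀ _ hHz, sub_self]
  have hScl : IsClosed Sset := by
    have h1 : IsClosed ((Prod.fst '' P) ∩ (fun z => ‖u z‖) ⁻¹' Ici a) :=
      ContinuousOn.preimage_isClosed_of_isClosed ((hud.continuousOn.mono hS1O).norm)
        hS1c.isClosed isClosed_Ici
    have h2 : Sset = (Prod.fst '' P) ∩ (fun z => ‖u z‖) ⁻¹' Ici a := by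
      ext z
      constructor
      · intro hz
        exact ⟨hSS1 hz, hz.2⟩
      · rintro ⟨hz1, hz2⟩
        exact ⟨hS1O hz1, hz2⟩
    rw [h2]; exact h1
  have hSc : IsCompact Sset := hS1c.of_isClosed_subset hScl hSS1
  obtain ⟨zm, hzm, hmax⟩ := hSc.exists_isMaxOn ⟨ζ0, hζ0O, le_rfl⟩
    ((hud.continuousOn.mono (fun z hz => hz.1)).norm)
  set M : ℝ := ‖u zm‖ with hM
  have hMa : a ≤ M := hzm.2
  have hOM : ∀ z ∈ O, ‖u z‖ ≤ M := by
    intro z hz
    by_cases h : a ≤ ‖u z‖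
    · exact hmax (show z ∈ Sset from ⟨hz, h⟩)
    · push Not at h
      linarith
  set Tset : Set ℂ := {z | z ∈ O ∧ ‖u z‖ = M} with hT
  have hTS : Tset = Sset ∩ (fun z => ‖u z‖) ⁻¹' {M} := by
    ext z
    constructor
    · rintro ⟨h1, h2⟩
      exact ⟨⟨h1, by rw [h2]; exact hMa⟩, h2⟩
    · rintro ⟨h1, h2⟩
      exact ⟨h1.1, h2⟩
  have hTcl : IsClosed Tset := by
    rw [hTS]
    exact ContinuousOn.preimage_isClosed_of_isClosed
      ((hud.continuousOn.mono (fun z hz => hz.1)).norm) hScl isClosed_singleton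
  have hTo : IsOpen Tset := by
    rw [isOpen_iff_mem_nhds]
    rintro z ⟨hzO, hzM⟩
    have hloc : IsLocalMax (norm ∘ u) z := by
      filter_upwards [hOo.mem_nhds hzO] with y hy
      show ‖u y‖ ≤ ‖u z‖
      rw [hzM]
      exact hOM y hy
    have hdiff : ∀ᶠ y in 𝓝 z, DifferentiableAt ℂ u y := by
      filter_upwards [hOo.mem_nhds hzO] with y hy
      exact hud.differentiableAt (hOo.mem_nhds hy)
    filter_upwards [Complex.eventually_eq_of_isLocalMax_norm hdiff hloc, hOo.mem_nhds hzO]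
      with y hy1 hy2
    exact ⟨hy2, by rw [hy1, hzM]⟩
  have hTuniv : Tset = univ := IsClopen.eq_univ ⟨hTcl, hTo⟩ ⟨zm, hzm.1, rfl⟩
  have hTc : IsCompact Tset := by
    refine hSc.of_isClosed_subset hTcl ?_
    rw [hTS]; exact inter_subset_left
  rw [hTuniv] at hTc
  exact noncompact_univ ℂ hTc

theorem Setup.key_re (S : Setup K δ g) (et : ℂ → ℂ) (het : DifferentiableOn ℂ et (ball 0 1))
    (hbd : ∀ ε > 0, ∃ r < 1, ∀ ζ ∈ ball (0 : ℂ) 1, r < ‖ζ‖ → infDist (et ζ / ζ) K < ε)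
    (ζ : ℂ) (hζ : ζ ∈ ball (0 : ℂ) 1) (hζ0 : ζ ≠ 0) :
    0 ≤ (eker (kap g) ζ / (kap g ζ - et ζ)).re := by
  set D : ℂ → ℂ := fun s => (1 - s) * kap g ζ + s * et ζ with hD
  have hD0 : D 0 = kap g ζ := by simp [hD]
  have hκ := S.kap_ne hζ
  have hDd : HasDerivAt D (et ζ - kap g ζ) 0 := by
    have h1 : HasDerivAt (fun s : ℂ => (1 - s) * kap g ζ) (-kap g ζ) 0 := by
      have := ((hasDerivAt_id (0 : ℂ)).const_sub 1).mul_const (kap g ζ)
      simpa using this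
    have h2 : HasDerivAt (fun s : ℂ => s * et ζ) (et ζ) 0 := by
      have := (hasDerivAt_id (0 : ℂ)).mul_const (et ζ)
      simpa using this
    have h3 := h1.fun_add h2
    exact h3.congr_deriv (by ring)
  have hWd : HasDerivAt (fun s => ζ / D s) (ζ * (kap g ζ - et ζ) / kap g ζ ^ 2) 0 := by
    have h1 := (hasDerivAt_const (0 : ℂ) ζ).fun_div hDd (by rw [hD0]; exact hκ)
    refine h1.congr_deriv ?_
    rw [hD0]
    ring
  have hgζ : ζ / D 0 = g ζ := by
    rw [hD0, kap, div_inv_eq_mul]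
    exact (S.g_eq ζ).symm
  set q' : ℂ := (deriv g ζ)⁻¹ * (ζ * (kap g ζ - et ζ) / kap g ζ ^ 2) with hq'
  have hqd : HasDerivAt (fun s : ℂ => ginv g (ζ / D s)) q' 0 := by
    have h1 : HasDerivAt (ginv g) (deriv g ζ)⁻¹ (ζ / D 0) := by
      rw [hgζ]; exact S.hasDerivAt_ginv hζ
    exact h1.comp (0 : ℂ) hWd
  have hqr : HasDerivAt (fun s : ℝ => ginv g (ζ / D s)) q' 0 :=
    HasDerivAt.comp_ofReal (by rw [ofReal_zero]; exact hqd)
  have hns := hqr.norm_sq
  have hval0 : ginv g (ζ / D ((0 : ℝ) : ℂ)) = ζ := by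
    rw [ofReal_zero, hgζ, S.ginv_g hζ]
  -- the inequality for small `t`
  have hev : ∀ᶠ s : ℝ in 𝓝[>] 0, ‖ζ‖ ≤ ‖ginv g (ζ / D s)‖ := by
    have c1 : Continuous (fun s : ℝ => (1 - (s : ℂ)) * kap g 0 + s * et 0) := by fun_prop
    have c2 : Continuous (fun s : ℝ => D s) := by
      simp only [hD]; fun_prop
    have e1 : ∀ᶠ s : ℝ in 𝓝 0, (1 - (s : ℂ)) * kap g 0 + s * et 0 ≠ 0 := by
      apply c1.continuousAt.eventually_ne
      simpa using S.kap_ne (mem_ball_self (x := (0 : ℂ)) one_pos)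
    have e2 : ∀ᶠ s : ℝ in 𝓝 0, D s ≠ 0 := by
      apply c2.continuousAt.eventually_ne
      rw [ofReal_zero, hD0]; exact hκ
    have e3 : ∀ᶠ s : ℝ in 𝓝 0, ζ / D s ∈ Ustar K := by
      have c3 : ContinuousAt (fun s : ℝ => ζ / D s) 0 := by
        apply ContinuousAt.div continuousAt_const c2.continuousAt
        rw [ofReal_zero, hD0]; exact hκ
      apply c3.eventually ((isOpen_Ustar S.cpt).mem_nhds _)
      show ζ / D ((0 : ℝ) : ℂ) ∈ Ustar K
      rw [ofReal_zero, hgζ]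
      exact S.g_mem hζ
    have e4 : ∀ᶠ s : ℝ in 𝓝 0, s < 1 := gt_mem_nhds one_pos
    have e := ((e1.and e2).and (e3.and e4)).filter_mono (nhdsWithin_le_nhds (s := Ioi (0 : ℝ)))
    filter_upwards [e, self_mem_nhdsWithin] with s hs hs0
    obtain ⟨⟨h1, h2⟩, h3, h4⟩ := hs
    exact S.key et het hbd s (le_of_lt hs0) h4.le h1 ζ hζ h2 h3
  have hder : 0 ≤ 2 * inner ℝ (ginv g (ζ / D ((0 : ℝ) : ℂ))) q' := by
    have h1 := (hasDerivWithinAt_iff_tendsto_slope' (s := Ioi (0 : ℝ)) (by simp)).1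
      hns.hasDerivWithinAt
    refine ge_of_tendsto h1 ?_
    filter_upwards [hev, self_mem_nhdsWithin] with s hs hs0
    rw [slope_def_field]
    apply div_nonneg
    · show 0 ≤ ‖ginv g (ζ / D (s : ℂ))‖ ^ 2 - ‖ginv g (ζ / D ((0 : ℝ) : ℂ))‖ ^ 2
      rw [hval0]
      have := norm_nonneg ζ
      nlinarith
    · have : (0 : ℝ) < s := hs0
      linarith
  rw [hval0, Complex.inner] at hder
  have hE := S.eker_eq hζ
  have hE0 := S.eker_ne hζ
  have e1 : q' * (starRingEnd ℂ) ζ = ((‖ζ‖ ^ 2 : ℝ) : ℂ) * ((kap g ζ - et ζ) / eker (kap g) ζ) := by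
    have h1 : ((‖ζ‖ ^ 2 : ℝ) : ℂ) = ζ * (starRingEnd ℂ) ζ := by
      rw [Complex.mul_conj, Complex.normSq_eq_norm_sq]
    rw [h1, hE, hq']
    have := S.deriv_ne hζ
    field_simp
  rw [e1, Complex.re_ofReal_mul] at hder
  have hζn : 0 < ‖ζ‖ := norm_pos_iff.2 hζ0
  have h2 : 0 ≤ ((kap g ζ - et ζ) / eker (kap g) ζ).re := by
    by_contra h
    push Not at h
    have : ‖ζ‖ ^ 2 * ((kap g ζ - et ζ) / eker (kap g) ζ).re < 0 :=
      mul_neg_of_pos_of_neg (by positivity) h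
    linarith
  rw [← inv_div, Complex.inv_re]
  exact div_nonneg h2 (Complex.normSq_nonneg _)

end setup

/-- curve for a convex compact set containing a ball around `0`. -/
theorem exists_curve_aux {K : Set ℂ} {δ : ℝ} {g : ℂ → ℂ} (S : Setup K δ g) (ε : ℝ) (hε : 0 < ε) :
    ∃ (κ : ℂ → ℂ) (ρ : ℝ), ConvexCurve κ ρ ∧ (∀ a ∈ K, StarAt κ ρ a) ∧
      ∀ ζ : ℂ, ‖ζ‖ = 1 → infDist (gam κ ζ) K < ε := by
  obtain ⟨r1, hr1, hprop⟩ := S.proper hε
  obtain ⟨r, hr0, hrr1, hr⟩ : ∃ r : ℝ, 0 < r ∧ r1 < r ∧ r < 1 := by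
    obtain ⟨r, h1, h2⟩ := exists_between (max_lt hr1 one_pos)
    exact ⟨r, (le_max_right _ _).trans_lt h1, (le_max_left _ _).trans_lt h1, h2⟩
  have hrC : (r : ℂ) ≠ 0 := by exact_mod_cast hr0.ne'
  set κ : ℂ → ℂ := fun ζ => kap g (r * ζ) / r with hκ
  have hmem : ∀ ζ ∈ ball (0 : ℂ) (1 / r), (r : ℂ) * ζ ∈ ball (0 : ℂ) 1 := by
    intro ζ hζ
    rw [mem_ball_zero_iff] at hζ ⊢
    rw [norm_mul, Complex.norm_real, Real.norm_eq_abs, abs_of_pos hr0]
    rw [lt_div_iff₀ hr0] at hζ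
    linarith
  have h1r : 1 < 1 / r := by rw [lt_div_iff₀ hr0]; linarith
  have hone : ∀ ζ : ℂ, ‖ζ‖ = 1 → ζ ∈ ball (0 : ℂ) (1 / r) := by
    intro ζ hζ
    rw [mem_ball_zero_iff, hζ]; exact h1r
  have hnorm : ∀ ζ : ℂ, ‖ζ‖ = 1 → ‖(r : ℂ) * ζ‖ = r := by
    intro ζ hζ
    rw [norm_mul, Complex.norm_real, Real.norm_eq_abs, abs_of_pos hr0, hζ, mul_one]
  have hκd : ∀ ζ ∈ ball (0 : ℂ) (1 / r), HasDerivAt κ (deriv (kap g) (r * ζ)) ζ := by
    intro ζ hζ
    have h1 : HasDerivAt (kap g) (deriv (kap g) (r * ζ)) (r * ζ) :=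
      (S.kap_diff.differentiableAt (isOpen_ball.mem_nhds (hmem ζ hζ))).hasDerivAt
    have h2 : HasDerivAt (fun ζ : ℂ => (r : ℂ) * ζ) (r : ℂ) ζ := by
      simpa using (hasDerivAt_id ζ).const_mul (r : ℂ)
    have h3 := (h1.comp ζ h2).div_const (r : ℂ)
    refine h3.congr_deriv ?_
    field_simp
  have heker : ∀ ζ ∈ ball (0 : ℂ) (1 / r), eker κ ζ = eker (kap g) (r * ζ) / r := by
    intro ζ hζ
    rw [eker, eker, (hκd ζ hζ).deriv, hκ]
    field_simp
  refine ⟨κ, 1 / r, ?_, ?_, ?_⟩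
  · refine ⟨h1r, ?_, ?_, ?_, ?_, ?_⟩
    · intro ζ hζ
      exact (hκd ζ hζ).differentiableAt.differentiableWithinAt
    · rw [hκ]
      simp only [mul_zero]
      exact div_ne_zero (S.kap_ne (mem_ball_self one_pos)) hrC
    · intro ζ hζ ξ hξ h
      have h1 : g (r * ζ) = g (r * ξ) := by
        rw [S.g_eq, S.g_eq]
        have h2 := S.gt_ne (hmem ζ hζ)
        have h3 := S.gt_ne (hmem ξ hξ)
        simp only [hκ, kap] at h
        generalize gt g (r * ζ) = a at *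
        generalize gt g (r * ξ) = b at *
        field_simp at h
        linear_combination (-(r : ℂ)) * h
      exact mul_left_cancel₀ hrC (S.inj (hmem ζ hζ) (hmem ξ hξ) h1)
    · intro ζ hζ
      rw [heker ζ hζ]
      exact div_ne_zero (S.eker_ne (hmem ζ hζ)) hrC
    · intro ζ ξ hζ hξ hne
      rw [heker ζ (hone ζ hζ)]
      have hζ0 : ζ ≠ 0 := by rw [← norm_pos_iff, hζ]; exact one_pos
      have hξ0 : ξ ≠ 0 := by rw [← norm_pos_iff, hξ]; exact one_pos
      set c : ℂ := ξ / ζ with hc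
      have hc0 : c ≠ 0 := div_ne_zero hξ0 hζ0
      have hcn : ‖c‖ = 1 := by rw [hc, norm_div, hζ, hξ, div_one]
      set et : ℂ → ℂ := fun z => kap g (c * z) / c with het
      have hcmem : ∀ z ∈ ball (0 : ℂ) 1, c * z ∈ ball (0 : ℂ) 1 := by
        intro z hz
        rw [mem_ball_zero_iff] at hz ⊢
        rwa [norm_mul, hcn, one_mul]
      have hetd : DifferentiableOn ℂ et (ball 0 1) := by
        apply DifferentiableOn.div_const
        exact S.kap_diff.comp (by fun_prop) hcmem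
      have hbd : ∀ ε > 0, ∃ r < 1, ∀ ζ ∈ ball (0 : ℂ) 1, r < ‖ζ‖ →
          infDist (et ζ / ζ) K < ε := by
        intro ε hε
        obtain ⟨s, hs, h⟩ := S.proper hε
        refine ⟨s, hs, fun z hz hsz => ?_⟩
        have h1 := h (c * z) (hcmem z hz) (by rwa [norm_mul, hcn, one_mul])
        rw [← S.gam_eq, gam] at h1
        have e : et z / z = kap g (c * z) / (c * z) := by
          simp only [het]; rw [div_div]
        rw [e]; exact h1
      have hrz0 : (r : ℂ) * ζ ≠ 0 := mul_ne_zero hrC hζ0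
      have h1 := S.key_re et hetd hbd (r * ζ) (hmem ζ (hone ζ hζ)) hrz0
      have e : ξ * (eker (kap g) (r * ζ) / r) / (ξ * κ ζ - ζ * κ ξ) =
          eker (kap g) (r * ζ) / (kap g (r * ζ) - et (r * ζ)) := by
        have e1 : c * (r * ζ) = r * ξ := by
          rw [hc]; field_simp
        have e3 : et (r * ζ) = kap g (r * ξ) / c := by
          simp only [het]; rw [e1]
        rw [e3]
        simp only [hκ]
        generalize kap g (r * ζ) = A
        generalize kap g (r * ξ) = B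
        generalize eker (kap g) (r * ζ) = E
        have e2 : ξ * (A / r) - ζ * (B / r) = (ξ / r) * (A - B / c) := by
          rw [hc]; field_simp
        have e4 : ξ * (E / r) = (ξ / r) * E := by ring
        rw [e2, e4, mul_div_mul_left _ _ (div_ne_zero hξ0 hrC)]
      rw [e]
      exact h1
  · intro a ha
    have hg0 : ∀ z ∈ ball (0 : ℂ) 1, kap g z ≠ z * a := by
      intro z hz h
      by_cases hz0 : z = 0
      · subst hz0
        rw [zero_mul] at h
        exact S.kap_ne hz h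
      · have h1 : (g z)⁻¹ = a := by
          rw [← S.gam_eq, gam, h, mul_div_cancel_left₀ _ hz0]
        rcases S.g_mem hz with h2 | h2
        · rw [← S.zero] at h2
          exact hz0 (S.inj hz (mem_ball_self one_pos) h2)
        · rw [h1] at h2
          exact h2 ha
    refine ⟨?_, ?_⟩
    · intro ζ hζ h
      apply hg0 (r * ζ) (hmem ζ hζ)
      simp only [hκ] at h
      rw [div_eq_iff hrC] at h
      rw [h]; ring
    · intro ζ hζ
      have hζ0 : ζ ≠ 0 := by rw [← norm_pos_iff, hζ]; exact one_pos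
      rw [heker ζ (hone ζ hζ)]
      have h1 := S.key_re (fun z => z * a) (by fun_prop) (fun ε hε => by
        refine ⟨0, one_pos, fun z hz hz0 => ?_⟩
        rw [mul_div_cancel_left₀ _ (norm_pos_iff.1 hz0), infDist_zero_of_mem ha]
        exact hε) (r * ζ) (hmem ζ (hone ζ hζ)) (mul_ne_zero hrC hζ0)
      have e : eker (kap g) (r * ζ) / r / (κ ζ - ζ * a) =
          eker (kap g) (r * ζ) / (kap g (r * ζ) - r * ζ * a) := by
        simp only [hκ]
        rw [div_div]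
        congr 1
        field_simp
      rw [e]
      exact h1
  · intro ζ hζ
    have h1 := hprop (r * ζ) (hmem ζ (hone ζ hζ)) (by rw [hnorm ζ hζ]; exact hrr1)
    rw [← S.gam_eq, gam] at h1
    have e : gam κ ζ = kap g (r * ζ) / (r * ζ) := by
      rw [gam, hκ]
      simp only
      rw [div_div]
    rw [e]; exact h1

/-- translation of a curve -/
theorem convexCurve_add {κ : ℂ → ℂ} {ρ : ℝ} (h : ConvexCurve κ ρ) (z0 : ℂ) :
    ConvexCurve (fun ζ => κ ζ + z0 * ζ) ρ ∧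
      (∀ ζ ∈ ball (0 : ℂ) ρ, eker (fun ζ => κ ζ + z0 * ζ) ζ = eker κ ζ) := by
  have he : ∀ ζ ∈ ball (0 : ℂ) ρ, eker (fun ζ => κ ζ + z0 * ζ) ζ = eker κ ζ := by
    intro ζ hζ
    have h1 : HasDerivAt κ (deriv κ ζ) ζ :=
      (h.diff.differentiableAt (isOpen_ball.mem_nhds hζ)).hasDerivAt
    have h2 : HasDerivAt (fun ζ => κ ζ + z0 * ζ) (deriv κ ζ + z0) ζ := by
      have h3 : HasDerivAt (fun ζ : ℂ => z0 * ζ) z0 ζ := by
        simpa using (hasDerivAt_id ζ).const_mul z0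
      exact h1.fun_add h3
    rw [eker, eker, h2.deriv]
    ring
  have hone : ∀ ζ : ℂ, ‖ζ‖ = 1 → ζ ∈ ball (0 : ℂ) ρ := by
    intro ζ hζ
    rw [mem_ball_zero_iff, hζ]; exact h.one_lt
  refine ⟨⟨h.one_lt, ?_, ?_, ?_, ?_, ?_⟩, he⟩
  · exact h.diff.fun_add (by fun_prop)
  · simpa using h.zero_ne
  · intro ζ hζ ξ hξ hh
    refine h.inj ζ hζ ξ hξ ?_
    linear_combination hh
  · intro ζ hζ
    rw [he ζ hζ]; exact h.eker_ne ζ hζ
  · intro ζ ξ hζ hξ hne
    rw [he ζ (hone ζ hζ)]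
    have e : ξ * (κ ζ + z0 * ζ) - ζ * (κ ξ + z0 * ξ) = ξ * κ ζ - ζ * κ ξ := by ring
    simp only [e]
    exact h.convex ζ ξ hζ hξ hne

theorem starAt_add {κ : ℂ → ℂ} {ρ : ℝ} (h : ConvexCurve κ ρ) (z0 a : ℂ) (hs : StarAt κ ρ a) :
    StarAt (fun ζ => κ ζ + z0 * ζ) ρ (a + z0) := by
  obtain ⟨-, he⟩ := convexCurve_add h z0
  refine ⟨?_, ?_⟩
  · intro ζ hζ hh
    exact hs.ne ζ hζ (by linear_combination hh)
  · intro ζ hζ
    rw [he ζ (by rw [mem_ball_zero_iff, hζ]; exact h.one_lt)]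
    have e : κ ζ + z0 * ζ - ζ * (a + z0) = κ ζ - ζ * a := by ring
    simp only [e]
    exact hs.pos ζ hζ

end Ext

/-- CHUNK 2, from the Riemann mapping theorem for bounded star-shaped domains. -/
theorem exists_curve_of_rmt
    (RMT : ∀ U : Set ℂ, IsOpen U → StarConvex ℝ 0 U → (0 : ℂ) ∈ U → Bornology.IsBounded U →
      ∃ g : ℂ → ℂ, DifferentiableOn ℂ g (ball 0 1) ∧ InjOn g (ball 0 1) ∧
        g '' ball 0 1 = U ∧ g 0 = 0)
    (K : Set ℂ) (hK : IsCompact K) (hconv : Convex ℝ K) (hne : K.Nonempty)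
    (V : Set ℂ) (hV : IsOpen V) (hKV : K ⊆ V) :
    ∃ (κ : ℂ → ℂ) (ρ : ℝ), ConvexCurve κ ρ ∧ (∀ a ∈ K, StarAt κ ρ a) ∧
      ∀ ζ : ℂ, ‖ζ‖ = 1 → gam κ ζ ∈ V := by
  obtain ⟨δ, hδ, hth⟩ := hK.exists_cthickening_subset_open hV hKV
  have hδ2 : 0 < δ / 2 := by positivity
  obtain ⟨z0, hz0⟩ := hne
  -- the translated thickening
  set K1 : Set ℂ := (fun z => z + z0) ⁻¹' (cthickening (δ / 2) K) with hK1
  have hK1c : IsCompact K1 := by
    have : K1 = (Homeomorph.addRight z0) ⁻¹' (cthickening (δ / 2) K) := rfl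
    rw [this, (Homeomorph.addRight z0).isCompact_preimage]
    exact hK.cthickening
  have hK1conv : Convex ℝ K1 := by
    have h := (hconv.cthickening (δ / 2)).translate_preimage_left z0
    exact h
  have hK1b : ball (0 : ℂ) (δ / 2) ⊆ K1 := by
    intro z hz
    rw [mem_ball_zero_iff] at hz
    show z + z0 ∈ cthickening (δ / 2) K
    apply mem_cthickening_of_dist_le _ z0 _ _ hz0
    rw [dist_eq_norm, add_sub_cancel_right]
    exact hz.le
  have h0K1 : (0 : ℂ) ∈ K1 := hK1b (mem_ball_self hδ2)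
  obtain ⟨g, hg1, hg2, hg3, hg4⟩ := RMT (Ext.Ustar K1) (Ext.isOpen_Ustar hK1c)
    (Ext.starConvex_Ustar hK1conv h0K1) (Ext.zero_mem_Ustar K1)
    ((isBounded_closedBall (x := (0 : ℂ)) (r := (δ / 2)⁻¹)).subset (fun w hw => by
      rw [mem_closedBall_zero_iff]
      exact Ext.norm_le_of_mem_Ustar hδ2 hK1b hw))
  have S : Ext.Setup K1 (δ / 2) g := ⟨hK1c, hK1conv, hδ2, hK1b, hg1, hg2, hg3, hg4⟩
  obtain ⟨κ, ρ, hκ, hstar, hnear⟩ := Ext.exists_curve_aux S (δ / 2) hδ2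
  refine ⟨fun ζ => κ ζ + z0 * ζ, ρ, (Ext.convexCurve_add hκ z0).1, ?_, ?_⟩
  · intro a ha
    have h1 : a - z0 ∈ K1 := by
      show a - z0 + z0 ∈ cthickening (δ / 2) K
      rw [sub_add_cancel]
      exact self_subset_cthickening _ ha
    have h2 := Ext.starAt_add hκ z0 (a - z0) (hstar _ h1)
    rwa [sub_add_cancel] at h2
  · intro ζ hζ
    have hζ0 : ζ ≠ 0 := by rw [← norm_pos_iff, hζ]; exact one_pos
    have e : gam (fun ζ => κ ζ + z0 * ζ) ζ = gam κ ζ + z0 := by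
      simp only [gam]
      field_simp
    rw [e]
    apply hth
    obtain ⟨k, hk, hdk⟩ := (infDist_lt_iff S.K_nonempty).1 (hnear ζ hζ)
    have hk' : k + z0 ∈ cthickening (δ / 2) K := hk
    have h3 : gam κ ζ + z0 ∈ cthickening (δ / 2) (cthickening (δ / 2) K) := by
      apply mem_cthickening_of_dist_le _ (k + z0) _ _ hk'
      rw [dist_add_right]
      exact hdk.le
    have h4 := cthickening_cthickening_subset hδ2.le hδ2.le K h3
    rwa [add_halves] at h4

/-- CHUNK 2 (EXT). Nice convex curves around a convex compact set. -/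
theorem exists_curve (K : Set ℂ) (hK : IsCompact K) (hconv : Convex ℝ K) (hne : K.Nonempty)
    (V : Set ℂ) (hV : IsOpen V) (hKV : K ⊆ V) :
    ∃ (κ : ℂ → ℂ) (ρ : ℝ), ConvexCurve κ ρ ∧ (∀ a ∈ K, StarAt κ ρ a) ∧
      ∀ ζ : ℂ, ‖ζ‖ = 1 → gam κ ζ ∈ V :=
  exists_curve_of_rmt riemann_mapping K hK hconv hne V hV hKV

end Crest.Agent.Crz
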