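import Crest.Agent.Crz.FabD

/-!
# Row 132: the Faber polynomials of a convex curve form a Faber system
-/

set_option autoImplicit false

open Complex Metric Set Polynomial MeasureTheory
open scoped Topology ComplexOrder ComplexConjugate

namespace Crest.Agent.Crz

section

variable {κ : ℂ → ℂ} {ρ r : ℝ}

/-- the double layer kernel. -/
noncomputable def kk (κ : ℂ → ℂ) (r : ℝ) (ζ ξ : ℂ) : ℝ := 1 + 2 * (Psi κ r ζ ξ).re

lemma conj_eq_inv {ζ : ℂ} (hζ : ζ ∈ sphere (0 : ℂ) 1) : conj ζ = ζ⁻¹ := by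
  rw [mem_sphere_zero_iff_norm] at hζ
  rw [Complex.inv_def, Complex.normSq_eq_norm_sq, hζ]
  simp

lemma re_half {ζ ξ : ℂ} (hζ : ζ ∈ sphere (0 : ℂ) 1) (hξ : ξ ∈ sphere (0 : ℂ) 1) (hne : ζ ≠ ξ) :
    (ξ / (ξ - ζ)).re = 1 / 2 := by
  have h1 := ne_zero_of_sphere hζ
  have h2 := ne_zero_of_sphere hξ
  have h3 : ξ - ζ ≠ 0 := sub_ne_zero.2 hne.symm
  have h4 : ζ - ξ ≠ 0 := sub_ne_zero.2 hne
  have h5 : ((ξ / (ξ - ζ)).re : ℂ) = 1 / 2 := by
    rw [Complex.re_eq_add_conj, map_div₀, map_sub, conj_eq_inv hζ, conj_eq_inv hξ]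
    have h6 : ξ⁻¹ / (ξ⁻¹ - ζ⁻¹) = -ζ / (ξ - ζ) := by
      have h7 : ξ⁻¹ - ζ⁻¹ = (ζ - ξ) / (ξ * ζ) := by field_simp
      rw [h7, div_div_eq_mul_div, div_eq_div_iff h4 h3]
      field_simp
      ring
    rw [h6, ← add_div, ← sub_eq_add_neg, div_self h3]
  have h6 := congrArg Complex.re h5
  rw [Complex.ofReal_re] at h6
  rw [h6]
  norm_num

lemma kk_nonneg_ne (h : ConvexCurve κ ρ) (hr : 1 < r) (hrρ : r < ρ) {ζ ξ : ℂ}
    (hζ : ζ ∈ sphere (0 : ℂ) 1) (hξ : ξ ∈ sphere (0 : ℂ) 1) (hne : ζ ≠ ξ) : 0 ≤ kk κ r ζ ξ := by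
  have h0 : 0 < r := by linarith
  have hζr := sphere_sub_ball hr hζ
  have hξr := sphere_sub_ball hr hξ
  have h1 := h.convex ζ ξ (mem_sphere_zero_iff_norm.1 hζ) (mem_sphere_zero_iff_norm.1 hξ) hne
  have h3 : ξ - ζ ≠ 0 := sub_ne_zero.2 hne.symm
  have hQ := QQ_ne h h0 hrρ hζr hξr
  have h4 : ξ * eker κ ζ / (ξ * κ ζ - ζ * κ ξ) = ξ / (ξ - ζ) + Psi κ r ζ ξ := by
    rw [← Psi_spec h h0 hrρ hζr hξr, QQ_spec h0 hrρ h.diff hζr hξr]
    field_simp
  rw [h4, Complex.add_re, re_half hζ hξ hne] at h1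
  unfold kk
  linarith

lemma kk_nonneg (h : ConvexCurve κ ρ) (hr : 1 < r) (hrρ : r < ρ) {ζ ξ : ℂ}
    (hζ : ζ ∈ sphere (0 : ℂ) 1) (hξ : ξ ∈ sphere (0 : ℂ) 1) : 0 ≤ kk κ r ζ ξ := by
  have h0 : 0 < r := by linarith
  by_cases hne : ζ = ξ
  · subst hne
    let c : ℝ → ℂ := fun t => (1 + t * I) / (1 - t * I)
    have hden : ∀ t : ℝ, (1 : ℂ) - t * I ≠ 0 := by
      intro t ht
      have := congrArg Complex.re ht
      simp at this
    have hcn : ∀ t : ℝ, ‖c t‖ = 1 := by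
      intro t
      have h1 : (1 : ℂ) - t * I = conj ((1 : ℂ) + t * I) := by
        simp
        ring
      show ‖(1 + t * I) / (1 - t * I)‖ = 1
      rw [norm_div, h1, Complex.norm_conj, div_self]
      rw [← Complex.norm_conj, ← h1]
      exact norm_ne_zero_iff.2 (hden t)
    have hc1 : ∀ t : ℝ, t ≠ 0 → c t ≠ 1 := by
      intro t ht h1
      have h2 : (1 + t * I) / (1 - t * I) = 1 := h1
      rw [div_eq_one_iff_eq (hden t)] at h2
      have := congrArg Complex.im h2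
      simp at this
      apply ht
      linarith
    have hcc : Continuous c := by
      apply Continuous.div
      · fun_prop
      · fun_prop
      · exact hden
    have hc0 : c 0 = 1 := by simp [c]
    have hψ : ContinuousAt (fun z => Psi κ r z ζ) ζ :=
      ((differentiableOn_Psi_fst h h0 hrρ (sphere_sub_ball hr hζ)).differentiableAt
        (isOpen_ball.mem_nhds (sphere_sub_ball hr hζ))).continuousAt
    have hlim : Filter.Tendsto (fun t : ℝ => kk κ r (ζ * c t) ζ) (𝓝[≠] 0) (𝓝 (kk κ r ζ ζ)) := by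
      have h1 : Filter.Tendsto (fun t : ℝ => ζ * c t) (𝓝[≠] 0) (𝓝 ζ) := by
        have h2 : Filter.Tendsto (fun t : ℝ => ζ * c t) (𝓝 0) (𝓝 (ζ * c 0)) :=
          (continuous_const.mul hcc).tendsto 0
        rw [hc0, mul_one] at h2
        exact h2.mono_left nhdsWithin_le_nhds
      have h3 := hψ.tendsto.comp h1
      unfold kk
      exact ((Complex.continuous_re.tendsto _).comp h3).const_mul 2 |>.const_add 1
    apply ge_of_tendsto hlim
    filter_upwards [self_mem_nhdsWithin] with t ht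
    apply kk_nonneg_ne h hr hrρ _ hζ
    · intro h1
      have h2 : c t = 1 := by
        have h3 : ζ * c t = ζ * 1 := by rw [h1, mul_one]
        exact mul_left_cancel₀ (ne_zero_of_sphere hζ) h3
      exact hc1 t ht h2
    · rw [mem_sphere_zero_iff_norm] at hζ ⊢
      rw [norm_mul, hζ, hcn, mul_one]
  · exact kk_nonneg_ne h hr hrρ hζ hξ hne

lemma re_avg {f : ℂ → ℂ} (hf : ContinuousOn f (sphere 0 1)) :
    Real.circleAverage (fun ζ => (f ζ).re) 0 1 = (cavg f).re :=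
  Complex.reCLM.circleAverage_comp_comm (circleIntegrable_of_cont hf)

lemma conj_avg {f : ℂ → ℂ} (hf : ContinuousOn f (sphere 0 1)) :
    cavg (fun ζ => conj (f ζ)) = conj (cavg f) :=
  (Complex.conjCLE : ℂ →L[ℝ] ℂ).circleAverage_comp_comm (circleIntegrable_of_cont hf)

lemma cont_Psi_fst (h : ConvexCurve κ ρ) (hr : 1 < r) (hrρ : r < ρ) {ξ : ℂ}
    (hξ : ξ ∈ sphere (0 : ℂ) 1) : ContinuousOn (fun ζ => Psi κ r ζ ξ) (sphere 0 1) :=
  (differentiableOn_Psi_fst h (by linarith) hrρ (sphere_sub_ball hr hξ)).continuousOn.mono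
    (sphere_sub_ball hr)

lemma cont_Psi_snd (h : ConvexCurve κ ρ) (hr : 1 < r) (hrρ : r < ρ) {ζ : ℂ}
    (hζ : ζ ∈ sphere (0 : ℂ) 1) : ContinuousOn (fun ξ => Psi κ r ζ ξ) (sphere 0 1) :=
  (differentiableOn_Psi_snd h (by linarith) hrρ (sphere_sub_ball hr hζ)).continuousOn.mono
    (sphere_sub_ball hr)

lemma avg_kk_fst (h : ConvexCurve κ ρ) (hr : 1 < r) (hrρ : r < ρ) {ξ : ℂ}
    (hξ : ξ ∈ sphere (0 : ℂ) 1) : Real.circleAverage (fun ζ => kk κ r ζ ξ) 0 1 = 1 := by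
  have h1 : (fun ζ => kk κ r ζ ξ) = fun ζ => ((1 : ℂ) + 2 * Psi κ r ζ ξ).re := by
    funext ζ
    simp [kk]
  have hc := cont_Psi_fst h hr hrρ hξ
  rw [h1, re_avg (f := fun ζ => (1 : ℂ) + 2 * Psi κ r ζ ξ)
    (continuousOn_const.add (continuousOn_const.mul hc))]
  have hd := differentiableOn_Psi_fst h (by linarith) hrρ (sphere_sub_ball hr hξ)
  rw [cavg_eq_zero_val (f := fun ζ => (1 : ℂ) + 2 * Psi κ r ζ ξ) hr
    ((differentiableOn_const _).add ((differentiableOn_const _).mul hd))]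
  simp only [Psi_zero_left]
  simp

lemma avg_kk_snd (h : ConvexCurve κ ρ) (hr : 1 < r) (hrρ : r < ρ) {ζ : ℂ}
    (hζ : ζ ∈ sphere (0 : ℂ) 1) : Real.circleAverage (fun ξ => kk κ r ζ ξ) 0 1 = 1 := by
  have h1 : (fun ξ => kk κ r ζ ξ) = fun ξ => ((1 : ℂ) + 2 * Psi κ r ζ ξ).re := by
    funext ξ
    simp [kk]
  have hc := cont_Psi_snd h hr hrρ hζ
  rw [h1, re_avg (f := fun ξ => (1 : ℂ) + 2 * Psi κ r ζ ξ)
    (continuousOn_const.add (continuousOn_const.mul hc))]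
  have hd := differentiableOn_Psi_snd h (by linarith) hrρ (sphere_sub_ball hr hζ)
  rw [cavg_eq_zero_val (f := fun ξ => (1 : ℂ) + 2 * Psi κ r ζ ξ) hr
    ((differentiableOn_const _).add ((differentiableOn_const _).mul hd))]
  simp only [Psi_zero_right]
  simp

lemma cavg_const_mul (a : ℂ) (f : ℂ → ℂ) : cavg (fun ζ => a * f ζ) = a * cavg f := by
  have := Real.circleAverage_fun_smul (𝕜 := ℂ) (a := a) (c := (0 : ℂ)) (R := 1) (f := f)
  simpa only [smul_eq_mul] using this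

lemma cont_kk_fst (h : ConvexCurve κ ρ) (hr : 1 < r) (hrρ : r < ρ) {ξ : ℂ}
    (hξ : ξ ∈ sphere (0 : ℂ) 1) : ContinuousOn (fun ζ => kk κ r ζ ξ) (sphere 0 1) :=
  continuousOn_const.add (continuousOn_const.mul
    (Complex.continuous_re.comp_continuousOn (cont_Psi_fst h hr hrρ hξ)))

/-- moments of the kernel. -/
lemma cavg_inv_pow_kk (h : ConvexCurve κ ρ) (hr : 1 < r) (hrρ : r < ρ) {ξ : ℂ}
    (hξ : ξ ∈ sphere (0 : ℂ) 1) (n : ℕ) (hn : n ≠ 0) :
    cavg (fun ζ => ζ⁻¹ ^ n * (kk κ r ζ ξ : ℂ)) = er κ r n ξ := by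
  have hc := cont_Psi_fst h hr hrρ hξ
  have hd := differentiableOn_Psi_fst h (by linarith) hrρ (sphere_sub_ball hr hξ)
  have h1 : cavg (fun ζ => ζ⁻¹ ^ n * (kk κ r ζ ξ : ℂ)) =
      cavg (fun ζ => (ζ⁻¹ ^ n + ζ⁻¹ ^ n * Psi κ r ζ ξ) + conj (ζ ^ n * Psi κ r ζ ξ)) := by
    apply Real.circleAverage_congr_sphere
    intro ζ hζ
    rw [abs_one] at hζ
    simp only
    have h2 : (kk κ r ζ ξ : ℂ) = 1 + Psi κ r ζ ξ + conj (Psi κ r ζ ξ) := by
      unfold kk
      push_cast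
      rw [Complex.re_eq_add_conj]
      ring
    rw [h2, map_mul, map_pow, conj_eq_inv hζ]
    ring
  have hcp : ContinuousOn (fun ζ => ζ ^ n * Psi κ r ζ ξ) (sphere 0 1) :=
    (continuousOn_id.pow n).mul hc
  have hcm : ContinuousOn (fun ζ => ζ⁻¹ ^ n * Psi κ r ζ ξ) (sphere 0 1) :=
    (continuousOn_inv_pow n).mul hc
  have hcc : ContinuousOn (fun ζ => conj (ζ ^ n * Psi κ r ζ ξ)) (sphere 0 1) :=
    Complex.continuous_conj.comp_continuousOn hcp
  rw [h1]
  unfold cavg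
  rw [Real.circleAverage_fun_add (f₁ := fun ζ => ζ⁻¹ ^ n + ζ⁻¹ ^ n * Psi κ r ζ ξ)
    (circleIntegrable_of_cont ((continuousOn_inv_pow n).add hcm)) (circleIntegrable_of_cont hcc),
    Real.circleAverage_fun_add (circleIntegrable_of_cont (continuousOn_inv_pow n))
      (circleIntegrable_of_cont hcm)]
  have e1 := cavg_inv_pow n hn
  have e2 := er_eq_cavg h hr hrρ n (sphere_sub_ball hr hξ)
  have e3 := conj_avg hcp
  have e4 := cavg_eq_zero_val hr ((differentiableOn_id.pow n).mul hd)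
  unfold cavg at e1 e2 e3 e4
  have e4' : Real.circleAverage (fun ζ => ζ ^ n * Psi κ r ζ ξ) 0 1 = 0 := by
    have h5 : ((id ^ n * fun ζ => Psi κ r ζ ξ) : ℂ → ℂ) = fun ζ => ζ ^ n * Psi κ r ζ ξ := rfl
    rw [h5] at e4
    rw [e4]
    simp only [Psi_zero_left, mul_zero]
  rw [e1, ← e2, e3, e4', map_zero]
  ring

/-- Parseval. -/
lemma parseval (N : ℕ) (a : ℕ → ℂ) :
    Real.circleAverage (fun ζ : ℂ => ‖∑ n ∈ Finset.Icc 1 N, a n * ζ⁻¹ ^ n‖ ^ 2) 0 1 =
      ∑ n ∈ Finset.Icc 1 N, ‖a n‖ ^ 2 := by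
  have h1 : Real.circleAverage (fun ζ : ℂ => ‖∑ n ∈ Finset.Icc 1 N, a n * ζ⁻¹ ^ n‖ ^ 2) 0 1 =
      Real.circleAverage (fun ζ : ℂ => (∑ n ∈ Finset.Icc 1 N, ∑ m ∈ Finset.Icc 1 N,
        (a n * conj (a m)) * (ζ⁻¹ ^ n * ζ ^ m)).re) 0 1 := by
    apply Real.circleAverage_congr_sphere
    intro ζ hζ
    rw [abs_one] at hζ
    simp only
    rw [← Complex.normSq_eq_norm_sq]
    have h2 : ((Complex.normSq (∑ n ∈ Finset.Icc 1 N, a n * ζ⁻¹ ^ n) : ℝ) : ℂ) =
        ∑ n ∈ Finset.Icc 1 N, ∑ m ∈ Finset.Icc 1 N, (a n * conj (a m)) * (ζ⁻¹ ^ n * ζ ^ m) := by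
      rw [← Complex.mul_conj, map_sum, Finset.sum_mul_sum]
      apply Finset.sum_congr rfl
      intro n _
      apply Finset.sum_congr rfl
      intro m _
      rw [map_mul, map_pow, map_inv₀, conj_eq_inv hζ, inv_inv]
      ring
    rw [← h2, Complex.ofReal_re]
  have hcont : ∀ n m : ℕ, ContinuousOn (fun ζ : ℂ => (a n * conj (a m)) * (ζ⁻¹ ^ n * ζ ^ m))
      (sphere 0 1) := fun n m =>
    continuousOn_const.mul ((continuousOn_inv_pow n).mul (continuousOn_id.pow m))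
  rw [h1, re_avg (continuousOn_finsetSum _ (fun n _ => continuousOn_finsetSum _ (fun m _ => hcont n m)))]
  unfold cavg
  rw [Real.circleAverage_fun_sum (fun n _ => circleIntegrable_of_cont
    (continuousOn_finsetSum _ (fun m _ => hcont n m)))]
  have h3 : ∀ n ∈ Finset.Icc 1 N, Real.circleAverage (fun ζ : ℂ => ∑ m ∈ Finset.Icc 1 N,
      (a n * conj (a m)) * (ζ⁻¹ ^ n * ζ ^ m)) 0 1 = ((‖a n‖ ^ 2 : ℝ) : ℂ) := by
    intro n hn
    rw [Real.circleAverage_fun_sum (fun m _ => circleIntegrable_of_cont (hcont n m))]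
    have h4 : ∀ m, Real.circleAverage (fun ζ : ℂ => (a n * conj (a m)) * (ζ⁻¹ ^ n * ζ ^ m)) 0 1 =
        if n = m then a n * conj (a m) else 0 := by
      intro m
      have h5 := cavg_const_mul (a n * conj (a m)) (fun ζ : ℂ => ζ⁻¹ ^ n * ζ ^ m)
      have h6 := cavg_inv_pow_mul (r := 2) (by norm_num) (h := fun ζ : ℂ => ζ ^ m)
        (differentiable_pow m).differentiableOn n
      unfold cavg at h5 h6
      rw [h5, h6]
      unfold tc
      rw [iteratedDeriv_fun_pow_zero]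
      split_ifs with h7
      · subst h7
        have : (n.factorial : ℂ) ≠ 0 := by exact_mod_cast n.factorial_ne_zero
        rw [smul_eq_mul, inv_mul_cancel₀ this, mul_one]
      · simp
    simp_rw [h4]
    rw [Finset.sum_ite_eq, if_pos hn, Complex.mul_conj, Complex.normSq_eq_norm_sq]
  rw [Finset.sum_congr rfl h3, ← Complex.ofReal_sum, Complex.ofReal_re]

/-- pointwise bound. -/
lemma norm_V_sq_le (h : ConvexCurve κ ρ) (hr : 1 < r) (hrρ : r < ρ) {ξ : ℂ}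
    (hξ : ξ ∈ sphere (0 : ℂ) 1) (N : ℕ) (a : ℕ → ℂ) :
    ‖∑ n ∈ Finset.Icc 1 N, a n * er κ r n ξ‖ ^ 2 ≤
      Real.circleAverage (fun ζ : ℂ => ‖∑ n ∈ Finset.Icc 1 N, a n * ζ⁻¹ ^ n‖ ^ 2 * kk κ r ζ ξ) 0 1 := by
  set v := ∑ n ∈ Finset.Icc 1 N, a n * er κ r n ξ with hv
  let U : ℂ → ℂ := fun ζ => ∑ n ∈ Finset.Icc 1 N, a n * ζ⁻¹ ^ n
  have hU : ContinuousOn U (sphere 0 1) :=
    continuousOn_finsetSum _ (fun n _ => continuousOn_const.mul (continuousOn_inv_pow n))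
  have hk := cont_kk_fst h hr hrρ hξ
  have hkC : ContinuousOn (fun ζ => (kk κ r ζ ξ : ℂ)) (sphere 0 1) :=
    Complex.continuous_ofReal.comp_continuousOn hk
  have h1 : cavg (fun ζ => U ζ * (kk κ r ζ ξ : ℂ)) = v := by
    have h2 : (fun ζ => U ζ * (kk κ r ζ ξ : ℂ)) =
        fun ζ => ∑ n ∈ Finset.Icc 1 N, a n * (ζ⁻¹ ^ n * (kk κ r ζ ξ : ℂ)) := by
      funext ζ
      simp only [U]
      rw [Finset.sum_mul]
      apply Finset.sum_congr rfl
      intro n _
      ring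
    rw [h2]
    unfold cavg
    rw [Real.circleAverage_fun_sum (f := fun n ζ => a n * (ζ⁻¹ ^ n * (kk κ r ζ ξ : ℂ)))
      (fun n _ => circleIntegrable_of_cont
      (continuousOn_const.mul ((continuousOn_inv_pow n).mul hkC)))]
    rw [hv]
    apply Finset.sum_congr rfl
    intro n hn
    have h3 := cavg_const_mul (a n) (fun ζ : ℂ => ζ⁻¹ ^ n * (kk κ r ζ ξ : ℂ))
    have h4 := cavg_inv_pow_kk h hr hrρ hξ n (by
      have := (Finset.mem_Icc.1 hn).1
      omega)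
    unfold cavg at h3 h4
    rw [h3, h4]
  have h2 : 0 ≤ Real.circleAverage (fun ζ => ‖U ζ - v‖ ^ 2 * kk κ r ζ ξ) 0 1 := by
    apply Real.circleAverage_nonneg_of_nonneg
    intro ζ hζ
    rw [abs_one] at hζ
    exact mul_nonneg (sq_nonneg _) (kk_nonneg h hr hrρ hζ hξ)
  have h3 : (fun ζ => ‖U ζ - v‖ ^ 2 * kk κ r ζ ξ) =
      fun ζ => (‖U ζ‖ ^ 2 * kk κ r ζ ξ - 2 * (conj v * (U ζ * (kk κ r ζ ξ : ℂ))).re) +
        ‖v‖ ^ 2 * kk κ r ζ ξ := by
    funext ζ
    rw [← Complex.normSq_eq_norm_sq, Complex.normSq_sub, Complex.normSq_eq_norm_sq,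
      Complex.normSq_eq_norm_sq]
    have h4 : (conj v * (U ζ * (kk κ r ζ ξ : ℂ))).re = (U ζ * conj v).re * kk κ r ζ ξ := by
      have : conj v * (U ζ * (kk κ r ζ ξ : ℂ)) = (U ζ * conj v) * (kk κ r ζ ξ : ℂ) := by ring
      rw [this, Complex.re_mul_ofReal]
    rw [h4]
    ring
  have c1 : ContinuousOn (fun ζ => ‖U ζ‖ ^ 2 * kk κ r ζ ξ) (sphere 0 1) :=
    (hU.norm.pow 2).mul hk
  have c2' : ContinuousOn (fun ζ => conj v * (U ζ * (kk κ r ζ ξ : ℂ))) (sphere 0 1) :=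
    continuousOn_const.mul (hU.mul hkC)
  have c2 : ContinuousOn (fun ζ => 2 * (conj v * (U ζ * (kk κ r ζ ξ : ℂ))).re) (sphere 0 1) :=
    continuousOn_const.mul (Complex.continuous_re.comp_continuousOn c2')
  have c3 : ContinuousOn (fun ζ => ‖v‖ ^ 2 * kk κ r ζ ξ) (sphere 0 1) :=
    continuousOn_const.mul hk
  have ci : ∀ f : ℂ → ℝ, ContinuousOn f (sphere 0 1) → CircleIntegrable f 0 1 := by
    intro f hf
    apply ContinuousOn.circleIntegrable'
    rwa [abs_one]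
  rw [h3, Real.circleAverage_fun_add
    (f₁ := fun ζ => ‖U ζ‖ ^ 2 * kk κ r ζ ξ - 2 * (conj v * (U ζ * (kk κ r ζ ξ : ℂ))).re)
    (ci _ (c1.sub c2)) (ci _ c3), Real.circleAverage_fun_sub (ci _ c1) (ci _ c2)] at h2
  have e1 : Real.circleAverage (fun ζ => 2 * (conj v * (U ζ * (kk κ r ζ ξ : ℂ))).re) 0 1 =
      2 * ‖v‖ ^ 2 := by
    have := Real.circleAverage_fun_smul (𝕜 := ℝ) (a := (2 : ℝ)) (c := (0 : ℂ)) (R := 1)
      (f := fun ζ => (conj v * (U ζ * (kk κ r ζ ξ : ℂ))).re)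
    simp only [smul_eq_mul] at this
    rw [this, re_avg c2', cavg_const_mul, h1, mul_comm (conj v), Complex.mul_conj,
      Complex.ofReal_re, Complex.normSq_eq_norm_sq]
  have e2 : Real.circleAverage (fun ζ => ‖v‖ ^ 2 * kk κ r ζ ξ) 0 1 = ‖v‖ ^ 2 := by
    have := Real.circleAverage_fun_smul (𝕜 := ℝ) (a := (‖v‖ ^ 2 : ℝ)) (c := (0 : ℂ)) (R := 1)
      (f := fun ζ => kk κ r ζ ξ)
    simp only [smul_eq_mul] at this
    rw [this, avg_kk_fst h hr hrρ hξ, mul_one]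
  rw [e1, e2] at h2
  linarith

lemma continuousOn_er (h : ConvexCurve κ ρ) (hr : 1 < r) (hrρ : r < ρ) (n : ℕ) :
    ContinuousOn (er κ r n) (sphere 0 1) := by
  have h0 : 0 < r := by linarith
  have h1 : ContinuousOn (fun ξ => (faber κ n).eval (gam κ ξ) - ξ⁻¹ ^ n) (sphere 0 1) := by
    apply ContinuousOn.sub _ (continuousOn_inv_pow n)
    apply (faber κ n).continuous.comp_continuousOn
    have h2 : ContinuousOn κ (sphere 0 1) :=
      h.diff.continuousOn.mono ((sphere_sub_ball hr).trans (ball_subset_ball hrρ.le))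
    exact h2.div continuousOn_id (fun ζ hζ => ne_zero_of_sphere hζ)
  apply h1.congr
  intro ξ hξ
  simp only
  rw [faber_eval h h0 hrρ (sphere_sub_ball hr hξ) (ne_zero_of_sphere hξ)]
  unfold er
  ring

/-- CHUNK 3a (FAB). Faber polynomials: span, orthogonality, L2 contraction. -/
theorem faberSystem_faber (κ : ℂ → ℂ) (ρ : ℝ) (h : ConvexCurve κ ρ) :
    FaberSystem (gam κ) (faber κ) := by
  obtain ⟨r, hr, hrρ⟩ := exists_between h.one_lt
  have h0 : 0 < r := by linarith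
  have hev : ∀ n, ∀ ξ ∈ sphere (0 : ℂ) 1, (faber κ n).eval (gam κ ξ) - ξ⁻¹ ^ n = er κ r n ξ := by
    intro n ξ hξ
    rw [faber_eval h h0 hrρ (sphere_sub_ball hr hξ) (ne_zero_of_sphere hξ)]
    unfold er
    ring
  refine ⟨?_, by simp [faber], ?_, ?_, ?_⟩
  · have h2 : ContinuousOn κ (sphere 0 1) :=
      h.diff.continuousOn.mono ((sphere_sub_ball hr).trans (ball_subset_ball hrρ.le))
    exact h2.div continuousOn_id (fun ζ hζ => ne_zero_of_sphere hζ)
  · exact fun N P hP => faber_span h.zero_ne N P hP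
  · intro n k
    have horth := orth_er h hr hrρ n k
    unfold cavg at horth
    refine Eq.trans ?_ horth
    apply Real.circleAverage_congr_sphere
    intro ξ hξ
    rw [abs_one] at hξ
    simp only
    rw [hev n ξ hξ]
  · intro N a
    have ci : ∀ f : ℂ → ℝ, ContinuousOn f (sphere 0 1) → CircleIntegrable f 0 1 := by
      intro f hf
      apply ContinuousOn.circleIntegrable'
      rwa [abs_one]
    let U : ℂ → ℂ := fun ζ => ∑ n ∈ Finset.Icc 1 N, a n * ζ⁻¹ ^ n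
    have hU : ContinuousOn U (sphere 0 1) :=
      continuousOn_finsetSum _ (fun n _ => continuousOn_const.mul (continuousOn_inv_pow n))
    have hF : ContinuousOn (fun p : ℂ × ℂ => (fun ζ ξ => ‖U ζ‖ ^ 2 * kk κ r ζ ξ) p.1 p.2)
        (sphere 0 1 ×ˢ sphere 0 1) := by
      have h1 : ContinuousOn (fun p : ℂ × ℂ => U p.1) (sphere 0 1 ×ˢ sphere 0 1) := by
        apply hU.comp continuousOn_fst
        rintro ⟨x, y⟩ ⟨hx, _⟩
        exact hx
      exact (h1.norm.pow 2).mul (continuousOn_const.add (continuousOn_const.mul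
        (Complex.continuous_re.comp_continuousOn (cont_Psi_torus h hr hrρ))))
    have hinner : ContinuousOn (fun ξ => Real.circleAverage (fun ζ => ‖U ζ‖ ^ 2 * kk κ r ζ ξ) 0 1)
        (sphere 0 1) := by
      rw [continuousOn_iff_continuous_domRestrict]
      have hgoal : (sphere (0 : ℂ) 1).domRestrict
          (fun ξ => Real.circleAverage (fun ζ => ‖U ζ‖ ^ 2 * kk κ r ζ ξ) 0 1) =
          (2 * Real.pi)⁻¹ • fun ξ : ↥(sphere (0 : ℂ) 1) => ∫ (θ : ℝ) in 0..2 * Real.pi,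
            ‖U (circleMap 0 1 θ)‖ ^ 2 * kk κ r (circleMap 0 1 θ) (ξ : ℂ) := rfl
      rw [hgoal]
      apply Continuous.const_smul
      apply intervalIntegral.continuous_parametric_intervalIntegral_of_continuous'
      have h2 : (Function.uncurry fun (x : ↥(sphere (0 : ℂ) 1)) (t : ℝ) =>
          ‖U (circleMap 0 1 t)‖ ^ 2 * kk κ r (circleMap 0 1 t) (x : ℂ)) =
          (fun p : ℂ × ℂ => (fun ζ ξ => ‖U ζ‖ ^ 2 * kk κ r ζ ξ) p.1 p.2) ∘
            (fun q : ↥(sphere (0 : ℂ) 1) × ℝ => (circleMap 0 1 q.2, (q.1 : ℂ))) := rfl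
      rw [h2]
      apply hF.comp_continuous
      · exact ((continuous_circleMap 0 1).comp continuous_snd).prodMk
          (continuous_subtype_val.comp continuous_fst)
      · intro q
        exact ⟨circleMap_mem_sphere 0 zero_le_one _, q.1.2⟩
    have hV : ContinuousOn (fun ξ => ∑ n ∈ Finset.Icc 1 N, a n * er κ r n ξ) (sphere 0 1) :=
      continuousOn_finsetSum _ (fun n _ => continuousOn_const.mul (continuousOn_er h hr hrρ n))
    calc Real.circleAverage (fun ζ : ℂ =>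
          ‖∑ n ∈ Finset.Icc 1 N, a n * ((faber κ n).eval (gam κ ζ) - ζ⁻¹ ^ n)‖ ^ 2) 0 1
        = Real.circleAverage (fun ξ : ℂ => ‖∑ n ∈ Finset.Icc 1 N, a n * er κ r n ξ‖ ^ 2) 0 1 := by
          apply Real.circleAverage_congr_sphere
          intro ξ hξ
          rw [abs_one] at hξ
          simp only
          congr 2
          apply Finset.sum_congr rfl
          intro n _
          rw [hev n ξ hξ]
      _ ≤ Real.circleAverage (fun ξ => Real.circleAverage (fun ζ => ‖U ζ‖ ^ 2 * kk κ r ζ ξ) 0 1) 0 1 := by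
          apply Real.circleAverage_mono (ci _ (hV.norm.pow 2)) (ci _ hinner)
          intro ξ hξ
          rw [abs_one] at hξ
          exact norm_V_sq_le h hr hrρ hξ N a
      _ = Real.circleAverage (fun ζ => Real.circleAverage (fun ξ => ‖U ζ‖ ^ 2 * kk κ r ζ ξ) 0 1) 0 1 :=
          avg_swap hF
      _ = Real.circleAverage (fun ζ => ‖U ζ‖ ^ 2) 0 1 := by
          apply Real.circleAverage_congr_sphere
          intro ζ hζ
          rw [abs_one] at hζ
          simp only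
          have := Real.circleAverage_fun_smul (𝕜 := ℝ) (a := (‖U ζ‖ ^ 2 : ℝ)) (c := (0 : ℂ)) (R := 1)
            (f := fun ξ => kk κ r ζ ξ)
          simp only [smul_eq_mul] at this
          rw [this, avg_kk_snd h hr hrρ hζ, mul_one]
      _ = ∑ n ∈ Finset.Icc 1 N, ‖a n‖ ^ 2 := parseval N a

end

end Crest.Agent.Crz
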