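import Crest.Agent.Crz.Main4
import Crest.Agent.Crz.Ext
import Crest.Agent.Crz.Fab

/-!
# The complete bound for operators on finite dimensional spaces (up to `opPos`)
-/

set_option autoImplicit false

open Complex Metric Set Polynomial Matrix
open scoped Topology ComplexOrder ComplexConjugate

namespace Crest.Agent.Crz

section

lemma continuous_evNorm {m : ℕ} (P : Matrix (Fin m) (Fin m) ℂ[X]) :
    Continuous (fun z => evNorm P z) := by
  unfold evNorm
  refine Continuous.norm ?_
  have h1 : Continuous (fun B : Matrix (Fin m) (Fin m) ℂ =>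
      Matrix.toEuclideanCLM (n := Fin m) (𝕜 := ℂ) B) := by
    have := LinearMap.continuous_of_finiteDimensional
      ((Matrix.toEuclideanCLM (n := Fin m) (𝕜 := ℂ)).toAlgEquiv.toLinearMap)
    exact this
  refine h1.comp ?_
  refine continuous_pi (fun i => continuous_pi (fun j => ?_))
  exact (P i j).continuous

variable {E : Type*} [NormedAddCommGroup E] [InnerProductSpace ℂ E] [FiniteDimensional ℂ E]

theorem complete_bound_aux (A : E →L[ℂ] E)
    (hop : ∀ (κ : ℂ → ℂ) (ρ : ℝ), ConvexCurve κ ρ →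
      (∀ x : E, ‖x‖ = 1 → StarAt κ ρ (inner ℂ x (A x))) → OpPos A (faber κ))
    (K : Set ℂ) (hK : IsCompact K) (hconv : Convex ℝ K)
    (hA : ∀ x : E, ‖x‖ = 1 → inner ℂ x (A x) ∈ K)
    (m : ℕ) (P : Matrix (Fin m) (Fin m) ℂ[X]) (M : ℝ)
    (hM : ∀ z ∈ K, evNorm P z ≤ M) (v : PiLp 2 (fun _ : Fin m => E)) :
    ‖opAct A P v‖ ≤ 2 * M * ‖v‖ := by
  rcases K.eq_empty_or_nonempty with hKe | hKne
  · -- no unit vectors
    have hE : ∀ x : E, x = 0 := by
      intro x
      by_contra hx
      have hx' : ‖x‖ ≠ 0 := norm_ne_zero_iff.mpr hx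
      have := hA (((‖x‖⁻¹ : ℝ) : ℂ) • x) (by rw [norm_smul]; simp [hx'])
      rw [hKe] at this
      exact this
    have hv : v = 0 := by ext i; exact hE _
    have : opAct A P v = 0 := by ext i; exact hE _
    rw [this, hv]
    simp
  have key : ∀ M' : ℝ, M < M' → ‖opAct A P v‖ ≤ 2 * M' * ‖v‖ := by
    intro M' hM'
    have hVo : IsOpen {z : ℂ | evNorm P z < M'} :=
      isOpen_lt (continuous_evNorm P) continuous_const
    obtain ⟨κ, ρ, hκ, hstar, hcurve⟩ := exists_curve K hK hconv hKne {z : ℂ | evNorm P z < M'} hVo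
      (fun z hz => lt_of_le_of_lt (hM z hz) hM')
    have hF := faberSystem_faber κ ρ hκ
    have hO := hop κ ρ hκ (fun x hx => hstar _ (hA x hx))
    exact main_bound A (gam κ) (faber κ) hF hO m P M' (fun ζ hζ => (hcurve ζ hζ).le) v
  have hlim : Filter.Tendsto (fun M' : ℝ => 2 * M' * ‖v‖) (𝓝[>] M) (𝓝 (2 * M * ‖v‖)) := by
    refine Filter.Tendsto.mono_left ?_ nhdsWithin_le_nhds
    exact (Continuous.tendsto (by fun_prop) M)
  exact ge_of_tendsto hlim (Filter.eventually_of_mem self_mem_nhdsWithin (fun M' hM' => key M' hM'))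

end

end Crest.Agent.Crz
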