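import Mathlib

/-!
# Row 132 (Crouzeix): shared definitions

We describe the exterior conformal map `G` of a convex domain in the variable `ζ = 1/w`:
`G(1/ζ) = γ(ζ) = κ(ζ)/ζ` with `κ` holomorphic on a disc of radius `ρ > 1`, `κ(0) ≠ 0`.
Then `w G'(w) = E(ζ)/ζ` with `E(ζ) = κ(ζ) - ζ κ'(ζ)` and for an operator (or number) `A`
`w G'(w) (G(w) - A)⁻¹ = E(ζ) (κ(ζ) - ζ A)⁻¹ = ∑ₙ Fₙ(A) ζⁿ` (`Fₙ` = Faber polynomials).
-/

set_option autoImplicit false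

open Complex Metric Set Polynomial
open scoped Topology ComplexOrder

namespace Crest.Agent.Crz

/-- `E(ζ) = κ(ζ) - ζ κ'(ζ)`. -/
noncomputable def eker (κ : ℂ → ℂ) (ζ : ℂ) : ℂ := κ ζ - ζ * deriv κ ζ

/-- `γ(ζ) = κ(ζ)/ζ`, the exterior map in the variable `ζ = 1/w`. -/
noncomputable def gam (κ : ℂ → ℂ) (ζ : ℂ) : ℂ := κ ζ / ζ

/-- Exterior conformal map of a convex domain with analytic boundary curve `γ(ζ)`, `‖ζ‖ = 1`. -/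
structure ConvexCurve (κ : ℂ → ℂ) (ρ : ℝ) : Prop where
  one_lt : 1 < ρ
  diff : DifferentiableOn ℂ κ (ball 0 ρ)
  zero_ne : κ 0 ≠ 0
  inj : ∀ ζ ∈ ball (0 : ℂ) ρ, ∀ ξ ∈ ball (0 : ℂ) ρ, ξ * κ ζ = ζ * κ ξ → ζ = ξ
  eker_ne : ∀ ζ ∈ ball (0 : ℂ) ρ, eker κ ζ ≠ 0
  convex : ∀ ζ ξ : ℂ, ‖ζ‖ = 1 → ‖ξ‖ = 1 → ζ ≠ ξ →
    0 ≤ (ξ * eker κ ζ / (ξ * κ ζ - ζ * κ ξ)).re

/-- the point `a` lies inside the curve and the curve is star-shaped with respect to `a`. -/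
structure StarAt (κ : ℂ → ℂ) (ρ : ℝ) (a : ℂ) : Prop where
  ne : ∀ ζ ∈ ball (0 : ℂ) ρ, κ ζ ≠ ζ * a
  pos : ∀ ζ : ℂ, ‖ζ‖ = 1 → 0 ≤ (eker κ ζ / (κ ζ - ζ * a)).re

/-- What the main inequality needs to know about the Faber polynomials of the curve `γ`. -/
structure FaberSystem (γ : ℂ → ℂ) (F : ℕ → ℂ[X]) : Prop where
  cont : ContinuousOn γ (sphere 0 1)
  zero : F 0 = 1
  span : ∀ (N : ℕ) (P : ℂ[X]), P.natDegree ≤ N →
    ∃ a : ℕ → ℂ, P = ∑ n ∈ Finset.range (N + 1), C (a n) * F n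
  orth : ∀ n k : ℕ,
    Real.circleAverage (fun ζ : ℂ => ζ ^ k * ((F n).eval (γ ζ) - ζ⁻¹ ^ n)) 0 1 = 0
  contr : ∀ (N : ℕ) (a : ℕ → ℂ),
    Real.circleAverage (fun ζ : ℂ =>
      ‖∑ n ∈ Finset.Icc 1 N, a n * ((F n).eval (γ ζ) - ζ⁻¹ ^ n)‖ ^ 2) 0 1
      ≤ ∑ n ∈ Finset.Icc 1 N, ‖a n‖ ^ 2

/-- Taylor coefficients of `κ` at `0`. -/
noncomputable def kcoef (κ : ℂ → ℂ) (j : ℕ) : ℂ := iteratedDeriv j κ 0 / (j.factorial : ℂ)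

/-- Faber polynomials of the curve: the coefficients of `E(ζ) / (κ(ζ) - ζ X)` as a power series in
`ζ`, i.e. `κ₀ Fₙ = (1 - n) κₙ + X Fₙ₋₁ - ∑_{i<n} κ_{n-i} F_i`, `F₀ = 1`. -/
noncomputable def faber (κ : ℂ → ℂ) : ℕ → ℂ[X]
  | 0 => 1
  | (n + 1) => C (kcoef κ 0)⁻¹ * (C (-(n : ℂ) * kcoef κ (n + 1)) + X * faber κ n
      - ∑ i : Fin (n + 1), C (kcoef κ (n + 1 - i)) * faber κ i)

/-- Positivity of the Faber generating function of an operator `A`. -/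
structure OpPos {E : Type*} [NormedAddCommGroup E] [InnerProductSpace ℂ E]
    (A : E →L[ℂ] E) (F : ℕ → ℂ[X]) : Prop where
  summable : Summable fun n : ℕ => ‖(aeval A (F n) : E →L[ℂ] E)‖
  pos : ∀ ζ : ℂ, ‖ζ‖ = 1 → ∀ x : E,
    0 ≤ (∑' n : ℕ, ζ ^ n * inner ℂ x ((aeval A (F n) : E →L[ℂ] E) x)).re

/-- The action of a matrix of polynomials in `A` on `E^m` (no norm involved). -/
noncomputable def opAct {E : Type*} [NormedAddCommGroup E] [InnerProductSpace ℂ E]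
    (A : E →L[ℂ] E) {m : ℕ} (P : Matrix (Fin m) (Fin m) ℂ[X])
    (v : PiLp 2 (fun _ : Fin m => E)) : PiLp 2 (fun _ : Fin m => E) :=
  WithLp.toLp 2 (fun i : Fin m => ∑ j : Fin m, (aeval A (P i j) : E →L[ℂ] E) (v j))

/-- Operator norm (on Euclidean `ℂ^m`) of the value of a matrix polynomial at a point. -/
noncomputable def evNorm {m : ℕ} (P : Matrix (Fin m) (Fin m) ℂ[X]) (z : ℂ) : ℝ :=
  ‖Matrix.toEuclideanCLM (n := Fin m) (𝕜 := ℂ) (P.map (fun p => p.eval z))‖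

end Crest.Agent.Crz
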