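import Mathlib

/-!
Row 132: injective holomorphic functions have holomorphic inverses and nonvanishing derivative.
-/

set_option autoImplicit false

open Complex Metric Set Filter
open scoped Topology

namespace Crest.Agent.Crz

/-- An injective holomorphic function on an open set is an open map at each point. -/
theorem injOn_nhds_le_map {f : ℂ → ℂ} {W : Set ℂ} (hW : IsOpen W) (hf : DifferentiableOn ℂ f W)
    (hinj : InjOn f W) {z₀ : ℂ} (hz₀ : z₀ ∈ W) : 𝓝 (f z₀) ≤ map f (𝓝 z₀) := by
  have han : AnalyticAt ℂ f z₀ := hf.analyticAt (hW.mem_nhds hz₀)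
  rcases han.eventually_constant_or_nhds_le_map_nhds with h | h
  · exfalso
    have h1 : ∀ᶠ z in 𝓝[≠] z₀, f z = f z₀ ∧ z ∈ W :=
      (h.and (hW.mem_nhds hz₀)).filter_mono nhdsWithin_le_nhds
    have h2 : ∀ᶠ z in 𝓝[≠] z₀, z ≠ z₀ := eventually_mem_nhdsWithin
    obtain ⟨z, hz, hne⟩ := (h1.and h2).exists
    exact hne (hinj hz.2 hz₀ hz.1)
  · exact h

theorem isOpen_image_of_injOn {f : ℂ → ℂ} {W : Set ℂ} (hW : IsOpen W) (hf : DifferentiableOn ℂ f W)
    (hinj : InjOn f W) : IsOpen (f '' W) := by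
  rw [isOpen_iff_mem_nhds]
  rintro _ ⟨z, hz, rfl⟩
  have := injOn_nhds_le_map hW hf hinj hz
  exact this (image_mem_map (hW.mem_nhds hz))

/-- An injective holomorphic function on an open set has a holomorphic inverse. -/
theorem exists_holomorphic_inverse {f : ℂ → ℂ} {W : Set ℂ} (hW : IsOpen W)
    (hf : DifferentiableOn ℂ f W) (hinj : InjOn f W) :
    ∃ φ : ℂ → ℂ, DifferentiableOn ℂ φ (f '' W) ∧ (∀ z ∈ W, φ (f z) = z) := by
  rcases W.eq_empty_or_nonempty with rfl | hne
  · exact ⟨id, differentiableOn_id, by simp⟩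
  have : Nonempty ℂ := ⟨0⟩
  set φ := Function.invFunOn f W with hφ
  have hφf : ∀ z ∈ W, φ (f z) = z := fun z hz => hinj.leftInvOn_invFunOn hz
  have hopen := isOpen_image_of_injOn hW hf hinj
  have hfφ : ∀ u ∈ f '' W, f (φ u) = u := by
    rintro _ ⟨z, hz, rfl⟩
    rw [hφf z hz]
  have hcont : ∀ z ∈ W, ContinuousAt φ (f z) := by
    intro z hz
    have h1 : Tendsto φ (map f (𝓝 z)) (𝓝 z) := by
      rw [tendsto_map'_iff]
      have : φ ∘ f =ᶠ[𝓝 z] id := by
        filter_upwards [hW.mem_nhds hz] with x hx using hφf x hx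
      exact tendsto_id.congr' this.symm
    have h2 := h1.mono_left (injOn_nhds_le_map hW hf hinj hz)
    rw [ContinuousAt, hφf z hz]
    exact h2
  have hreg : ∀ z ∈ W, deriv f z ≠ 0 → DifferentiableAt ℂ φ (f z) := by
    intro z hz hd
    have h1 : HasDerivAt f (deriv f z) (φ (f z)) := by
      rw [hφf z hz]
      exact ((hf z hz).differentiableAt (hW.mem_nhds hz)).hasDerivAt
    have h2 : ∀ᶠ u in 𝓝 (f z), f (φ u) = u := by
      filter_upwards [hopen.mem_nhds ⟨z, hz, rfl⟩] with u hu using hfφ u hu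
    exact (h1.of_local_left_inverse (hcont z hz) hd h2).differentiableAt
  refine ⟨φ, ?_, hφf⟩
  rintro _ ⟨z₀, hz₀, rfl⟩
  apply DifferentiableAt.differentiableWithinAt
  by_cases hd : deriv f z₀ = 0
  · have han : AnalyticAt ℂ f z₀ := hf.analyticAt (hW.mem_nhds hz₀)
    have hne' : ∀ᶠ z in 𝓝[≠] z₀, deriv f z ≠ 0 := by
      rcases han.deriv.eventually_eq_zero_or_eventually_ne_zero with h | h
      · exfalso
        -- then `f` is locally constant
        obtain ⟨ε, hε, hball⟩ := Metric.eventually_nhds_iff_ball.mp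
          (h.and (hW.mem_nhds hz₀))
        have hconst : ∀ x ∈ ball z₀ ε, f x = f z₀ := by
          intro x hx
          have hdiff : DifferentiableOn ℂ f (ball z₀ ε) :=
            hf.mono fun y hy => (hball y hy).2
          refine (convex_ball z₀ ε).is_const_of_fderivWithin_eq_zero hdiff ?_ hx
            (mem_ball_self hε)
          intro y hy
          rw [fderivWithin_of_isOpen isOpen_ball hy]
          ext
          simp [(hball y hy).1]
        have hx : z₀ + (ε / 2 : ℝ) ∈ ball z₀ ε := by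
          simp [abs_of_pos hε, hε]
        have h1 := hinj (hball _ hx).2 hz₀ (hconst _ hx)
        have : ((ε / 2 : ℝ) : ℂ) = 0 := by simpa using h1
        rw [Complex.ofReal_eq_zero] at this
        linarith
      · exact h
    have hpunct : ∀ᶠ u in 𝓝[≠] (f z₀), DifferentiableAt ℂ φ u := by
      have h1 : ∀ᶠ z in 𝓝 z₀, z ≠ z₀ → deriv f z ≠ 0 := by
        rwa [eventually_nhdsWithin_iff] at hne'
      have h2 : ∀ᶠ z in 𝓝 z₀, f z ≠ f z₀ → DifferentiableAt ℂ φ (f z) := by
        filter_upwards [h1, hW.mem_nhds hz₀] with z hz hzW hne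
        exact hreg z hzW (hz fun h => hne (by rw [h]))
      have h3 : ∀ᶠ u in map f (𝓝 z₀), u ≠ f z₀ → DifferentiableAt ℂ φ u := h2
      rw [eventually_nhdsWithin_iff]
      exact h3.filter_mono (injOn_nhds_le_map hW hf hinj hz₀)
    exact (analyticAt_of_differentiable_on_punctured_nhds_of_continuousAt hpunct
      (hcont z₀ hz₀)).differentiableAt
  · exact hreg z₀ hz₀ hd

/-- The derivative of an injective holomorphic function does not vanish. -/
theorem deriv_ne_zero_of_injOn {f : ℂ → ℂ} {W : Set ℂ} (hW : IsOpen W)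
    (hf : DifferentiableOn ℂ f W) (hinj : InjOn f W) {z : ℂ} (hz : z ∈ W) : deriv f z ≠ 0 := by
  obtain ⟨φ, hφ, hφf⟩ := exists_holomorphic_inverse hW hf hinj
  have hopen := isOpen_image_of_injOn hW hf hinj
  have h1 : HasDerivAt φ (deriv φ (f z)) (f z) :=
    ((hφ _ ⟨z, hz, rfl⟩).differentiableAt (hopen.mem_nhds ⟨z, hz, rfl⟩)).hasDerivAt
  have h2 : HasDerivAt f (deriv f z) z := ((hf z hz).differentiableAt (hW.mem_nhds hz)).hasDerivAt
  have h3 : HasDerivAt (φ ∘ f) (deriv φ (f z) * deriv f z) z := h1.comp z h2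
  have h4 : φ ∘ f =ᶠ[𝓝 z] id := by
    filter_upwards [hW.mem_nhds hz] with x hx using hφf x hx
  have h5 : HasDerivAt (φ ∘ f) 1 z := (hasDerivAt_id z).congr_of_eventuallyEq h4
  have h6 := h3.unique h5
  intro h0
  rw [h0, mul_zero] at h6
  exact zero_ne_one h6

end Crest.Agent.Crz
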