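import Mathlib
import Crest.Agent.Crz.Inv

/-!
Row 132 (S0181): boundary correspondence `F = f ∘ G` on the unit circle.
-/

set_option autoImplicit false

open Complex Metric Set Filter MeasureTheory
open scoped Topology ComplexConjugate Real

namespace Crest.Agent.Crz.Dens

variable {Ω U : Set ℂ} {f G : ℂ → ℂ} {r : ℝ}

theorem image_closure_eq (hΩ₂ : Bornology.IsBounded Ω)
    (hΩU : closure Ω ⊆ U) (hf₁ : DifferentiableOn ℂ f U) (hf₃ : f '' Ω = ball 0 1) :
    f '' closure Ω = closedBall 0 1 := by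
  have hcont : ContinuousOn f (closure Ω) := hf₁.continuousOn.mono hΩU
  have hcomp : IsCompact (closure Ω) := hΩ₂.isCompact_closure
  apply Subset.antisymm
  · calc f '' closure Ω ⊆ closure (f '' Ω) := hcont.image_closure
      _ = closedBall 0 1 := by rw [hf₃, closure_ball _ one_ne_zero]
  · have h1 : IsClosed (f '' closure Ω) := (hcomp.image_of_continuousOn hcont).isClosed
    have h2 : ball (0 : ℂ) 1 ⊆ f '' closure Ω := by
      rw [← hf₃]; exact image_mono subset_closure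
    calc closedBall (0 : ℂ) 1 = closure (ball 0 1) := (closure_ball _ one_ne_zero).symm
      _ ⊆ f '' closure Ω := closure_minimal h2 h1

theorem norm_le_one (hΩ₂ : Bornology.IsBounded Ω)
    (hΩU : closure Ω ⊆ U) (hf₁ : DifferentiableOn ℂ f U) (hf₃ : f '' Ω = ball 0 1)
    {z : ℂ} (hz : z ∈ closure Ω) : ‖f z‖ ≤ 1 := by
  have : f z ∈ closedBall (0 : ℂ) 1 := by
    rw [← image_closure_eq hΩ₂ hΩU hf₁ hf₃]; exact mem_image_of_mem _ hz
  simpa using this

theorem one_lt_norm (hΩ₂ : Bornology.IsBounded Ω)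
    (hΩU : closure Ω ⊆ U) (hf₁ : DifferentiableOn ℂ f U) (hf₂ : InjOn f U)
    (hf₃ : f '' Ω = ball 0 1)
    {z : ℂ} (hzU : z ∈ U) (hz : z ∉ closure Ω) : 1 < ‖f z‖ := by
  by_contra h
  push Not at h
  have h1 : f z ∈ closedBall (0 : ℂ) 1 := by simpa using h
  rw [← image_closure_eq hΩ₂ hΩU hf₁ hf₃] at h1
  obtain ⟨z', hz', he⟩ := h1
  exact hz (hf₂ (hΩU hz') hzU he ▸ hz')

theorem norm_eq_one (hΩ₂ : Bornology.IsBounded Ω)
    (hΩU : closure Ω ⊆ U) (hf₁ : DifferentiableOn ℂ f U) (hf₂ : InjOn f U)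
    (hf₃ : f '' Ω = ball 0 1)
    {z : ℂ} (hz : z ∈ closure Ω) (hz' : z ∉ Ω) : ‖f z‖ = 1 := by
  apply le_antisymm (norm_le_one hΩ₂ hΩU hf₁ hf₃ hz)
  by_contra h
  push Not at h
  have h1 : f z ∈ ball (0 : ℂ) 1 := by simpa using h
  rw [← hf₃] at h1
  obtain ⟨w, hw, he⟩ := h1
  exact hz' (hf₂ (hΩU (subset_closure hw)) (hΩU hz) he ▸ hw)

theorem G_mem_closure (hr₂ : r < 1) (hG₂ : InjOn G {t : ℂ | r < ‖t‖})
    (hG₃ : G '' {t : ℂ | 1 < ‖t‖} = (closure Ω)ᶜ) {w : ℂ} (hw : r < ‖w‖) (hw1 : ‖w‖ ≤ 1) :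
    G w ∈ closure Ω := by
  by_contra h
  have h1 : G w ∈ G '' {t : ℂ | 1 < ‖t‖} := by rw [hG₃]; exact h
  obtain ⟨t, ht, he⟩ := h1
  have ht' : 1 < ‖t‖ := ht
  have : t = w := hG₂ (show r < ‖t‖ from hr₂.trans ht') hw he
  rw [this] at ht'
  linarith

theorem G_notMem_closure (hG₃ : G '' {t : ℂ | 1 < ‖t‖} = (closure Ω)ᶜ) {w : ℂ} (hw : 1 < ‖w‖) :
    G w ∉ closure Ω := by
  have : G w ∈ (closure Ω)ᶜ := by rw [← hG₃]; exact mem_image_of_mem _ hw
  exact this

theorem isOpen_annulus (r : ℝ) : IsOpen {t : ℂ | r < ‖t‖} := isOpen_lt continuous_const continuous_norm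

theorem tendsto_dilate (w : ℂ) : Tendsto (fun s : ℝ => (1 + (s : ℂ)) * w) (𝓝 0) (𝓝 w) := by
  have : Continuous fun s : ℝ => (1 + (s : ℂ)) * w := by fun_prop
  simpa using this.tendsto 0

theorem G_notMem (hΩ₁ : IsOpen Ω) (hr₂ : r < 1) (hG₁ : DifferentiableOn ℂ G {t : ℂ | r < ‖t‖})
    (hG₃ : G '' {t : ℂ | 1 < ‖t‖} = (closure Ω)ᶜ) {w : ℂ} (hw : ‖w‖ = 1) : G w ∉ Ω := by
  intro h
  have hcont : ContinuousAt G w :=
    (hG₁.differentiableAt ((isOpen_annulus r).mem_nhds (show r < ‖w‖ by rw [hw]; exact hr₂))).continuousAt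
  have h1 : ∀ᶠ s : ℝ in 𝓝 0, G ((1 + (s : ℂ)) * w) ∈ Ω :=
    (tendsto_dilate w).eventually (hcont.eventually (hΩ₁.mem_nhds h))
  have h2 : ∀ᶠ s : ℝ in 𝓝[>] 0, G ((1 + (s : ℂ)) * w) ∈ Ω := h1.filter_mono nhdsWithin_le_nhds
  have h3 : ∀ᶠ s : ℝ in 𝓝[>] 0, s ∈ Ioi (0 : ℝ) := self_mem_nhdsWithin
  obtain ⟨s, hs, hs0⟩ := (h2.and h3).exists
  have hs0' : 0 < s := hs0
  have hnorm : 1 < ‖(1 + (s : ℂ)) * w‖ := by
    rw [norm_mul, hw, mul_one]
    have : (1 + (s : ℂ)) = ((1 + s : ℝ) : ℂ) := by push_cast; ring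
    rw [this, Complex.norm_real, Real.norm_eq_abs, abs_of_pos (by linarith)]
    linarith
  exact G_notMem_closure hG₃ hnorm (subset_closure hs)

/-- The collection of hypotheses of S0181 on the two conformal maps. -/
structure Setup (Ω U : Set ℂ) (f G : ℂ → ℂ) (r : ℝ) : Prop where
  hΩ₁ : IsOpen Ω
  hΩ₂ : Bornology.IsBounded Ω
  hU : IsOpen U
  hΩU : closure Ω ⊆ U
  hf₁ : DifferentiableOn ℂ f U
  hf₂ : InjOn f U
  hf₃ : f '' Ω = ball 0 1
  hr₁ : 0 < r
  hr₂ : r < 1
  hG₁ : DifferentiableOn ℂ G {t : ℂ | r < ‖t‖}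
  hG₂ : InjOn G {t : ℂ | r < ‖t‖}
  hG₃ : G '' {t : ℂ | 1 < ‖t‖} = (closure Ω)ᶜ

namespace Setup

variable (h : Setup Ω U f G r)
include h

theorem G_mem {w : ℂ} (hw : ‖w‖ = 1) : G w ∈ closure Ω :=
  G_mem_closure h.hr₂ h.hG₂ h.hG₃ (by rw [hw]; exact h.hr₂) hw.le

theorem norm_F {w : ℂ} (hw : ‖w‖ = 1) : ‖f (G w)‖ = 1 :=
  norm_eq_one h.hΩ₂ h.hΩU h.hf₁ h.hf₂ h.hf₃ (h.G_mem hw)
    (G_notMem h.hΩ₁ h.hr₂ h.hG₁ h.hG₃ hw)

theorem diffG {w : ℂ} (hw : ‖w‖ = 1) : DifferentiableAt ℂ G w :=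
  h.hG₁.differentiableAt ((isOpen_annulus r).mem_nhds (show r < ‖w‖ by rw [hw]; exact h.hr₂))

theorem difff {w : ℂ} (hw : ‖w‖ = 1) : DifferentiableAt ℂ f (G w) :=
  h.hf₁.differentiableAt (h.hU.mem_nhds (h.hΩU (h.G_mem hw)))

theorem hasDerivAt_F {w : ℂ} (hw : ‖w‖ = 1) :
    HasDerivAt (fun t => f (G t)) (deriv f (G w) * deriv G w) w :=
  (h.difff hw).hasDerivAt.comp w (h.diffG hw).hasDerivAt

/-- `w F'(w) conj (F w)` is a nonnegative real on the circle. -/
theorem re_nonneg {w : ℂ} (hw : ‖w‖ = 1) :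
    0 ≤ (conj (f (G w)) * (deriv f (G w) * deriv G w * w)).re := by
  set D := deriv f (G w) * deriv G w with hD
  have hdil : HasDerivAt (fun s : ℝ => (1 + (s : ℂ)) * w) w 0 := by
    have h1 : HasDerivAt (fun s : ℝ => (s : ℂ)) 1 0 := Complex.ofRealCLM.hasDerivAt
    simpa using (h1.const_add 1).mul_const w
  have h1 : HasDerivAt (fun s : ℝ => f (G ((1 + (s : ℂ)) * w))) (D * w) 0 := by
    have h2 : HasDerivAt (fun t => f (G t)) D ((1 + ((0 : ℝ) : ℂ)) * w) := by
      simpa using h.hasDerivAt_F hw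
    exact HasDerivAt.comp (h₂ := fun t => f (G t)) (h := fun s : ℝ => (1 + (s : ℂ)) * w)
      (0 : ℝ) h2 hdil
  have h2 : HasDerivAt (fun s : ℝ => ‖f (G ((1 + (s : ℂ)) * w))‖ ^ 2)
      (2 * inner ℝ (f (G w)) (D * w)) 0 := by
    have := h1.norm_sq
    simpa using this
  have h3 : 0 ≤ 2 * inner ℝ (f (G w)) (D * w) := by
    have h4 := (hasDerivAt_iff_tendsto_slope.mp h2).mono_left
      (nhdsWithin_mono 0 (show Ioi (0 : ℝ) ⊆ {0}ᶜ from fun x hx => ne_of_gt hx))
    refine ge_of_tendsto h4 ?_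
    have hUev : ∀ᶠ s : ℝ in 𝓝[>] 0, G ((1 + (s : ℂ)) * w) ∈ U :=
      ((tendsto_dilate w).eventually ((h.diffG hw).continuousAt.eventually
        (h.hU.mem_nhds (h.hΩU (h.G_mem hw))))).filter_mono nhdsWithin_le_nhds
    filter_upwards [hUev, self_mem_nhdsWithin] with s hs hs0
    have hs0' : (0 : ℝ) < s := hs0
    have hnorm : 1 < ‖(1 + (s : ℂ)) * w‖ := by
      rw [norm_mul, hw, mul_one]
      have : (1 + (s : ℂ)) = ((1 + s : ℝ) : ℂ) := by push_cast; ring
      rw [this, Complex.norm_real, Real.norm_eq_abs, abs_of_pos (by linarith)]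
      linarith
    have h5 := one_lt_norm h.hΩ₂ h.hΩU h.hf₁ h.hf₂ h.hf₃ hs (G_notMem_closure h.hG₃ hnorm)
    rw [slope_def_field]
    apply div_nonneg _ (by linarith)
    simp only [ofReal_zero, add_zero, one_mul, h.norm_F hw]
    nlinarith
  rw [Complex.inner] at h3
  rw [mul_comm]
  linarith

theorem im_eq_zero {w : ℂ} (hw : ‖w‖ = 1) :
    (conj (f (G w)) * (deriv f (G w) * deriv G w * w)).im = 0 := by
  set D := deriv f (G w) * deriv G w with hD
  have hrot : HasDerivAt (fun s : ℝ => Complex.exp ((s : ℂ) * I) * w) (I * w) 0 := by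
    have h1 : HasDerivAt (fun s : ℝ => (s : ℂ) * I) I 0 := by
      simpa using (Complex.ofRealCLM.hasDerivAt (x := (0 : ℝ))).mul_const I
    have h2 := h1.cexp
    simpa using h2.mul_const w
  have h1 : HasDerivAt (fun s : ℝ => f (G (Complex.exp ((s : ℂ) * I) * w))) (D * (I * w)) 0 := by
    have h2 : HasDerivAt (fun t => f (G t)) D (Complex.exp (((0 : ℝ) : ℂ) * I) * w) := by
      simpa using h.hasDerivAt_F hw
    exact HasDerivAt.comp (h₂ := fun t => f (G t))
      (h := fun s : ℝ => Complex.exp ((s : ℂ) * I) * w) (0 : ℝ) h2 hrot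
  have h2 : HasDerivAt (fun s : ℝ => ‖f (G (Complex.exp ((s : ℂ) * I) * w))‖ ^ 2)
      (2 * inner ℝ (f (G w)) (D * (I * w))) 0 := by
    have := h1.norm_sq
    simpa using this
  have h3 : (fun s : ℝ => ‖f (G (Complex.exp ((s : ℂ) * I) * w))‖ ^ 2) = fun _ => (1 : ℝ) := by
    funext s
    rw [h.norm_F (by rw [norm_mul, Complex.norm_exp_ofReal_mul_I, hw, mul_one])]
    norm_num
  rw [h3] at h2
  have h4 := h2.unique (hasDerivAt_const (0 : ℝ) (1 : ℝ))
  rw [Complex.inner] at h4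
  have h5 : D * (I * w) * conj (f (G w)) = I * (conj (f (G w)) * (D * w)) := by ring
  rw [h5] at h4
  simp only [Complex.I_mul_re] at h4
  linarith

end Setup

/-- the circle parametrisation -/
noncomputable def ce (θ : ℝ) : ℂ := Complex.exp ((θ : ℂ) * I)

theorem norm_ce (θ : ℝ) : ‖ce θ‖ = 1 := Complex.norm_exp_ofReal_mul_I θ

theorem hasDerivAt_ce (θ : ℝ) : HasDerivAt ce (I * ce θ) θ := by
  have h1 : HasDerivAt (fun s : ℝ => (s : ℂ) * I) I θ := by
    simpa using (Complex.ofRealCLM.hasDerivAt (x := θ)).mul_const I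
  have h2 := h1.cexp
  rw [mul_comm] at h2
  exact h2

theorem continuous_ce : Continuous ce := by unfold ce; fun_prop

/-- the angular density of `F = f ∘ G` on the unit circle. -/
noncomputable def lam (f G : ℂ → ℂ) (θ : ℝ) : ℝ :=
  (conj (f (G (ce θ))) * (deriv f (G (ce θ)) * deriv G (ce θ) * ce θ)).re

/-- the boundary correspondence. -/
noncomputable def phi (f G : ℂ → ℂ) (θ : ℝ) : ℝ := ∫ t in (0 : ℝ)..θ, lam f G t

namespace Setup

variable (h : Setup Ω U f G r)
include h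

theorem lam_nonneg (θ : ℝ) : 0 ≤ lam f G θ := h.re_nonneg (norm_ce θ)

theorem ofReal_lam (θ : ℝ) :
    (lam f G θ : ℂ) = conj (f (G (ce θ))) * (deriv f (G (ce θ)) * deriv G (ce θ) * ce θ) := by
  apply Complex.ext
  · simp [lam]
  · rw [h.im_eq_zero (norm_ce θ)]; simp

theorem continuous_FG : Continuous fun θ => f (G (ce θ)) := by
  rw [continuous_iff_continuousAt]
  intro θ
  have h1 : ContinuousAt (fun t => f (G t)) (ce θ) :=
    (h.hasDerivAt_F (norm_ce θ)).continuousAt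
  exact ContinuousAt.comp (f := ce) h1 continuous_ce.continuousAt

theorem continuous_G : Continuous fun θ => G (ce θ) := by
  rw [continuous_iff_continuousAt]
  intro θ
  exact ContinuousAt.comp (f := ce) (h.diffG (norm_ce θ)).continuousAt continuous_ce.continuousAt

theorem continuous_lam : Continuous (lam f G) := by
  have h1 : Continuous fun θ => deriv f (G (ce θ)) := by
    rw [continuous_iff_continuousAt]
    intro θ
    have h2 : ContinuousAt (deriv f) (G (ce θ)) :=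
      ((h.hf₁.deriv h.hU).differentiableAt
        (h.hU.mem_nhds (h.hΩU (h.G_mem (norm_ce θ))))).continuousAt
    exact ContinuousAt.comp (f := fun θ => G (ce θ)) h2 h.continuous_G.continuousAt
  have h2 : Continuous fun θ => deriv G (ce θ) := by
    rw [continuous_iff_continuousAt]
    intro θ
    have h3 : ContinuousAt (deriv G) (ce θ) :=
      ((h.hG₁.deriv (isOpen_annulus r)).differentiableAt
        ((isOpen_annulus r).mem_nhds
          (show r < ‖ce θ‖ by rw [norm_ce]; exact h.hr₂))).continuousAt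
    exact ContinuousAt.comp (f := ce) h3 continuous_ce.continuousAt
  have h3 := h.continuous_FG
  have h4 := continuous_ce
  unfold lam
  exact Complex.continuous_re.comp
    ((Complex.continuous_conj.comp h3).mul ((h1.mul h2).mul h4))

theorem hasDerivAt_phi (θ : ℝ) : HasDerivAt (phi f G) (lam f G θ) θ :=
  (h.continuous_lam.integral_hasStrictDerivAt 0 θ).hasDerivAt

theorem hasDerivAt_FG (θ : ℝ) :
    HasDerivAt (fun θ => f (G (ce θ))) (I * lam f G θ * f (G (ce θ))) θ := by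
  have h1 : HasDerivAt (fun θ => f (G (ce θ)))
      (deriv f (G (ce θ)) * deriv G (ce θ) * (I * ce θ)) θ :=
    HasDerivAt.comp (h₂ := fun t => f (G t)) (h := ce) θ (h.hasDerivAt_F (norm_ce θ))
      (hasDerivAt_ce θ)
  convert h1 using 1
  rw [h.ofReal_lam]
  have h2 : conj (f (G (ce θ))) * f (G (ce θ)) = 1 := by
    rw [mul_comm, Complex.mul_conj, Complex.normSq_eq_norm_sq, h.norm_F (norm_ce θ)]
    norm_num
  linear_combination (I * (deriv f (G (ce θ)) * deriv G (ce θ) * ce θ)) * h2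

theorem FG_eq (θ : ℝ) : f (G (ce θ)) = f (G 1) * ce (phi f G θ) := by
  have hd : ∀ θ, HasDerivAt (fun θ => f (G (ce θ)) * ce (-(phi f G θ))) 0 θ := by
    intro θ
    have h1 : HasDerivAt (fun θ => ce (-(phi f G θ)))
        (-(lam f G θ) • (I * ce (-(phi f G θ)))) θ :=
      HasDerivAt.scomp θ (hasDerivAt_ce _) (h.hasDerivAt_phi θ).neg
    refine ((h.hasDerivAt_FG θ).fun_mul h1).congr_deriv ?_
    rw [Complex.real_smul]
    push_cast
    ring
  have hconst : ∀ θ, f (G (ce θ)) * ce (-(phi f G θ)) = f (G (ce 0)) * ce (-(phi f G 0)) := by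
    intro θ
    exact is_const_of_deriv_eq_zero (fun x => (hd x).differentiableAt) (fun x => (hd x).deriv) _ _
  have h0 : ce 0 = 1 := by simp [ce]
  have hp0 : phi f G 0 = 0 := by simp [phi]
  have h1 := hconst θ
  rw [hp0, h0, neg_zero, h0, mul_one] at h1
  have h2 : ce (-(phi f G θ)) * ce (phi f G θ) = 1 := by
    simp only [ce]
    rw [← Complex.exp_add]
    push_cast
    simp
  rw [← h1, mul_assoc, h2, mul_one]

theorem monotone_phi : Monotone (phi f G) :=
  monotone_of_deriv_nonneg (fun θ => (h.hasDerivAt_phi θ).differentiableAt)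
    (fun θ => by rw [(h.hasDerivAt_phi θ).deriv]; exact h.lam_nonneg θ)

theorem ce_inj_of_FG {θ θ' : ℝ} (he : f (G (ce θ)) = f (G (ce θ'))) : ce θ = ce θ' := by
  have h1 := h.hf₂ (h.hΩU (h.G_mem (norm_ce θ))) (h.hΩU (h.G_mem (norm_ce θ'))) he
  exact h.hG₂ (show r < ‖ce θ‖ by rw [norm_ce]; exact h.hr₂)
    (show r < ‖ce θ'‖ by rw [norm_ce]; exact h.hr₂) h1

theorem phi_two_pi : phi f G (2 * π) = 2 * π := by
  have h0 : ce 0 = 1 := by simp [ce]
  have hp0 : phi f G 0 = 0 := by simp [phi]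
  have h2π : ce (2 * π) = 1 := by simp [ce, Complex.exp_two_pi_mul_I]
  have hne : f (G 1) ≠ 0 := by
    intro h'
    have := h.norm_F (w := 1) (by simp)
    rw [h'] at this
    simp at this
  -- `phi (2π)` is an integer multiple of `2π`
  have h1 : ce (phi f G (2 * π)) = 1 := by
    have h1 := h.FG_eq (2 * π)
    rw [h2π] at h1
    have h2 : f (G 1) * ce (phi f G (2 * π)) = f (G 1) * 1 := by rw [mul_one]; exact h1.symm
    exact mul_left_cancel₀ hne h2
  obtain ⟨k, hk⟩ : ∃ k : ℤ, phi f G (2 * π) = k * (2 * π) := by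
    unfold ce at h1
    obtain ⟨k, hk⟩ := Complex.exp_eq_one_iff.mp h1
    refine ⟨k, ?_⟩
    have h3 : ((phi f G (2 * π) : ℝ) : ℂ) * I = ((k * (2 * π) : ℝ) : ℂ) * I := by
      rw [hk]; push_cast; ring
    exact_mod_cast mul_right_cancel₀ I_ne_zero h3
  have hπ := Real.pi_pos
  have hge : 0 ≤ phi f G (2 * π) := by
    rw [← hp0]; exact h.monotone_phi (by positivity)
  -- not zero
  have hce_ne : ∀ θ : ℝ, 0 < θ → θ < 2 * π → ce θ ≠ 1 := by
    intro θ h1 h2 h3
    unfold ce at h3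
    obtain ⟨j, hj⟩ := Complex.exp_eq_one_iff.mp h3
    have h4 : ((θ : ℝ) : ℂ) * I = ((j * (2 * π) : ℝ) : ℂ) * I := by
      rw [hj]; push_cast; ring
    have h5 : θ = j * (2 * π) := by exact_mod_cast mul_right_cancel₀ I_ne_zero h4
    rw [h5] at h1 h2
    have h6 : 0 < j := by
      by_contra hc
      push Not at hc
      have : (j : ℝ) ≤ 0 := by exact_mod_cast hc
      nlinarith
    have h7 : j < 1 := by
      by_contra hc
      push Not at hc
      have : (1 : ℝ) ≤ j := by exact_mod_cast hc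
      nlinarith
    omega
  have hk1 : 1 ≤ k := by
    by_contra hc
    push Not at hc
    have hk0 : (k : ℝ) ≤ 0 := by exact_mod_cast Int.lt_add_one_iff.mp hc
    have h4 : phi f G (2 * π) = 0 := by
      apply le_antisymm _ hge
      rw [hk]; nlinarith
    have h5 : phi f G π = 0 := by
      apply le_antisymm
      · rw [← h4]; exact h.monotone_phi (by linarith)
      · rw [← hp0]; exact h.monotone_phi (by linarith)
    have h6 := h.FG_eq π
    rw [h5, h0, mul_one] at h6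
    have h7 : f (G (ce π)) = f (G (ce 0)) := by rw [h6, h0]
    have h8 := h.ce_inj_of_FG h7
    rw [h0] at h8
    exact hce_ne π hπ (by linarith) h8
  have hk2 : k ≤ 1 := by
    by_contra hc
    push Not at hc
    have hk0 : (2 : ℝ) ≤ k := by exact_mod_cast Int.add_one_le_iff.mpr hc
    have h4 : 4 * π ≤ phi f G (2 * π) := by rw [hk]; nlinarith
    have hcont : ContinuousOn (phi f G) (Icc 0 (2 * π)) :=
      fun x _ => (h.hasDerivAt_phi x).continuousAt.continuousWithinAt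
    have h5 : 2 * π ∈ phi f G '' Icc 0 (2 * π) := by
      apply intermediate_value_Icc (by positivity) hcont
      rw [hp0]
      exact ⟨by positivity, by linarith⟩
    obtain ⟨θ, hθ, hθe⟩ := h5
    have h6 := h.FG_eq θ
    rw [hθe, h2π, mul_one] at h6
    have h7 : f (G (ce θ)) = f (G (ce 0)) := by rw [h6, h0]
    have h8 := h.ce_inj_of_FG h7
    rw [h0] at h8
    have h9 : 0 < θ := by
      rcases hθ.1.lt_or_eq with h9 | h9
      · exact h9
      · rw [← h9, hp0] at hθe; linarith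
    have h10 : θ < 2 * π := by
      rcases hθ.2.lt_or_eq with h10 | h10
      · exact h10
      · rw [h10] at hθe; linarith
    exact hce_ne θ h9 h10 h8
  have : k = 1 := le_antisymm hk2 hk1
  rw [hk, this]
  push_cast
  ring

/-- Change of variables on the unit circle. -/
theorem integral_comp {E : Type*} [NormedAddCommGroup E] [NormedSpace ℝ E]
    (Q : ℂ → E) (hQ : ContinuousOn Q (sphere 0 1)) :
    ∫ θ in (0 : ℝ)..2 * π, lam f G θ • Q (f (G (ce θ))) = ∫ θ in (0 : ℝ)..2 * π, Q (ce θ) := by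
  have hp0 : phi f G 0 = 0 := by simp [phi]
  obtain ⟨α, hα⟩ : ∃ α : ℝ, f (G 1) = ce α := by
    refine ⟨Complex.arg (f (G 1)), ?_⟩
    have := Complex.norm_mul_exp_arg_mul_I (f (G 1))
    rw [h.norm_F (by simp)] at this
    simpa [ce] using this.symm
  have hce_add : ∀ a b : ℝ, ce a * ce b = ce (b + a) := by
    intro a b
    simp only [ce]
    rw [← Complex.exp_add]
    congr 1
    push_cast
    ring
  have hQc : Continuous fun θ => Q (ce (θ + α)) := by
    have : Continuous fun θ : ℝ => ce (θ + α) := continuous_ce.comp (continuous_id.add continuous_const)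
    exact hQ.comp_continuous this (fun θ => by simp [norm_ce])
  have hQc' : Continuous fun θ => Q (ce θ) :=
    hQ.comp_continuous continuous_ce (fun θ => by simp [norm_ce])
  have h1 : ∫ θ in (0 : ℝ)..2 * π, lam f G θ • Q (f (G (ce θ))) =
      ∫ θ in (0 : ℝ)..2 * π, lam f G θ • ((fun t => Q (ce (t + α))) ∘ phi f G) θ := by
    apply intervalIntegral.integral_congr
    intro θ _
    simp only [Function.comp_apply]
    rw [h.FG_eq θ, hα, hce_add]
  rw [h1, intervalIntegral.integral_deriv_smul_comp (fun θ _ => h.hasDerivAt_phi θ)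
    h.continuous_lam.continuousOn hQc, h.phi_two_pi, hp0,
    intervalIntegral.integral_comp_add_right (fun t => Q (ce t)) α]
  have hper : Function.Periodic (fun t => Q (ce t)) (2 * π) := by
    intro t
    have : ce (t + 2 * π) = ce t := by
      rw [← hce_add, show ce (2 * π) = 1 by simp [ce, Complex.exp_two_pi_mul_I], one_mul]
    simp only [this]
  have := hper.intervalIntegral_add_eq (0 + α) 0
  rw [zero_add, show (2 * π + α) = α + 2 * π by ring]
  rw [zero_add, zero_add] at this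
  exact this

end Setup

end Crest.Agent.Crz.Dens
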