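import Mathlib
import Crest.Agent.Crz.Dens1

/-!
Row 132 (S0181): operator Poisson kernel on the unit circle.
-/

set_option autoImplicit false

open Complex Metric Set Filter MeasureTheory
open scoped Topology ComplexConjugate Real ComplexOrder

namespace Crest.Agent.Crz.Dens

variable {n : ℕ}

/-- the resolvent type function `(1 - u X)⁻¹`. -/
noncomputable def Rk (X : Matrix (Fin n) (Fin n) ℂ) (u : ℂ) : Matrix (Fin n) (Fin n) ℂ :=
  (1 - u • X)⁻¹

theorem isUnit_one_sub (X : Matrix (Fin n) (Fin n) ℂ) (hX : ∀ μ ∈ spectrum ℂ X, ‖μ‖ < 1)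
    {u : ℂ} (hu : ‖u‖ ≤ 1) : IsUnit (1 - u • X) := by
  by_cases h0 : u = 0
  · simp [h0]
  by_contra h
  have h1 : u⁻¹ ∈ spectrum ℂ X := by
    rw [spectrum.mem_iff]
    intro h2
    apply h
    have h3 : (1 - u • X) = (algebraMap ℂ (Matrix (Fin n) (Fin n) ℂ) u) *
        (algebraMap ℂ (Matrix (Fin n) (Fin n) ℂ) u⁻¹ - X) := by
      rw [mul_sub, ← map_mul, mul_inv_cancel₀ h0, map_one, Algebra.algebraMap_eq_smul_one,
        smul_mul_assoc, one_mul]
    rw [h3]
    exact ((IsUnit.mk0 u h0).map _).mul h2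
  have h2 := hX _ h1
  rw [norm_inv] at h2
  have h3 : 0 < ‖u‖ := norm_pos_iff.mpr h0
  have h4 : 1 ≤ ‖u‖⁻¹ := (one_le_inv₀ h3).mpr hu
  linarith

theorem isUnit_det_one_sub (X : Matrix (Fin n) (Fin n) ℂ) (hX : ∀ μ ∈ spectrum ℂ X, ‖μ‖ < 1)
    {u : ℂ} (hu : ‖u‖ ≤ 1) : IsUnit (1 - u • X).det :=
  (Matrix.isUnit_iff_isUnit_det _).mp (isUnit_one_sub X hX hu)

theorem differentiable_det (X : Matrix (Fin n) (Fin n) ℂ) :
    Differentiable ℂ fun u : ℂ => (1 - u • X).det := by
  simp only [Matrix.det_apply, Matrix.sub_apply, Matrix.smul_apply]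
  fun_prop

theorem differentiable_adjugate (X : Matrix (Fin n) (Fin n) ℂ) (a b : Fin n) :
    Differentiable ℂ fun u : ℂ => (1 - u • X).adjugate a b := by
  simp only [Matrix.adjugate_apply, Matrix.det_apply]
  refine Differentiable.fun_sum fun σ _ => Differentiable.const_smul ?_ _
  refine Differentiable.fun_finsetProd fun i _ => ?_
  by_cases h : σ i = b
  · simp only [Matrix.updateRow_apply, h, if_true]
    exact differentiable_const _
  · simp only [Matrix.updateRow_apply, h, if_false, Matrix.sub_apply, Matrix.smul_apply]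
    fun_prop

theorem Rk_apply (X : Matrix (Fin n) (Fin n) ℂ) (u : ℂ) (a b : Fin n) :
    Rk X u a b = ((1 - u • X).det)⁻¹ * (1 - u • X).adjugate a b := by
  rw [Rk, Matrix.inv_def, Matrix.smul_apply, Ring.inverse_eq_inv', smul_eq_mul]

theorem differentiableAt_Rk (X : Matrix (Fin n) (Fin n) ℂ) (hX : ∀ μ ∈ spectrum ℂ X, ‖μ‖ < 1)
    {u : ℂ} (hu : ‖u‖ ≤ 1) (a b : Fin n) : DifferentiableAt ℂ (fun u => Rk X u a b) u := by
  simp only [Rk_apply]
  exact ((differentiable_det X u).fun_inv (isUnit_det_one_sub X hX hu).ne_zero).fun_mul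
    (differentiable_adjugate X a b u)

/-- Mean value property on the unit circle. -/
theorem integral_ce_eq (Q : ℂ → ℂ) (hQ : ∀ u ∈ closedBall (0 : ℂ) 1, DifferentiableAt ℂ Q u) :
    ∫ θ in (0 : ℝ)..2 * π, Q (ce θ) = 2 * π * Q 0 := by
  have h1 : DiffContOnCl ℂ Q (ball 0 |1|) := by
    refine ⟨fun u hu => (hQ u ?_).differentiableWithinAt, fun u hu => (hQ u ?_).continuousAt.continuousWithinAt⟩
    · rw [abs_one] at hu; exact ball_subset_closedBall hu
    · rw [abs_one, closure_ball _ one_ne_zero] at hu; exact hu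
  have h2 := h1.circleAverage
  rw [Real.circleAverage_def] at h2
  have h3 : ∀ θ : ℝ, circleMap 0 1 θ = ce θ := by
    intro θ
    simp [circleMap, ce]
  simp only [h3] at h2
  rw [← h2, Complex.real_smul]
  have hπ : (π : ℂ) ≠ 0 := by exact_mod_cast Real.pi_ne_zero
  push_cast
  field_simp

theorem integral_pow_mul_Rk (X : Matrix (Fin n) (Fin n) ℂ) (hX : ∀ μ ∈ spectrum ℂ X, ‖μ‖ < 1)
    (k : ℕ) (a b : Fin n) :
    ∫ θ in (0 : ℝ)..2 * π, ce θ ^ k * Rk X (ce θ) a b =
      2 * π * (0 ^ k * (1 : Matrix (Fin n) (Fin n) ℂ) a b) := by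
  rw [integral_ce_eq (fun u => u ^ k * Rk X u a b)]
  · simp [Rk]
  · intro u hu
    have h1 := differentiableAt_Rk X hX (by simpa using hu) a b
    fun_prop

theorem intervalIntegral_conj (f : ℝ → ℂ) (a b : ℝ) :
    ∫ θ in a..b, conj (f θ) = conj (∫ θ in a..b, f θ) := by
  simp only [intervalIntegral, integral_conj, map_sub]

theorem integral_pow (m : ℕ) (hm : m ≠ 0) : ∫ θ in (0 : ℝ)..2 * π, ce θ ^ m = 0 := by
  rw [integral_ce_eq (fun u => u ^ m) (fun u _ => by fun_prop)]
  simp [hm]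

theorem integral_conj_pow (m : ℕ) (hm : m ≠ 0) : ∫ θ in (0 : ℝ)..2 * π, conj (ce θ) ^ m = 0 := by
  have h1 : ∀ θ : ℝ, conj (ce θ) ^ m = conj (ce θ ^ m) := fun θ => (map_pow _ _ _).symm
  simp only [h1]
  rw [intervalIntegral_conj, integral_pow m hm, map_zero]

theorem conj_ce_mul (θ : ℝ) : conj (ce θ) * ce θ = 1 := by
  rw [mul_comm, Complex.mul_conj, Complex.normSq_eq_norm_sq, norm_ce]
  norm_num

theorem Rk_mul (X : Matrix (Fin n) (Fin n) ℂ) (hX : ∀ μ ∈ spectrum ℂ X, ‖μ‖ < 1)
    {u : ℂ} (hu : ‖u‖ ≤ 1) : (1 - u • X) * Rk X u = 1 :=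
  Matrix.mul_nonsing_inv _ (isUnit_det_one_sub X hX hu)

theorem mul_Rk (X : Matrix (Fin n) (Fin n) ℂ) (hX : ∀ μ ∈ spectrum ℂ X, ‖μ‖ < 1)
    {u : ℂ} (hu : ‖u‖ ≤ 1) : Rk X u * (1 - u • X) = 1 :=
  Matrix.nonsing_inv_mul _ (isUnit_det_one_sub X hX hu)

/-- finite geometric expansion. -/
theorem Rk_expand (X : Matrix (Fin n) (Fin n) ℂ) (hX : ∀ μ ∈ spectrum ℂ X, ‖μ‖ < 1)
    {u : ℂ} (hu : ‖u‖ ≤ 1) (k : ℕ) :
    Rk X u = ∑ j ∈ Finset.range k, u ^ j • X ^ j + (u ^ k • X ^ k) * Rk X u := by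
  induction k with
  | zero => simp
  | succ k ih =>
    have h1 : Rk X u = 1 + (u • X) * Rk X u := by
      have := Rk_mul X hX hu
      rw [sub_mul, one_mul, sub_eq_iff_eq_add] at this
      exact this
    rw [Finset.sum_range_succ, add_assoc]
    have h2 : u ^ k • X ^ k + (u ^ (k + 1) • X ^ (k + 1)) * Rk X u =
        (u ^ k • X ^ k) * Rk X u := by
      conv_rhs => rw [h1]
      rw [mul_add, mul_one, ← mul_assoc, smul_mul_smul_comm, ← pow_succ, ← pow_succ]
    rw [h2]
    exact ih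

theorem continuous_Rk_ce (X : Matrix (Fin n) (Fin n) ℂ) (hX : ∀ μ ∈ spectrum ℂ X, ‖μ‖ < 1)
    (a b : Fin n) : Continuous fun θ => Rk X (ce θ) a b := by
  rw [continuous_iff_continuousAt]
  intro θ
  exact ContinuousAt.comp (f := ce)
    (differentiableAt_Rk X hX (norm_ce θ).le a b).continuousAt continuous_ce.continuousAt

theorem integral_conj_pow_mul_Rk (X : Matrix (Fin n) (Fin n) ℂ)
    (hX : ∀ μ ∈ spectrum ℂ X, ‖μ‖ < 1) (k : ℕ) (a b : Fin n) :
    ∫ θ in (0 : ℝ)..2 * π, conj (ce θ) ^ k * Rk X (ce θ) a b = 2 * π * (X ^ k) a b := by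
  have hc := continuous_ce
  have hcc : Continuous fun θ => conj (ce θ) := Complex.continuous_conj.comp hc
  have h1 : ∀ θ : ℝ, conj (ce θ) ^ k * Rk X (ce θ) a b =
      ∑ j ∈ Finset.range k, conj (ce θ) ^ (k - j) * (X ^ j) a b +
        ∑ c, (X ^ k) a c * Rk X (ce θ) c b := by
    intro θ
    conv_lhs => rw [Rk_expand X hX (norm_ce θ).le k]
    rw [Matrix.add_apply, mul_add, Matrix.sum_apply, Finset.mul_sum]
    congr 1
    · refine Finset.sum_congr rfl fun j hj => ?_
      have hjk : j < k := Finset.mem_range.mp hj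
      rw [Matrix.smul_apply, smul_eq_mul, ← mul_assoc]
      congr 1
      have : k = (k - j) + j := by omega
      conv_lhs => rw [this]
      rw [pow_add, mul_assoc, ← mul_pow, conj_ce_mul, one_pow, mul_one]
    · rw [smul_mul_assoc, Matrix.smul_apply, smul_eq_mul, ← mul_assoc, ← mul_pow, conj_ce_mul,
        one_pow, one_mul, Matrix.mul_apply]
  simp only [h1]
  rw [intervalIntegral.integral_add, intervalIntegral.integral_finsetSum,
    intervalIntegral.integral_finsetSum]
  · have h2 : ∀ j ∈ Finset.range k,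
        ∫ θ in (0 : ℝ)..2 * π, conj (ce θ) ^ (k - j) * (X ^ j) a b = 0 := by
      intro j hj
      have hjk : j < k := Finset.mem_range.mp hj
      rw [intervalIntegral.integral_mul_const, integral_conj_pow _ (by omega), zero_mul]
    rw [Finset.sum_congr rfl h2, Finset.sum_const_zero, zero_add]
    have h3 : ∀ c ∈ Finset.univ, ∫ θ in (0 : ℝ)..2 * π, (X ^ k) a c * Rk X (ce θ) c b =
        2 * π * ((X ^ k) a c * (1 : Matrix (Fin n) (Fin n) ℂ) c b) := by
      intro c _
      rw [intervalIntegral.integral_const_mul]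
      have := integral_pow_mul_Rk X hX 0 c b
      simp only [pow_zero, one_mul] at this
      rw [this]
      ring
    rw [Finset.sum_congr rfl h3, ← Finset.mul_sum, ← Matrix.mul_apply, mul_one]
  · intro c _
    exact (continuous_const.mul (continuous_Rk_ce X hX c b)).intervalIntegrable _ _
  · intro j _
    exact ((hcc.pow _).mul continuous_const).intervalIntegrable _ _
  · refine (continuous_finsetSum _ fun j _ => ?_).intervalIntegrable _ _
    exact (hcc.pow _).mul continuous_const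
  · refine (continuous_finsetSum _ fun c _ => ?_).intervalIntegrable _ _
    exact continuous_const.mul (continuous_Rk_ce X hX c b)

/-- the operator Poisson kernel `(1-uX)⁻¹ + ((1-uX)⁻¹)ᴴ - 1`, with `X = Tᴴ`. -/
noncomputable def Pk (T : Matrix (Fin n) (Fin n) ℂ) (u : ℂ) : Matrix (Fin n) (Fin n) ℂ :=
  Rk T.conjTranspose u + (Rk T.conjTranspose u).conjTranspose - 1

theorem spectrum_conjTranspose (T : Matrix (Fin n) (Fin n) ℂ)
    (hT : ∀ μ ∈ spectrum ℂ T, ‖μ‖ < 1) : ∀ μ ∈ spectrum ℂ T.conjTranspose, ‖μ‖ < 1 := by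
  intro μ hμ
  have h1 : star μ ∈ spectrum ℂ T := by
    have := spectrum.star_mem_resolventSet_iff (R := ℂ) (a := T) (r := μ)
    by_contra h
    have h2 : star μ ∈ resolventSet ℂ T := by
      simpa [spectrum] using h
    have h3 : μ ∈ resolventSet ℂ (star T) := this.mp h2
    exact hμ h3
  have := hT _ h1
  simpa using this

theorem posSemidef_Pk (T : Matrix (Fin n) (Fin n) ℂ) (hT : ∀ μ ∈ spectrum ℂ T, ‖μ‖ < 1)
    (hc : (1 - T.conjTranspose * T).PosSemidef) {u : ℂ} (hu : ‖u‖ = 1) : (Pk T u).PosSemidef := by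
  set X := T.conjTranspose with hXd
  have hX := spectrum_conjTranspose T hT
  rw [← hXd] at hX
  set M := 1 - u • X with hM
  have h1 : M * Rk X u = 1 := Rk_mul X hX hu.le
  have h2 : Rk X u * M = 1 := mul_Rk X hX hu.le
  have h3 : M.conjTranspose * (Rk X u).conjTranspose = 1 := by
    rw [← Matrix.conjTranspose_mul, h2, Matrix.conjTranspose_one]
  have h4 : M.conjTranspose + M - M * M.conjTranspose = 1 - X * X.conjTranspose := by
    rw [hM, Matrix.conjTranspose_sub, Matrix.conjTranspose_one, Matrix.conjTranspose_smul]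
    have h5 : (1 - u • X) * (1 - star u • X.conjTranspose) =
        1 - u • X - star u • X.conjTranspose + (u * star u) • (X * X.conjTranspose) := by
      rw [sub_mul, mul_sub, mul_sub, one_mul, one_mul, mul_one, smul_mul_smul_comm]
      abel
    rw [h5]
    have h6 : u * star u = 1 := by
      rw [Complex.star_def, Complex.mul_conj, Complex.normSq_eq_norm_sq, hu]; norm_num
    rw [h6, one_smul]
    abel
  have h7 : Pk T u = Rk X u * (1 - X * X.conjTranspose) * (Rk X u).conjTranspose := by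
    rw [← h4, Pk, ← hXd, mul_sub, sub_mul, mul_add, add_mul, mul_assoc (Rk X u) M.conjTranspose,
      h3, mul_one, h2, one_mul, ← mul_assoc (Rk X u) M, h2, one_mul, h3]
  rw [h7]
  have h8 : (1 - X * X.conjTranspose).PosSemidef := by
    rw [hXd, Matrix.conjTranspose_conjTranspose]; exact hc
  exact h8.mul_mul_conjTranspose_same _

theorem continuous_Pk_ce (T : Matrix (Fin n) (Fin n) ℂ) (hT : ∀ μ ∈ spectrum ℂ T, ‖μ‖ < 1)
    (a b : Fin n) : Continuous fun θ => Pk T (ce θ) a b := by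
  have hX := spectrum_conjTranspose T hT
  simp only [Pk, Matrix.sub_apply, Matrix.add_apply, Matrix.conjTranspose_apply]
  exact ((continuous_Rk_ce _ hX a b).add (continuous_star.comp (continuous_Rk_ce _ hX b a))).sub
    continuous_const

theorem continuousOn_Pk (T : Matrix (Fin n) (Fin n) ℂ) (hT : ∀ μ ∈ spectrum ℂ T, ‖μ‖ < 1)
    (a b : Fin n) : ContinuousOn (fun u => Pk T u a b) (closedBall 0 1) := by
  have hX := spectrum_conjTranspose T hT
  simp only [Pk, Matrix.sub_apply, Matrix.add_apply, Matrix.conjTranspose_apply]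
  have h1 : ∀ a b, ContinuousOn (fun u => Rk T.conjTranspose u a b) (closedBall 0 1) := fun a b u hu =>
    (differentiableAt_Rk _ hX (by simpa using hu) a b).continuousAt.continuousWithinAt
  exact ((h1 a b).add (continuous_star.comp_continuousOn (h1 b a))).sub continuousOn_const

theorem integral_pow_mul_Pk (T : Matrix (Fin n) (Fin n) ℂ) (hT : ∀ μ ∈ spectrum ℂ T, ‖μ‖ < 1)
    (k : ℕ) (a b : Fin n) :
    ∫ θ in (0 : ℝ)..2 * π, ce θ ^ k * Pk T (ce θ) a b = 2 * π * (T ^ k) a b := by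
  have hX := spectrum_conjTranspose T hT
  set X := T.conjTranspose with hXd
  have hc := continuous_ce
  have h1 : ∀ θ : ℝ, ce θ ^ k * Pk T (ce θ) a b = ce θ ^ k * Rk X (ce θ) a b +
      conj (conj (ce θ) ^ k * Rk X (ce θ) b a) - ce θ ^ k * (1 : Matrix (Fin n) (Fin n) ℂ) a b := by
    intro θ
    rw [Pk, Matrix.sub_apply, Matrix.add_apply, Matrix.conjTranspose_apply, map_mul, map_pow,
      Complex.conj_conj, Complex.star_def]
    ring
  simp only [h1]
  have i1 : IntervalIntegrable (fun θ => ce θ ^ k * Rk X (ce θ) a b) volume 0 (2 * π) :=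
    ((hc.pow k).mul (continuous_Rk_ce X hX a b)).intervalIntegrable _ _
  have i2 : IntervalIntegrable (fun θ => conj (conj (ce θ) ^ k * Rk X (ce θ) b a)) volume 0 (2 * π) := by
    refine Continuous.intervalIntegrable ?_ _ _
    exact Complex.continuous_conj.comp
      (((Complex.continuous_conj.comp hc).pow k).mul (continuous_Rk_ce X hX b a))
  have i3 : IntervalIntegrable (fun θ => ce θ ^ k * (1 : Matrix (Fin n) (Fin n) ℂ) a b) volume 0 (2 * π) :=
    ((hc.pow k).mul continuous_const).intervalIntegrable _ _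
  rw [intervalIntegral.integral_sub (i1.add i2) i3, intervalIntegral.integral_add i1 i2,
    integral_pow_mul_Rk X hX k a b, intervalIntegral_conj, integral_conj_pow_mul_Rk X hX k b a,
    intervalIntegral.integral_mul_const]
  have h2 : ∫ θ in (0 : ℝ)..2 * π, ce θ ^ k = 2 * π * 0 ^ k :=
    integral_ce_eq (fun u => u ^ k) (fun u _ => by fun_prop)
  rw [h2]
  have h3 : conj ((2 * π * (X ^ k) b a : ℂ)) = 2 * π * (T ^ k) a b := by
    rw [map_mul, map_mul, Complex.conj_ofReal, map_ofNat, hXd, ← Matrix.conjTranspose_pow,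
      Matrix.conjTranspose_apply, Complex.star_def, Complex.conj_conj]
  rw [h3]
  ring

theorem integral_eval_mul_Pk (T : Matrix (Fin n) (Fin n) ℂ) (hT : ∀ μ ∈ spectrum ℂ T, ‖μ‖ < 1)
    (h : Polynomial ℂ) (a b : Fin n) :
    ∫ θ in (0 : ℝ)..2 * π, Pk T (ce θ) a b * h.eval (ce θ) =
      2 * π * (Polynomial.aeval T h) a b := by
  have hc := continuous_ce
  have h1 : ∀ θ : ℝ, Pk T (ce θ) a b * h.eval (ce θ) =
      ∑ k ∈ Finset.range (h.natDegree + 1), h.coeff k * (ce θ ^ k * Pk T (ce θ) a b) := by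
    intro θ
    rw [Polynomial.eval_eq_sum_range, Finset.mul_sum]
    refine Finset.sum_congr rfl fun k _ => ?_
    ring
  simp only [h1]
  rw [intervalIntegral.integral_finsetSum]
  · simp only [intervalIntegral.integral_const_mul, integral_pow_mul_Pk T hT]
    rw [Polynomial.aeval_eq_sum_range, Matrix.sum_apply, Finset.mul_sum]
    refine Finset.sum_congr rfl fun k _ => ?_
    rw [Matrix.smul_apply, smul_eq_mul]
    ring
  · intro k _
    exact (continuous_const.mul ((hc.pow k).mul (continuous_Pk_ce T hT a b))).intervalIntegrable _ _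

end Crest.Agent.Crz.Dens
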