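import Mathlib

/-!
Row 132 (S0181): norm bound for averages of `Λ ⊗ w` with positive semidefinite `Λ` of mean `1`.
-/

set_option autoImplicit false

open Complex Metric Set Filter MeasureTheory Matrix
open scoped Topology ComplexConjugate Real ComplexOrder Kronecker

namespace Crest.Agent.Crz.Dens

variable {ι : Type*} [Fintype ι] [DecidableEq ι]

/-- shorthand for the operator of a matrix on Euclidean space. -/
noncomputable abbrev CL (B : Matrix ι ι ℂ) : EuclideanSpace ℂ ι →L[ℂ] EuclideanSpace ℂ ι :=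
  Matrix.toEuclideanCLM (n := ι) (𝕜 := ℂ) B

theorem inner_CL (B : Matrix ι ι ℂ) (x y : EuclideanSpace ℂ ι) :
    inner ℂ y (CL B x) = star (y.ofLp) ⬝ᵥ (B *ᵥ x.ofLp) := by
  rw [EuclideanSpace.inner_eq_star_dotProduct, dotProduct_comm]
  rfl

theorem inner_CL_conjTranspose (B : Matrix ι ι ℂ) (x y : EuclideanSpace ℂ ι) :
    inner ℂ y (CL Bᴴ x) = inner ℂ (CL B y) x := by
  have h1 : CL Bᴴ = ContinuousLinearMap.adjoint (CL B) := by
    have := map_star (Matrix.toEuclideanCLM (n := ι) (𝕜 := ℂ)) B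
    exact this
  rw [h1, ContinuousLinearMap.adjoint_inner_right]

theorem norm_sq_CL (B : Matrix ι ι ℂ) (x : EuclideanSpace ℂ ι) :
    ‖CL B x‖ ^ 2 = (inner ℂ x (CL (Bᴴ * B) x)).re := by
  have h1 : CL (Bᴴ * B) x = CL Bᴴ (CL B x) := by
    rw [CL, map_mul]; rfl
  rw [h1, inner_CL_conjTranspose, ← inner_self_eq_norm_sq (𝕜 := ℂ)]
  rfl

theorem psd_iff_norm_le (B : Matrix ι ι ℂ) {c : ℝ} (hc : 0 ≤ c) :
    (((c ^ 2 : ℝ) : ℂ) • (1 : Matrix ι ι ℂ) - Bᴴ * B).PosSemidef ↔ ‖CL B‖ ≤ c := by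
  have key : ∀ x : EuclideanSpace ℂ ι,
      star (x.ofLp) ⬝ᵥ ((((c ^ 2 : ℝ) : ℂ) • (1 : Matrix ι ι ℂ) - Bᴴ * B) *ᵥ x.ofLp) =
        ((c ^ 2 * ‖x‖ ^ 2 - ‖CL B x‖ ^ 2 : ℝ) : ℂ) := by
    intro x
    rw [← inner_CL, CL, map_sub, map_smul, map_one]
    simp only [_root_.sub_apply, _root_.smul_apply,
      one_apply_eq_self, inner_sub_right, inner_smul_right]
    rw [inner_self_eq_norm_sq_to_K]
    have h1 : inner ℂ x (CL (Bᴴ * B) x) = ((‖CL B x‖ ^ 2 : ℝ) : ℂ) := by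
      have h2 : CL (Bᴴ * B) x = CL Bᴴ (CL B x) := by
        rw [CL, map_mul]; rfl
      rw [h2, inner_CL_conjTranspose, inner_self_eq_norm_sq_to_K]
      push_cast
      rfl
    change _ - inner ℂ x (CL (Bᴴ * B) x) = _
    rw [h1]
    push_cast
    rfl
  constructor
  · intro h
    refine ContinuousLinearMap.opNorm_le_bound _ hc fun x => ?_
    have h1 := h.dotProduct_mulVec_nonneg x.ofLp
    rw [key x] at h1
    have h2 : 0 ≤ c ^ 2 * ‖x‖ ^ 2 - ‖CL B x‖ ^ 2 := by exact_mod_cast h1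
    have h3 : ‖CL B x‖ ^ 2 ≤ (c * ‖x‖) ^ 2 := by nlinarith
    exact abs_le_of_sq_le_sq' h3 (by positivity) |>.2
  · intro h
    apply PosSemidef.of_dotProduct_mulVec_nonneg
    · apply IsHermitian.sub
      · rw [IsHermitian, conjTranspose_smul, conjTranspose_one, Complex.star_def, Complex.conj_ofReal]
      · exact isHermitian_conjTranspose_mul_self B
    · intro x
      have h1 := key (WithLp.toLp 2 x)
      simp only at h1
      rw [h1]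
      have h2 : ‖CL B (WithLp.toLp 2 x)‖ ≤ c * ‖WithLp.toLp 2 x‖ :=
        (ContinuousLinearMap.le_opNorm _ _).trans (by gcongr)
      have h3 : 0 ≤ c ^ 2 * ‖WithLp.toLp 2 x‖ ^ 2 - ‖CL B (WithLp.toLp 2 x)‖ ^ 2 := by
        have := pow_le_pow_left₀ (norm_nonneg _) h2 2
        nlinarith
      exact_mod_cast h3

theorem norm_le_of_forms (B : Matrix ι ι ℂ) {M : ℝ}
    (h : ∀ x y : EuclideanSpace ℂ ι, ‖inner ℂ y (CL B x)‖ ≤ M / 2 * (‖y‖ ^ 2 + ‖x‖ ^ 2)) (hM : 0 ≤ M) :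
    ‖CL B‖ ≤ M := by
  refine ContinuousLinearMap.opNorm_le_bound _ hM fun x => ?_
  rcases eq_or_ne (CL B x) 0 with h0 | h0
  · rw [h0, norm_zero]; positivity
  have hpos : 0 < ‖CL B x‖ := norm_pos_iff.mpr h0
  rcases eq_or_ne x 0 with hx | hx
  · rw [hx, map_zero] at h0; exact absurd rfl h0
  have hxpos : 0 < ‖x‖ := norm_pos_iff.mpr hx
  set s : ℝ := ‖x‖ / ‖CL B x‖ with hs
  have hspos : 0 < s := by positivity
  have h1 := h x ((s : ℂ) • CL B x)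
  rw [inner_smul_left, norm_mul, norm_smul, inner_self_eq_norm_sq_to_K] at h1
  simp only [Complex.conj_ofReal, Complex.norm_real, Real.norm_eq_abs, abs_of_pos hspos,
    norm_pow] at h1
  have h2 : ‖((‖CL B x‖ : ℝ) : ℂ)‖ = ‖CL B x‖ := by
    rw [Complex.norm_real, norm_norm]
  change s * ‖((‖CL B x‖ : ℝ) : ℂ)‖ ^ 2 ≤ _ at h1
  rw [h2] at h1
  have h3 : s * ‖CL B x‖ = ‖x‖ := by rw [hs]; field_simp
  have h4 : s * ‖CL B x‖ ^ 2 = ‖x‖ * ‖CL B x‖ := by rw [← h3]; ring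
  rw [h4, h3] at h1
  have h5 : ‖x‖ * ‖CL B x‖ ≤ ‖x‖ * (M * ‖x‖) := by nlinarith
  exact le_of_mul_le_mul_left h5 hxpos

variable {n m : ℕ}

theorem norm_kron_one (C : Matrix (Fin n) (Fin n) ℂ) {c : ℝ} (hc : 0 ≤ c) (h : ‖CL C‖ ≤ c) :
    ‖CL (C ⊗ₖ (1 : Matrix (Fin m) (Fin m) ℂ))‖ ≤ c := by
  rw [← psd_iff_norm_le _ hc] at h ⊢
  have h1 := h.kronecker (PosSemidef.one (n := Fin m) (R := ℂ))
  have he : ((c ^ 2 : ℝ) : ℂ) • (1 : Matrix (Fin n × Fin m) (Fin n × Fin m) ℂ) -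
      (C ⊗ₖ (1 : Matrix (Fin m) (Fin m) ℂ))ᴴ * (C ⊗ₖ (1 : Matrix (Fin m) (Fin m) ℂ)) =
      (((c ^ 2 : ℝ) : ℂ) • (1 : Matrix (Fin n) (Fin n) ℂ) - Cᴴ * C) ⊗ₖ
        (1 : Matrix (Fin m) (Fin m) ℂ) := by
    rw [conjTranspose_kronecker, ← mul_kronecker_mul, conjTranspose_one, one_mul]
    ext ⟨i, c'⟩ ⟨j, d⟩
    by_cases hcd : c' = d
    · by_cases hij : i = j <;> simp [kroneckerMap_apply, Matrix.one_apply, hcd, hij]
    · simp [kroneckerMap_apply, Matrix.one_apply, hcd]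
  rw [he]
  exact h1

theorem norm_one_kron (w : Matrix (Fin m) (Fin m) ℂ) {c : ℝ} (hc : 0 ≤ c) (h : ‖CL w‖ ≤ c) :
    ‖CL ((1 : Matrix (Fin n) (Fin n) ℂ) ⊗ₖ w)‖ ≤ c := by
  rw [← psd_iff_norm_le _ hc] at h ⊢
  have h1 := (PosSemidef.one (n := Fin n) (R := ℂ)).kronecker h
  have he : ((c ^ 2 : ℝ) : ℂ) • (1 : Matrix (Fin n × Fin m) (Fin n × Fin m) ℂ) -
      ((1 : Matrix (Fin n) (Fin n) ℂ) ⊗ₖ w)ᴴ * ((1 : Matrix (Fin n) (Fin n) ℂ) ⊗ₖ w) =
      (1 : Matrix (Fin n) (Fin n) ℂ) ⊗ₖ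
        (((c ^ 2 : ℝ) : ℂ) • (1 : Matrix (Fin m) (Fin m) ℂ) - wᴴ * w) := by
    rw [conjTranspose_kronecker, ← mul_kronecker_mul, conjTranspose_one, one_mul]
    ext ⟨i, c'⟩ ⟨j, d⟩
    by_cases hcd : i = j
    · by_cases hij : c' = d <;> simp [kroneckerMap_apply, Matrix.one_apply, hcd, hij]
    · simp [kroneckerMap_apply, Matrix.one_apply, hcd]
  rw [he]
  exact h1

/-- the pointwise Cauchy-Schwarz inequality. -/
theorem kron_form_le (L : Matrix (Fin n) (Fin n) ℂ) (hL : L.PosSemidef)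
    (w : Matrix (Fin m) (Fin m) ℂ) {M : ℝ} (hM : 0 ≤ M) (hw : ‖CL w‖ ≤ M)
    (x y : EuclideanSpace ℂ (Fin n × Fin m)) :
    ‖inner ℂ y (CL (L ⊗ₖ w) x)‖ ≤ M / 2 *
      ((inner ℂ y (CL (L ⊗ₖ (1 : Matrix (Fin m) (Fin m) ℂ)) y)).re +
        (inner ℂ x (CL (L ⊗ₖ (1 : Matrix (Fin m) (Fin m) ℂ)) x)).re) := by
  obtain ⟨C, hC⟩ : ∃ C : Matrix (Fin n) (Fin n) ℂ, L = Cᴴ * C := by
    open scoped MatrixOrder in
    obtain ⟨C, hC⟩ := CStarAlgebra.nonneg_iff_eq_star_mul_self.mp hL.nonneg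
    exact ⟨C, hC⟩
  have h1 : L ⊗ₖ w = (C ⊗ₖ (1 : Matrix (Fin m) (Fin m) ℂ))ᴴ *
      (((1 : Matrix (Fin n) (Fin n) ℂ) ⊗ₖ w) * (C ⊗ₖ (1 : Matrix (Fin m) (Fin m) ℂ))) := by
    rw [conjTranspose_kronecker, ← mul_kronecker_mul, ← mul_kronecker_mul, hC]
    simp
  have h2 : L ⊗ₖ (1 : Matrix (Fin m) (Fin m) ℂ) = (C ⊗ₖ (1 : Matrix (Fin m) (Fin m) ℂ))ᴴ *
      (C ⊗ₖ (1 : Matrix (Fin m) (Fin m) ℂ)) := by
    rw [conjTranspose_kronecker, ← mul_kronecker_mul, hC]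
    simp
  set D := C ⊗ₖ (1 : Matrix (Fin m) (Fin m) ℂ) with hD
  set W := (1 : Matrix (Fin n) (Fin n) ℂ) ⊗ₖ w with hW
  have hWn : ‖CL W‖ ≤ M := norm_one_kron w hM hw
  rw [h2, ← norm_sq_CL, ← norm_sq_CL, h1]
  have h3 : CL (Dᴴ * (W * D)) x = CL Dᴴ (CL W (CL D x)) := by
    rw [CL, map_mul, map_mul]; rfl
  rw [h3, inner_CL_conjTranspose]
  calc ‖inner ℂ (CL D y) (CL W (CL D x))‖ ≤ ‖CL D y‖ * ‖CL W (CL D x)‖ := norm_inner_le_norm _ _
    _ ≤ ‖CL D y‖ * (M * ‖CL D x‖) := by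
        gcongr
        exact (ContinuousLinearMap.le_opNorm _ _).trans (by gcongr)
    _ ≤ M / 2 * (‖CL D y‖ ^ 2 + ‖CL D x‖ ^ 2) := by
        have h4 : 0 ≤ M * (‖CL D y‖ - ‖CL D x‖) ^ 2 := by positivity
        nlinarith

theorem inner_CL_sum (B : Matrix ι ι ℂ) (x y : EuclideanSpace ℂ ι) :
    inner ℂ y (CL B x) = ∑ i, ∑ j, (star (y i) * x j) * B i j := by
  rw [inner_CL]
  simp only [dotProduct, mulVec, Finset.mul_sum, Pi.star_apply]
  refine Finset.sum_congr rfl fun i _ => Finset.sum_congr rfl fun j _ => ?_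
  ring

theorem continuous_inner_CL (B : ℝ → Matrix ι ι ℂ) (hB : ∀ i j, Continuous fun θ => B θ i j)
    (x y : EuclideanSpace ℂ ι) : Continuous fun θ => inner ℂ y (CL (B θ) x) := by
  simp only [inner_CL_sum]
  refine continuous_finsetSum _ fun i _ => continuous_finsetSum _ fun j _ => ?_
  exact continuous_const.mul (hB i j)

theorem inner_integral (B : ℝ → Matrix ι ι ℂ) (hB : ∀ i j, Continuous fun θ => B θ i j)
    (B₀ : Matrix ι ι ℂ)
    (h : ∀ i j, B₀ i j = (2 * π : ℂ)⁻¹ * ∫ θ in (0 : ℝ)..2 * π, B θ i j)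
    (x y : EuclideanSpace ℂ ι) :
    inner ℂ y (CL B₀ x) = (2 * π : ℂ)⁻¹ * ∫ θ in (0 : ℝ)..2 * π, inner ℂ y (CL (B θ) x) := by
  simp only [inner_CL_sum]
  rw [intervalIntegral.integral_finsetSum]
  · rw [Finset.mul_sum]
    refine Finset.sum_congr rfl fun i _ => ?_
    rw [intervalIntegral.integral_finsetSum]
    · rw [Finset.mul_sum]
      refine Finset.sum_congr rfl fun j _ => ?_
      rw [intervalIntegral.integral_const_mul, h i j]
      ring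
    · intro j _
      exact (continuous_const.mul (hB i j)).intervalIntegrable _ _
  · intro i _
    exact (continuous_finsetSum _ fun j _ => continuous_const.mul (hB i j)).intervalIntegrable _ _

theorem avg_norm_le (L : ℝ → Matrix (Fin n) (Fin n) ℂ) (hLc : ∀ a b, Continuous fun θ => L θ a b)
    (hL : ∀ θ, (L θ).PosSemidef)
    (hmean : ∀ a b, (2 * π : ℂ)⁻¹ * (∫ θ in (0 : ℝ)..2 * π, L θ a b) =
      (1 : Matrix (Fin n) (Fin n) ℂ) a b)
    (w : ℝ → Matrix (Fin m) (Fin m) ℂ) (hwc : ∀ c d, Continuous fun θ => w θ c d)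
    {M : ℝ} (hM : 0 ≤ M) (hw : ∀ θ, ‖CL (w θ)‖ ≤ M)
    (B : Matrix (Fin n × Fin m) (Fin n × Fin m) ℂ)
    (hB : ∀ i j, B i j = (2 * π : ℂ)⁻¹ * ∫ θ in (0 : ℝ)..2 * π, L θ i.1 j.1 * w θ i.2 j.2) :
    ‖CL B‖ ≤ M := by
  have hπ : 0 < 2 * π := by positivity
  refine norm_le_of_forms B (fun x y => ?_) hM
  have hc1 : ∀ i j, Continuous fun θ => (L θ ⊗ₖ w θ) i j := fun i j =>
    (hLc i.1 j.1).mul (hwc i.2 j.2)
  have hc2 : ∀ i j, Continuous fun θ => (L θ ⊗ₖ (1 : Matrix (Fin m) (Fin m) ℂ)) i j := fun i j =>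
    (hLc i.1 j.1).mul continuous_const
  have h1 := inner_integral (fun θ => L θ ⊗ₖ w θ) hc1 B hB x y
  have h2 : ∀ x : EuclideanSpace ℂ (Fin n × Fin m),
      (2 * π)⁻¹ * ∫ θ in (0 : ℝ)..2 * π,
        (inner ℂ x (CL (L θ ⊗ₖ (1 : Matrix (Fin m) (Fin m) ℂ)) x)).re = ‖x‖ ^ 2 := by
    intro x
    have h3 := inner_integral (fun θ => L θ ⊗ₖ (1 : Matrix (Fin m) (Fin m) ℂ)) hc2 1 (by
      intro i j
      simp only [kroneckerMap_apply]
      rw [intervalIntegral.integral_mul_const, ← mul_assoc, hmean]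
      have := congrFun (congrFun (one_kronecker_one (α := ℂ) (m := Fin n) (n := Fin m)) i) j
      rw [← this]
      rfl) x x
    rw [CL, map_one, one_apply_eq_self] at h3
    have h4 : (inner ℂ x x : ℂ) = ((‖x‖ ^ 2 : ℝ) : ℂ) := by
      rw [inner_self_eq_norm_sq_to_K]; push_cast; rfl
    rw [h4] at h3
    have h5 : ((2 * π : ℂ)⁻¹) = (((2 * π)⁻¹ : ℝ) : ℂ) := by push_cast; rfl
    have h6 := congrArg Complex.re h3
    rw [h5, Complex.re_ofReal_mul, Complex.ofReal_re] at h6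
    rw [h6]
    congr 1
    have hint : IntervalIntegrable (fun θ => inner ℂ x
        (CL (L θ ⊗ₖ (1 : Matrix (Fin m) (Fin m) ℂ)) x)) volume 0 (2 * π) :=
      (continuous_inner_CL _ hc2 x x).intervalIntegrable _ _
    exact Complex.reCLM.intervalIntegral_comp_comm hint
  have hform : ∀ x : EuclideanSpace ℂ (Fin n × Fin m), Continuous fun θ =>
      (inner ℂ x (CL (L θ ⊗ₖ (1 : Matrix (Fin m) (Fin m) ℂ)) x)).re := fun x =>
    Complex.continuous_re.comp (continuous_inner_CL _ hc2 x x)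
  rw [h1, norm_mul]
  have h5 : ‖((2 * π : ℂ)⁻¹)‖ = (2 * π)⁻¹ := by
    rw [norm_inv, norm_mul, Complex.norm_real, Real.norm_eq_abs, abs_of_pos Real.pi_pos]
    simp
  rw [h5]
  calc (2 * π)⁻¹ * ‖∫ θ in (0 : ℝ)..2 * π, inner ℂ y (CL (L θ ⊗ₖ w θ) x)‖
      ≤ (2 * π)⁻¹ * ∫ θ in (0 : ℝ)..2 * π, M / 2 *
          ((inner ℂ y (CL (L θ ⊗ₖ (1 : Matrix (Fin m) (Fin m) ℂ)) y)).re +
            (inner ℂ x (CL (L θ ⊗ₖ (1 : Matrix (Fin m) (Fin m) ℂ)) x)).re) := by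
        gcongr
        refine (intervalIntegral.norm_integral_le_integral_norm hπ.le).trans ?_
        apply intervalIntegral.integral_mono_on hπ.le
        · exact (continuous_inner_CL _ hc1 x y).norm.intervalIntegrable _ _
        · exact (continuous_const.mul ((hform y).add (hform x))).intervalIntegrable _ _
        · intro θ _
          exact kron_form_le (L θ) (hL θ) (w θ) hM (hw θ) x y
    _ = M / 2 * (‖y‖ ^ 2 + ‖x‖ ^ 2) := by
        rw [intervalIntegral.integral_const_mul, intervalIntegral.integral_add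
          ((hform y).intervalIntegrable _ _) ((hform x).intervalIntegrable _ _), ← h2 x, ← h2 y]
        ring

end Crest.Agent.Crz.Dens
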