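import Mathlib
import Crest.Prelude.Def_NumRangeMetric

/-!
Row 132: jets at the spectrum. Values `aeval A P` of polynomials at a complex matrix depend
(continuously) only on the jets of order `n` of `P` at the spectrum.
-/

set_option autoImplicit false

open Complex Metric Set Filter Polynomial
open scoped Topology
open Crest.AnalysisR.NumRange

namespace Crest.Agent.Crz

theorem iteratedDeriv_eval (P : ℂ[X]) (j : ℕ) :
    iteratedDeriv j (fun z => P.eval z) = fun z => (derivative^[j] P).eval z := by
  induction j generalizing P with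
  | zero => simp
  | succ j ih =>
    rw [iteratedDeriv_succ', Function.iterate_succ, Function.comp_apply, ← ih (derivative P)]
    congr 1
    funext z
    exact P.deriv

/-- a polynomial whose jets of order `n` at the spectrum vanish kills the matrix. -/
theorem aeval_eq_zero_of_jets {n : ℕ} (A : Matrix (Fin n) (Fin n) ℂ) (P : ℂ[X])
    (h : ∀ μ ∈ spectrum ℂ A, ∀ j < n, iteratedDeriv j (fun z => P.eval z) μ = 0) :
    aeval A P = 0 := by
  by_cases hP : P = 0
  · simp [hP]
  have hmonic := A.charpoly_monic
  have hdvd : A.charpoly ∣ P := by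
    apply (IsAlgClosed.splits A.charpoly).dvd_of_roots_le_roots hmonic.ne_zero
    rw [Multiset.le_iff_count]
    intro μ
    rw [count_roots, count_roots]
    by_cases hμ : A.charpoly.rootMultiplicity μ = 0
    · rw [hμ]; exact Nat.zero_le _
    · have hpos : 0 < A.charpoly.rootMultiplicity μ := Nat.pos_of_ne_zero hμ
      have hroot : A.charpoly.IsRoot μ := (rootMultiplicity_pos hmonic.ne_zero).mp hpos
      have hspec : μ ∈ spectrum ℂ A := Matrix.mem_spectrum_iff_isRoot_charpoly.mpr hroot
      have hle : A.charpoly.rootMultiplicity μ ≤ n := by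
        calc A.charpoly.rootMultiplicity μ = A.charpoly.roots.count μ := (count_roots _).symm
          _ ≤ Multiset.card A.charpoly.roots := Multiset.count_le_card _ _
          _ ≤ A.charpoly.natDegree := card_roots' _
          _ = n := by rw [Matrix.charpoly_natDegree_eq_dim, Fintype.card_fin]
      have hn : 0 < n := lt_of_lt_of_le hpos hle
      have : n - 1 < P.rootMultiplicity μ := by
        apply lt_rootMultiplicity_of_isRoot_iterate_derivative hP
        intro m hm
        have := h μ hspec m (by omega)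
        rw [iteratedDeriv_eval] at this
        exact this
      omega
  obtain ⟨Q, hQ⟩ := hdvd
  rw [hQ, map_mul, Matrix.aeval_self_charpoly, zero_mul]

/-- the jet map at the spectrum as a linear map. -/
noncomputable def jetMap {n : ℕ} (A : Matrix (Fin n) (Fin n) ℂ) :
    ℂ[X] →ₗ[ℂ] (spectrum ℂ A → Fin n → ℂ) where
  toFun P μ j := (derivative^[(j : ℕ)] P).eval (μ : ℂ)
  map_add' P Q := by
    funext μ j
    have : derivative^[(j : ℕ)] (P + Q) = derivative^[(j : ℕ)] P + derivative^[(j : ℕ)] Q :=
      iterate_map_add derivative _ P Q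
    simp [this]
  map_smul' c P := by
    funext μ j
    simp [iterate_derivative_smul]

theorem aeval_tendsto_of_jets {n : ℕ} (A : Matrix (Fin n) (Fin n) ℂ) {ι : Type*} {l : Filter ι}
    (P : ι → ℂ[X]) (q : ℂ[X])
    (h : ∀ μ ∈ spectrum ℂ A, ∀ j < n, Tendsto (fun k => iteratedDeriv j (fun z => (P k).eval z) μ)
      l (𝓝 (iteratedDeriv j (fun z => q.eval z) μ))) :
    Tendsto (fun k => aeval A (P k)) l (𝓝 (aeval A q)) := by
  have hfin : Finite (spectrum ℂ A) := by
    have : spectrum ℂ A ⊆ (A.charpoly.roots.toFinset : Set ℂ) := by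
      intro μ hμ
      simp only [Finset.mem_coe, Multiset.mem_toFinset, mem_roots A.charpoly_monic.ne_zero]
      exact Matrix.mem_spectrum_iff_isRoot_charpoly.mp hμ
    exact ((Finset.finite_toSet _).subset this).to_subtype
  have := Fintype.ofFinite (spectrum ℂ A)
  -- `aeval A` factors through the jets
  have hker : LinearMap.ker (jetMap A) ≤ LinearMap.ker ((aeval A : ℂ[X] →ₐ[ℂ] _).toLinearMap) := by
    intro R hR
    rw [LinearMap.mem_ker] at hR ⊢
    apply aeval_eq_zero_of_jets A R
    intro μ hμ j hj
    rw [iteratedDeriv_eval]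
    exact congrFun (congrFun hR ⟨μ, hμ⟩) ⟨j, hj⟩
  obtain ⟨L, hL⟩ : ∃ L : (spectrum ℂ A → Fin n → ℂ) →ₗ[ℂ] Matrix (Fin n) (Fin n) ℂ,
      L ∘ₗ jetMap A = (aeval A : ℂ[X] →ₐ[ℂ] _).toLinearMap := by
    set E := (aeval A : ℂ[X] →ₐ[ℂ] _).toLinearMap with hE
    set f₀ : LinearMap.range (jetMap A) →ₗ[ℂ] Matrix (Fin n) (Fin n) ℂ :=
      ((LinearMap.ker (jetMap A)).liftQ E hker) ∘ₗ
        ((jetMap A).quotKerEquivRange.symm : _ →ₗ[ℂ] _) with hf₀
    obtain ⟨L, hL⟩ := LinearMap.exists_extend f₀
    refine ⟨L, LinearMap.ext fun R => ?_⟩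
    have h1 := LinearMap.congr_fun hL (⟨jetMap A R, LinearMap.mem_range_self _ R⟩)
    simp only [LinearMap.comp_apply, Submodule.subtype_apply] at h1
    rw [LinearMap.comp_apply, h1, hf₀, LinearMap.comp_apply]
    have h2 : (jetMap A).quotKerEquivRange.symm ⟨jetMap A R, LinearMap.mem_range_self _ R⟩ =
        (LinearMap.ker (jetMap A)).mkQ R := by
      rw [LinearEquiv.symm_apply_eq]
      rfl
    simp only [LinearEquiv.coe_coe, h2, Submodule.mkQ_apply, Submodule.liftQ_apply]
  have hcont : Continuous L := L.continuous_of_finiteDimensional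
  have h1 : Tendsto (fun k => jetMap A (P k)) l (𝓝 (jetMap A q)) := by
    rw [tendsto_pi_nhds]
    intro μ
    rw [tendsto_pi_nhds]
    intro j
    have := h μ μ.2 j j.2
    simp only [iteratedDeriv_eval] at this
    exact this
  have h2 : ∀ R : ℂ[X], L (jetMap A R) = aeval A R := fun R => LinearMap.congr_fun hL R
  simp only [← h2]
  exact (hcont.tendsto _).comp h1

/-- If the polynomial `p` agrees with `f` to order `n` at `μ` then so do `Q ∘ p` and `Q ∘ f`. -/
theorem jets_comp {μ : ℂ} {f : ℂ → ℂ} (hf : AnalyticAt ℂ f μ) (p : ℂ[X]) (n : ℕ)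
    (h : ∀ j < n, iteratedDeriv j (fun z => p.eval z) μ = iteratedDeriv j f μ) (Q : ℂ[X]) :
    ∀ j < n, iteratedDeriv j (fun z => (Q.comp p).eval z) μ =
      iteratedDeriv j (fun z => Q.eval (f z)) μ := by
  have hpan : ∀ R : ℂ[X], AnalyticAt ℂ (fun z => R.eval z) μ := fun R =>
    (R.differentiable).analyticAt μ
  have hfan : ∀ R : ℂ[X], AnalyticAt ℂ (fun z => R.eval (f z)) μ := by
    intro R
    have h1 : AnalyticAt ℂ (fun z => R.eval z) (f μ) := (R.differentiable).analyticAt (f μ)
    exact h1.comp hf
  -- equality of jets in terms of the order of the difference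
  have hiff : ∀ a b : ℂ → ℂ, AnalyticAt ℂ a μ → AnalyticAt ℂ b μ →
      ((n : ℕ∞) ≤ analyticOrderAt (a - b) μ ↔
        ∀ j < n, iteratedDeriv j a μ = iteratedDeriv j b μ) := by
    intro a b ha hb
    rw [natCast_le_analyticOrderAt_iff_iteratedDeriv_eq_zero (ha.sub hb)]
    refine forall₂_congr fun j _ => ?_
    rw [iteratedDeriv_sub ha.contDiffAt hb.contDiffAt, sub_eq_zero]
  have hbase : (n : ℕ∞) ≤ analyticOrderAt ((fun z => p.eval z) - f) μ := (hiff _ _ (hpan p) hf).mpr h
  refine (hiff _ _ (hpan _) (hfan Q)).mp ?_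
  induction Q using Polynomial.induction_on' with
  | add P Q hP hQ =>
    have : ((fun z => ((P + Q).comp p).eval z) - fun z => (P + Q).eval (f z)) =
        ((fun z => (P.comp p).eval z) - fun z => P.eval (f z)) +
        ((fun z => (Q.comp p).eval z) - fun z => Q.eval (f z)) := by
      funext z
      simp
      ring
    rw [this]
    exact (le_min hP hQ).trans le_analyticOrderAt_add
  | monomial k c =>
    induction k with
    | zero =>
      have : ((fun z => (((monomial 0) c : ℂ[X]).comp p).eval z) -
          fun z => ((monomial 0) c : ℂ[X]).eval (f z)) = fun _ => (0 : ℂ) := by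
        funext z
        simp
      rw [this, analyticOrderAt_eq_top.mpr (by simp)]
      exact le_top
    | succ k ih =>
      have : ((fun z => (((monomial (k + 1)) c : ℂ[X]).comp p).eval z) -
          fun z => ((monomial (k + 1)) c : ℂ[X]).eval (f z)) =
          ((fun z => (((monomial k) c : ℂ[X]).comp p).eval z) -
            fun z => ((monomial k) c : ℂ[X]).eval (f z)) * (fun z => p.eval z) +
          (fun z => ((monomial k) c : ℂ[X]).eval (f z)) * ((fun z => p.eval z) - f) := by
        funext z
        simp only [Pi.sub_apply, Pi.add_apply, Pi.mul_apply, eval_comp, eval_monomial]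
        ring
      rw [this]
      refine le_trans (le_min ?_ ?_) le_analyticOrderAt_add
      · rw [analyticOrderAt_mul (((hpan _)).sub (hfan _)) (hpan p)]
        exact ih.trans le_self_add
      · rw [analyticOrderAt_mul (hfan _) ((hpan p).sub hf)]
        exact hbase.trans le_add_self

/-- Locally uniform convergence of holomorphic functions implies convergence of the jets. -/
theorem tendsto_iteratedDeriv {ι : Type*} {l : Filter ι} [l.NeBot] {F : ι → ℂ → ℂ} {f : ℂ → ℂ}
    {U : Set ℂ} (hU : IsOpen U) (h : TendstoLocallyUniformlyOn F f l U)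
    (hF : ∀ᶠ k in l, DifferentiableOn ℂ (F k) U) (j : ℕ) :
    TendstoLocallyUniformlyOn (fun k => iteratedDeriv j (F k)) (iteratedDeriv j f) l U ∧
      ∀ᶠ k in l, DifferentiableOn ℂ (iteratedDeriv j (F k)) U := by
  induction j with
  | zero => simpa using ⟨h, hF⟩
  | succ j ih =>
    simp only [iteratedDeriv_succ]
    refine ⟨ih.1.deriv ih.2 hU, ?_⟩
    filter_upwards [ih.2] with k hk using hk.deriv hU

end Crest.Agent.Crz
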