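import Mathlib
import Crest.Agent.Crz.Inv
import Crest.Agent.Crz.Jet
import Crest.Agent.Crz.Dens2
import Crest.Agent.Crz.Dens3

/-!
Row 132 (S0181): representation of `v(SAS⁻¹)` by the common density.
-/

set_option autoImplicit false

open Complex Metric Set Filter MeasureTheory Polynomial
open scoped Topology ComplexConjugate Real ComplexOrder NNReal
open Crest.AnalysisR.NumRange

namespace Crest.Agent.Crz.Dens

variable {n : ℕ}

theorem spectrum_subset_numRange (A : Matrix (Fin n) (Fin n) ℂ) :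
    ∀ μ ∈ spectrum ℂ A, μ ∈ numRange A := by
  intro μ hμ
  rw [spectrum.mem_iff, Matrix.isUnit_iff_isUnit_det, isUnit_iff_ne_zero, not_not] at hμ
  obtain ⟨v, hv0, hv⟩ := Matrix.exists_mulVec_eq_zero_iff.mpr hμ
  set x : EuclideanSpace ℂ (Fin n) := WithLp.toLp 2 v with hx
  have hx0 : x ≠ 0 := by
    intro h
    apply hv0
    have := congrArg WithLp.ofLp h
    simpa [hx] using this
  have hAx : Matrix.toEuclideanLin A x = μ • x := by
    have h1 : A.mulVec v = μ • v := by
      rw [Matrix.sub_mulVec, Algebra.algebraMap_eq_smul_one, Matrix.smul_mulVec,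
        Matrix.one_mulVec, sub_eq_zero] at hv
      exact hv.symm
    have h2 : Matrix.toEuclideanLin A x = WithLp.toLp 2 (A.mulVec v) := rfl
    rw [h2, h1]
    rfl
  have hnx : 0 < ‖x‖ := norm_pos_iff.mpr hx0
  refine ⟨((‖x‖⁻¹ : ℝ) : ℂ) • x, ?_, ?_⟩
  · rw [norm_smul, Complex.norm_real, norm_inv, norm_norm, inv_mul_cancel₀ hnx.ne']
  · rw [map_smul, hAx, inner_smul_left, inner_smul_right, inner_smul_right,
      inner_self_eq_norm_sq_to_K, Complex.conj_ofReal]
    have : ((‖x‖ : ℝ) : ℂ) ≠ 0 := by exact_mod_cast hnx.ne'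
    change μ = ((‖x‖⁻¹ : ℝ) : ℂ) * (((‖x‖⁻¹ : ℝ) : ℂ) * (μ * ((‖x‖ : ℝ) : ℂ) ^ 2))
    push_cast
    field_simp

theorem conj_pow' (A S : Matrix (Fin n) (Fin n) ℂ) (hS : IsUnit S.det) (k : ℕ) :
    (S * A * S⁻¹) ^ k = S * A ^ k * S⁻¹ := by
  induction k with
  | zero => simp [Matrix.mul_nonsing_inv _ hS]
  | succ k ih =>
    rw [pow_succ, ih, pow_succ]
    have h1 : S⁻¹ * S = 1 := Matrix.nonsing_inv_mul _ hS
    calc S * A ^ k * S⁻¹ * (S * A * S⁻¹) = S * A ^ k * (S⁻¹ * S) * A * S⁻¹ := by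
          simp only [mul_assoc]
      _ = _ := by rw [h1]; simp only [mul_assoc, mul_one]

theorem aeval_conj (A S : Matrix (Fin n) (Fin n) ℂ) (hS : IsUnit S.det) (q : ℂ[X]) :
    aeval (S * A * S⁻¹) q = S * aeval A q * S⁻¹ := by
  rw [aeval_eq_sum_range, aeval_eq_sum_range, Finset.mul_sum, Finset.sum_mul]
  refine Finset.sum_congr rfl fun k _ => ?_
  rw [conj_pow' A S hS, mul_smul_comm, smul_mul_assoc]

theorem spectrum_conj (A S : Matrix (Fin n) (Fin n) ℂ) (hS : IsUnit S.det) :
    spectrum ℂ (S * A * S⁻¹) = spectrum ℂ A := by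
  ext μ
  rw [spectrum.mem_iff, spectrum.mem_iff, not_iff_not, Matrix.isUnit_iff_isUnit_det,
    Matrix.isUnit_iff_isUnit_det]
  have h1 : algebraMap ℂ (Matrix (Fin n) (Fin n) ℂ) μ - S * A * S⁻¹ =
      S * (algebraMap ℂ (Matrix (Fin n) (Fin n) ℂ) μ - A) * S⁻¹ := by
    have h0 : S * algebraMap ℂ (Matrix (Fin n) (Fin n) ℂ) μ * S⁻¹ =
        algebraMap ℂ (Matrix (Fin n) (Fin n) ℂ) μ := by
      rw [← Algebra.commutes, mul_assoc, Matrix.mul_nonsing_inv _ hS, mul_one]
    rw [mul_sub, sub_mul, h0]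
  rw [h1, Matrix.det_mul, Matrix.det_mul, IsUnit.mul_iff, IsUnit.mul_iff]
  have h2 : IsUnit (S⁻¹).det := Matrix.isUnit_nonsing_inv_det _ hS
  tauto

theorem spectrum_aeval_lt (hn : 1 ≤ n) (A : Matrix (Fin n) (Fin n) ℂ) {Ω : Set ℂ} {f : ℂ → ℂ}
    (hf₃ : f '' Ω = ball 0 1) (hA : numRange A ⊆ Ω) (p : ℂ[X]) (hp : AgreesOnSpectrum A f p) :
    ∀ μ ∈ spectrum ℂ (aeval A p), ‖μ‖ < 1 := by
  intro μ hμ
  have : Nonempty (Fin n) := ⟨⟨0, hn⟩⟩
  have : Nontrivial (Matrix (Fin n) (Fin n) ℂ) := inferInstance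
  rw [spectrum.map_polynomial_aeval_of_nonempty A p
    (spectrum.nonempty_of_isAlgClosed_of_finiteDimensional ℂ A)] at hμ
  obtain ⟨ν, hν, rfl⟩ := hμ
  have h1 := hp ν hν 0 (by omega)
  simp only [iteratedDeriv_zero] at h1
  simp only
  rw [h1]
  have h2 : f ν ∈ f '' Ω := mem_image_of_mem _ (hA (spectrum_subset_numRange A ν hν))
  rw [hf₃] at h2
  simpa using h2

/-- Scalar functional calculus through the Poisson kernel: key limit argument. -/
theorem repr_scalar {Ω U : Set ℂ} {f G : ℂ → ℂ} {r : ℝ} (hs : Setup Ω U f G r)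
    (A : Matrix (Fin n) (Fin n) ℂ) (hA : ∀ μ ∈ spectrum ℂ A, μ ∈ Ω) (p : ℂ[X])
    (hp : AgreesOnSpectrum A f p)
    (S : Matrix (Fin n) (Fin n) ℂ) (hS : IsUnit S.det)
    (hT : ∀ μ ∈ spectrum ℂ (S * aeval A p * S⁻¹), ‖μ‖ < 1)
    (V : Set ℂ) (hV : IsOpen V) (hΩV : closure Ω ⊆ V) (v : ℂ → ℂ) (hv : DifferentiableOn ℂ v V)
    (q : ℂ[X]) (hq : AgreesOnSpectrum A v q) (a b : Fin n) :
    ∫ θ in (0 : ℝ)..2 * π, ((lam f G θ : ℂ) * Pk (S * aeval A p * S⁻¹) (f (G (ce θ))) a b) *
      v (G (ce θ)) = 2 * π * aeval (S * A * S⁻¹) q a b := by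
  set T := S * aeval A p * S⁻¹ with hTdef
  set W := U ∩ V with hW
  have hWo : IsOpen W := hs.hU.inter hV
  have hΩW : closure Ω ⊆ W := subset_inter hs.hΩU hΩV
  have hfW : DifferentiableOn ℂ f W := hs.hf₁.mono inter_subset_left
  have hiW : InjOn f W := hs.hf₂.mono inter_subset_left
  obtain ⟨φ, hφ, hφf⟩ := exists_holomorphic_inverse hWo hfW hiW
  have hfWo := isOpen_image_of_injOn hWo hfW hiW
  have hball : closedBall (0 : ℂ) 1 ⊆ f '' W := by
    rw [← image_closure_eq hs.hΩ₂ hs.hΩU hs.hf₁ hs.hf₃]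
    exact image_mono hΩW
  -- the radius
  obtain ⟨δ, hδ, hδW⟩ := (isCompact_closedBall (0 : ℂ) 1).exists_cthickening_subset_open hfWo hball
  rw [cthickening_closedBall hδ.le zero_le_one] at hδW
  set h : ℂ → ℂ := fun u => v (φ u) with hh
  have hφmem : ∀ u ∈ f '' W, φ u ∈ W := by
    rintro _ ⟨z, hz, rfl⟩; rw [hφf z hz]; exact hz
  have hhd : DifferentiableOn ℂ h (f '' W) :=
    hv.comp hφ (fun u hu => (hφmem u hu).2)
  set R : ℝ≥0 := ⟨δ + 1, by positivity⟩ with hR
  have hRpos : 0 < R := by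
    rw [← NNReal.coe_pos]; change 0 < δ + 1; positivity
  have hps := (hhd.mono (show closedBall 0 (R : ℝ) ⊆ f '' W from hδW)).hasFPowerSeriesOnBall hRpos
  set P := cauchyPowerSeries h 0 R with hP
  set hK : ℕ → ℂ[X] := fun k => ∑ j ∈ Finset.range k, C (P.coeff j) * X ^ j with hKdef
  have hKeval : ∀ k u, (hK k).eval u = P.partialSum k u := by
    intro k u
    simp only [hKdef, eval_finsetSum, eval_mul, eval_C, eval_pow, eval_X,
      FormalMultilinearSeries.partialSum]
    refine Finset.sum_congr rfl fun j _ => ?_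
    rw [FormalMultilinearSeries.apply_eq_pow_smul_coeff, smul_eq_mul, mul_comm]
  have hunif : TendstoUniformlyOn (fun k u => (hK k).eval u) h atTop (closedBall 0 1) := by
    have h1 : ((1 + δ / 2).toNNReal : ENNReal) < R := by
      rw [ENNReal.coe_lt_coe, ← NNReal.coe_lt_coe, Real.coe_toNNReal _ (by positivity)]
      change 1 + δ / 2 < δ + 1
      linarith
    have h2 := hps.tendstoUniformlyOn' h1
    have h3 : closedBall (0 : ℂ) 1 ⊆ ball 0 ((1 + δ / 2).toNNReal : ℝ) := by
      rw [Real.coe_toNNReal _ (by positivity)]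
      exact closedBall_subset_ball (by linarith)
    refine (h2.mono h3).congr ?_
    filter_upwards with k u _
    simp only [hKeval, sub_zero]
  have hlocunif : TendstoLocallyUniformlyOn (fun k u => (hK k).eval u) h atTop
      (ball 0 (R : ℝ)) := by
    have h2 := hps.tendstoLocallyUniformlyOn'
    rw [Metric.eball_coe] at h2
    refine h2.congr ?_
    intro k u _
    simp only [hKeval, sub_zero]
  -- left-hand side: change of variables
  have hPk : ContinuousOn (fun u => Pk T u a b) (closedBall 0 1) := continuousOn_Pk T hT a b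
  have hhc : ContinuousOn h (closedBall 0 1) := hhd.continuousOn.mono hball
  have hLHS : ∫ θ in (0 : ℝ)..2 * π, ((lam f G θ : ℂ) * Pk T (f (G (ce θ))) a b) * v (G (ce θ)) =
      ∫ θ in (0 : ℝ)..2 * π, Pk T (ce θ) a b * h (ce θ) := by
    rw [← hs.integral_comp (fun u => Pk T u a b * h u)
      ((hPk.mul hhc).mono sphere_subset_closedBall)]
    apply intervalIntegral.integral_congr
    intro θ _
    simp only [hh]
    rw [hφf _ (hΩW (hs.G_mem (norm_ce θ))), Complex.real_smul]
    ring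
  rw [hLHS]
  -- both sides as limits
  have hlim1 : Tendsto (fun k => ∫ θ in (0 : ℝ)..2 * π, Pk T (ce θ) a b * (hK k).eval (ce θ)) atTop
      (𝓝 (∫ θ in (0 : ℝ)..2 * π, Pk T (ce θ) a b * h (ce θ))) := by
    obtain ⟨C, hC⟩ := (isCompact_closedBall (0 : ℂ) 1).exists_bound_of_continuousOn hPk
    have hPkc : Continuous fun θ => Pk T (ce θ) a b := continuous_Pk_ce T hT a b
    have hhcc : Continuous fun θ => h (ce θ) :=
      hhc.comp_continuous continuous_ce (fun θ => by simp [norm_ce])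
    have hKc : ∀ k, Continuous fun θ => (hK k).eval (ce θ) := fun k =>
      (hK k).continuous.comp continuous_ce
    rw [Metric.tendsto_atTop]
    intro ε hε
    have hC0 : 0 ≤ C := (norm_nonneg _).trans (hC 0 (by simp))
    set η := ε / ((C + 1) * (2 * π) + 1) with hη
    have hηpos : 0 < η := by positivity
    have h1 := Metric.tendstoUniformlyOn_iff.mp hunif η hηpos
    obtain ⟨K, hKK⟩ := Filter.eventually_atTop.mp h1
    refine ⟨K, fun k hk => ?_⟩
    have i1 : IntervalIntegrable (fun θ => Pk T (ce θ) a b * (hK k).eval (ce θ)) volume 0 (2 * π) :=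
      (hPkc.mul (hKc k)).intervalIntegrable _ _
    have i2 : IntervalIntegrable (fun θ => Pk T (ce θ) a b * h (ce θ)) volume 0 (2 * π) :=
      (hPkc.mul hhcc).intervalIntegrable _ _
    rw [dist_eq_norm, ← intervalIntegral.integral_sub i1 i2]
    have h2 : ∀ θ ∈ Set.uIoc (0 : ℝ) (2 * π),
        ‖Pk T (ce θ) a b * (hK k).eval (ce θ) - Pk T (ce θ) a b * h (ce θ)‖ ≤ C * η := by
      intro θ _
      rw [← mul_sub, norm_mul]
      have h3 := hKK k hk (ce θ) (by simp [norm_ce])
      rw [dist_comm, dist_eq_norm] at h3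
      have h4 := hC (ce θ) (by simp [norm_ce])
      exact mul_le_mul h4 h3.le (norm_nonneg _) hC0
    refine (intervalIntegral.norm_integral_le_of_norm_le_const h2).trans_lt ?_
    rw [sub_zero, abs_of_pos (by positivity)]
    have hπ := Real.pi_pos
    have h5 : η * ((C + 1) * (2 * π) + 1) = ε := by rw [hη]; field_simp
    nlinarith [mul_pos hηpos hπ]
  have hlim2 : Tendsto (fun k => ∫ θ in (0 : ℝ)..2 * π, Pk T (ce θ) a b * (hK k).eval (ce θ)) atTop
      (𝓝 (2 * π * aeval (S * A * S⁻¹) q a b)) := by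
    have h1 : ∀ k, ∫ θ in (0 : ℝ)..2 * π, Pk T (ce θ) a b * (hK k).eval (ce θ) =
        2 * π * (S * aeval A ((hK k).comp p) * S⁻¹) a b := by
      intro k
      rw [integral_eval_mul_Pk T hT, hTdef, aeval_conj _ S hS, ← aeval_comp]
    simp only [h1]
    apply Tendsto.const_mul
    rw [aeval_conj A S hS]
    have h2 : Tendsto (fun k => aeval A ((hK k).comp p)) atTop (𝓝 (aeval A q)) := by
      apply aeval_tendsto_of_jets
      intro μ hμ j hj
      -- the open set where everything is defined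
      set O := W ∩ f ⁻¹' ball 0 (R : ℝ) with hO
      have hOo : IsOpen O := hfW.continuousOn.isOpen_inter_preimage hWo isOpen_ball
      have hμΩ : μ ∈ Ω := hA μ hμ
      have hμO : μ ∈ O := by
        refine ⟨hΩW (subset_closure hμΩ), ?_⟩
        have h3 : f μ ∈ f '' Ω := mem_image_of_mem _ hμΩ
        rw [hs.hf₃] at h3
        exact ball_subset_ball (show (1 : ℝ) ≤ δ + 1 by linarith) h3
      have h3 : TendstoLocallyUniformlyOn (fun k z => (hK k).eval (f z)) v atTop O := by
        have h4 := hlocunif.comp f (fun z (hz : z ∈ O) => hz.2)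
          (hfW.continuousOn.mono inter_subset_left)
        refine h4.congr_right ?_
        intro z hz
        simp only [hh, Function.comp_apply]
        rw [hφf z hz.1]
      have h5 : ∀ᶠ k in atTop, DifferentiableOn ℂ (fun z => (hK k).eval (f z)) O := by
        filter_upwards with k
        exact (hK k).differentiable.comp_differentiableOn (hfW.mono inter_subset_left)
      have h6 := (tendsto_iteratedDeriv hOo h3 h5 j).1.tendsto_at hμO
      have hfan : AnalyticAt ℂ f μ := hfW.analyticAt (hWo.mem_nhds hμO.1)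
      have h7 : ∀ k, iteratedDeriv j (fun z => ((hK k).comp p).eval z) μ =
          iteratedDeriv j (fun z => (hK k).eval (f z)) μ := fun k =>
        jets_comp hfan p n (fun i hi => hp μ hμ i hi) (hK k) j hj
      simp only [h7]
      rw [hq μ hμ j hj]
      exact h6
    have h3 : Tendsto (fun k => S * aeval A ((hK k).comp p) * S⁻¹) atTop
        (𝓝 (S * aeval A q * S⁻¹)) := by
      have hc : Continuous fun M : Matrix (Fin n) (Fin n) ℂ => S * M * S⁻¹ := by fun_prop
      exact (hc.tendsto _).comp h2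
    exact ((continuous_apply_apply a b).tendsto _).comp h3
  exact tendsto_nhds_unique hlim1 hlim2

end Crest.Agent.Crz.Dens
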