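import Crest.Agent.Crz.DualB

set_option autoImplicit false

open Complex Metric Set Polynomial Matrix
open scoped Topology ComplexOrder Matrix.Norms.L2Operator NNReal ENNReal

namespace Crest.Agent.Crz.Dual

variable {n : ℕ}

lemma summable_norm_pow (T : Matrix (Fin n) (Fin n) ℂ) (hspec : ∀ μ ∈ spectrum ℂ T, ‖μ‖ < 1) :
    Summable fun k : ℕ => ‖T ^ k‖ := by
  rcases Nat.eq_zero_or_pos n with rfl | hn
  · have : ∀ k : ℕ, ‖T ^ k‖ = 0 := by
      intro k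
      have : T ^ k = 0 := Subsingleton.elim _ _
      rw [this, norm_zero]
    simp only [this]; exact summable_zero
  have : Nonempty (Fin n) := ⟨⟨0, hn⟩⟩
  have hr : spectralRadius ℂ T < 1 := by
    have := spectrum.spectralRadius_lt_of_forall_lt (r := 1) T (by
      intro k hk
      have := hspec k hk
      exact_mod_cast this)
    exact_mod_cast this
  obtain ⟨r, hr1, hr2⟩ := exists_between hr
  have hrt : r ≠ ⊤ := (hr2.trans_le le_top).ne
  lift r to ℝ≥0 using hrt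
  have hr2' : r < 1 := by exact_mod_cast hr2
  have htend := spectrum.pow_nnnorm_pow_one_div_tendsto_nhds_spectralRadius T
  have hev : ∀ᶠ k : ℕ in Filter.atTop, ‖T ^ k‖ ≤ (r : ℝ) ^ k := by
    filter_upwards [htend.eventually (gt_mem_nhds hr1), Filter.eventually_gt_atTop 0] with k hk hk0
    have h1 : ((‖T ^ k‖₊ : ℝ≥0∞) ^ (1 / k : ℝ)) ^ (k : ℝ) < (r : ℝ≥0∞) ^ (k : ℝ) :=
      ENNReal.rpow_lt_rpow hk (by exact_mod_cast hk0)
    rw [← ENNReal.rpow_mul, one_div, inv_mul_cancel₀ (by exact_mod_cast hk0.ne'),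
      ENNReal.rpow_one, ENNReal.rpow_natCast] at h1
    have h2 : ‖T ^ k‖₊ < r ^ k := by exact_mod_cast h1
    exact_mod_cast h2.le
  have hsum : Summable fun k : ℕ => (r : ℝ) ^ k :=
    summable_geometric_of_lt_one r.2 (by exact_mod_cast hr2')
  refine Summable.of_norm_bounded_eventually_nat hsum ?_
  filter_upwards [hev] with k hk
  rwa [norm_norm]

/-- partial sums of the transfer function -/
noncomputable def tf (a b c d : Matrix (Fin n) (Fin n) ℂ) (l : ℂ) (K : ℕ) :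
    Matrix (Fin n) (Fin n) ℂ :=
  d + ∑ i ∈ Finset.range K, l ^ (i + 1) • (c * a ^ i * b)

/-- the state sequence -/
noncomputable def st (a b : Matrix (Fin n) (Fin n) ℂ) (l : ℂ) (q : Fin n → ℂ) (K : ℕ) :
    Fin n → ℂ :=
  ∑ i ∈ Finset.range K, l ^ i • ((a ^ i * b) *ᵥ q)

lemma st_succ (a b : Matrix (Fin n) (Fin n) ℂ) (l : ℂ) (q : Fin n → ℂ) (K : ℕ) :
    st a b l q (K + 1) = a *ᵥ (l • st a b l q K) + b *ᵥ q := by
  rw [st, Finset.sum_range_succ', st]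
  congr 1
  · rw [Finset.smul_sum, mulVec_sum]
    refine Finset.sum_congr rfl fun i _ => ?_
    rw [mulVec_smul, mulVec_smul, mulVec_mulVec, smul_smul, ← Matrix.mul_assoc, ← pow_succ',
      ← pow_succ']
  · simp

lemma tf_mulVec (a b c d : Matrix (Fin n) (Fin n) ℂ) (l : ℂ) (q : Fin n → ℂ) (K : ℕ) :
    tf a b c d l K *ᵥ q = c *ᵥ (l • st a b l q K) + d *ᵥ q := by
  rw [tf, add_mulVec, sum_mulVec, add_comm, st, Finset.smul_sum, mulVec_sum]
  congr 1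
  refine Finset.sum_congr rfl fun i _ => ?_
  rw [smul_mulVec, mulVec_smul, mulVec_smul, mulVec_mulVec, smul_smul, ← pow_succ',
    Matrix.mul_assoc]

/-- a contraction in block form -/
def IsoBlock (a b c d : Matrix (Fin n) (Fin n) ℂ) : Prop :=
  ∀ p q : Fin n → ℂ,
        ‖(WithLp.toLp 2 (a *ᵥ p + b *ᵥ q) : EuclideanSpace ℂ (Fin n))‖ ^ 2 +
        ‖(WithLp.toLp 2 (c *ᵥ p + d *ᵥ q) : EuclideanSpace ℂ (Fin n))‖ ^ 2 =
        ‖(WithLp.toLp 2 p : EuclideanSpace ℂ (Fin n))‖ ^ 2 +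
        ‖(WithLp.toLp 2 q : EuclideanSpace ℂ (Fin n))‖ ^ 2

lemma IsoBlock.a_le {a b c d : Matrix (Fin n) (Fin n) ℂ} (h : IsoBlock a b c d) (p : Fin n → ℂ) :
    ‖(WithLp.toLp 2 (a *ᵥ p) : EuclideanSpace ℂ (Fin n))‖ ≤
      ‖(WithLp.toLp 2 p : EuclideanSpace ℂ (Fin n))‖ := by
  have := h p 0
  simp only [mulVec_zero, add_zero, WithLp.toLp_zero, norm_zero] at this
  refine le_of_sq_le_sq ?_ (norm_nonneg _)
  nlinarith [sq_nonneg ‖(WithLp.toLp 2 (c *ᵥ p) : EuclideanSpace ℂ (Fin n))‖]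

lemma IsoBlock.b_le {a b c d : Matrix (Fin n) (Fin n) ℂ} (h : IsoBlock a b c d) (p : Fin n → ℂ) :
    ‖(WithLp.toLp 2 (b *ᵥ p) : EuclideanSpace ℂ (Fin n))‖ ≤
      ‖(WithLp.toLp 2 p : EuclideanSpace ℂ (Fin n))‖ := by
  have := h 0 p
  simp only [mulVec_zero, zero_add, WithLp.toLp_zero, norm_zero] at this
  refine le_of_sq_le_sq ?_ (norm_nonneg _)
  nlinarith [sq_nonneg ‖(WithLp.toLp 2 (d *ᵥ p) : EuclideanSpace ℂ (Fin n))‖]

lemma IsoBlock.c_le {a b c d : Matrix (Fin n) (Fin n) ℂ} (h : IsoBlock a b c d) (p : Fin n → ℂ) :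
    ‖(WithLp.toLp 2 (c *ᵥ p) : EuclideanSpace ℂ (Fin n))‖ ≤
      ‖(WithLp.toLp 2 p : EuclideanSpace ℂ (Fin n))‖ := by
  have := h p 0
  simp only [mulVec_zero, add_zero, WithLp.toLp_zero, norm_zero] at this
  refine le_of_sq_le_sq ?_ (norm_nonneg _)
  nlinarith [sq_nonneg ‖(WithLp.toLp 2 (a *ᵥ p) : EuclideanSpace ℂ (Fin n))‖]

lemma IsoBlock.pow_le {a b c d : Matrix (Fin n) (Fin n) ℂ} (h : IsoBlock a b c d) (p : Fin n → ℂ)
    (k : ℕ) : ‖(WithLp.toLp 2 (a ^ k *ᵥ p) : EuclideanSpace ℂ (Fin n))‖ ≤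
      ‖(WithLp.toLp 2 p : EuclideanSpace ℂ (Fin n))‖ := by
  induction k with
  | zero => simp
  | succ k ih =>
    rw [pow_succ', ← mulVec_mulVec]
    exact (h.a_le _).trans ih

lemma norm_st_sub {a b c d : Matrix (Fin n) (Fin n) ℂ} (h : IsoBlock a b c d) (l : ℂ) (s : ℝ)
    (hl : ‖l‖ ≤ s) (q : Fin n → ℂ) (K : ℕ) :
    ‖(WithLp.toLp 2 (st a b l q (K + 1)) : EuclideanSpace ℂ (Fin n)) -
      WithLp.toLp 2 (st a b l q K)‖ ≤ s ^ K * ‖(WithLp.toLp 2 q : EuclideanSpace ℂ (Fin n))‖ := by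
  have h1 : (WithLp.toLp 2 (st a b l q (K + 1)) : EuclideanSpace ℂ (Fin n)) -
      WithLp.toLp 2 (st a b l q K) = l ^ K • WithLp.toLp 2 ((a ^ K * b) *ᵥ q) := by
    rw [← WithLp.toLp_sub, ← WithLp.toLp_smul]
    congr 1
    rw [st, st, Finset.sum_range_succ]
    simp
  rw [h1, norm_smul, norm_pow]
  have h2 : ‖(WithLp.toLp 2 ((a ^ K * b) *ᵥ q) : EuclideanSpace ℂ (Fin n))‖ ≤
      ‖(WithLp.toLp 2 q : EuclideanSpace ℂ (Fin n))‖ := by
    rw [← mulVec_mulVec]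
    exact (h.pow_le _ K).trans (h.b_le q)
  have hs0 : 0 ≤ s ^ K := pow_nonneg ((norm_nonneg _).trans hl) K
  gcongr

lemma norm_st_le {a b c d : Matrix (Fin n) (Fin n) ℂ} (h : IsoBlock a b c d) (l : ℂ) (s : ℝ)
    (hl : ‖l‖ ≤ s) (hs : s < 1) (q : Fin n → ℂ) (K : ℕ) :
    ‖(WithLp.toLp 2 (st a b l q K) : EuclideanSpace ℂ (Fin n))‖ ≤
      ‖(WithLp.toLp 2 q : EuclideanSpace ℂ (Fin n))‖ / (1 - s) := by
  have hs0 : 0 ≤ s := (norm_nonneg _).trans hl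
  have key : ∀ K : ℕ, ‖(WithLp.toLp 2 (st a b l q K) : EuclideanSpace ℂ (Fin n))‖ ≤
      (∑ i ∈ Finset.range K, s ^ i) * ‖(WithLp.toLp 2 q : EuclideanSpace ℂ (Fin n))‖ := by
    intro K
    induction K with
    | zero => simp [st]
    | succ K ih =>
      rw [Finset.sum_range_succ, add_mul]
      have := norm_st_sub h l s hl q K
      have h2 := norm_sub_norm_le (WithLp.toLp 2 (st a b l q (K + 1)) : EuclideanSpace ℂ (Fin n))
        (WithLp.toLp 2 (st a b l q K))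
      linarith
  refine (key K).trans ?_
  rw [div_eq_inv_mul]
  refine mul_le_mul_of_nonneg_right ?_ (norm_nonneg _)
  have := geom_sum_eq (show s ≠ 1 by exact hs.ne) K
  rw [this, ← neg_div_neg_eq, neg_sub, neg_sub, inv_eq_one_div]
  have h1 : 0 < 1 - s := by linarith
  have h2 : 0 ≤ s ^ K := pow_nonneg hs0 K
  gcongr
  linarith

lemma norm_tf_le {a b c d : Matrix (Fin n) (Fin n) ℂ} (h : IsoBlock a b c d) (l : ℂ) (s : ℝ)
    (hl : ‖l‖ ≤ s) (hs : s < 1) (K : ℕ) :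
    ‖tf a b c d l K‖ ≤ √(1 + 2 * s ^ K / (1 - s)) := by
  have hs0 : 0 ≤ s := (norm_nonneg _).trans hl
  have h1s : 0 < 1 - s := by linarith
  rw [← l2_opNorm_toEuclideanCLM]
  refine ContinuousLinearMap.opNorm_le_bound _ (Real.sqrt_nonneg _) fun x => ?_
  obtain ⟨q, rfl⟩ : ∃ q : Fin n → ℂ, x = WithLp.toLp 2 q := ⟨WithLp.ofLp x, rfl⟩
  rw [toEuclideanCLM_toLp, tf_mulVec]
  have h1 := h (l • st a b l q K) q
  rw [← st_succ] at h1
  set Q := ‖(WithLp.toLp 2 q : EuclideanSpace ℂ (Fin n))‖ with hQ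
  set w := ‖(WithLp.toLp 2 (c *ᵥ (l • st a b l q K) + d *ᵥ q) : EuclideanSpace ℂ (Fin n))‖ with hw
  set A := ‖(WithLp.toLp 2 (st a b l q K) : EuclideanSpace ℂ (Fin n))‖ with hA
  set B := ‖(WithLp.toLp 2 (st a b l q (K + 1)) : EuclideanSpace ℂ (Fin n))‖ with hB
  have h2 : ‖(WithLp.toLp 2 (l • st a b l q K) : EuclideanSpace ℂ (Fin n))‖ ≤ A := by
    rw [WithLp.toLp_smul, norm_smul]
    exact mul_le_of_le_one_left (norm_nonneg _) (hl.trans hs.le)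
  have h3 : A - B ≤ s ^ K * Q := by
    have := norm_st_sub h l s hl q K
    have h4 := norm_sub_norm_le (WithLp.toLp 2 (st a b l q K) : EuclideanSpace ℂ (Fin n))
        (WithLp.toLp 2 (st a b l q (K + 1)))
    rw [norm_sub_rev] at h4
    exact h4.trans this
  have hA' : A ≤ Q / (1 - s) := norm_st_le h l s hl hs q K
  have hB' : B ≤ Q / (1 - s) := norm_st_le h l s hl hs q (K + 1)
  have hA0 : 0 ≤ A := norm_nonneg _
  have hB0 : 0 ≤ B := norm_nonneg _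
  have hQ0 : 0 ≤ Q := norm_nonneg _
  have h5 : w ^ 2 ≤ Q ^ 2 + (A - B) * (A + B) := by
    have : ‖(WithLp.toLp 2 (l • st a b l q K) : EuclideanSpace ℂ (Fin n))‖ ^ 2 ≤ A ^ 2 :=
      pow_le_pow_left₀ (norm_nonneg _) h2 2
    nlinarith
  have h6 : (A - B) * (A + B) ≤ (s ^ K * Q) * (Q / (1 - s) + Q / (1 - s)) := by
    have : 0 ≤ A + B := by positivity
    have h7 : A + B ≤ Q / (1 - s) + Q / (1 - s) := by linarith
    have h8 : 0 ≤ s ^ K * Q := by positivity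
    calc (A - B) * (A + B) ≤ (s ^ K * Q) * (A + B) := by gcongr
      _ ≤ _ := by gcongr
  have h7 : w ^ 2 ≤ (1 + 2 * s ^ K / (1 - s)) * Q ^ 2 := by
    refine (h5.trans (add_le_add_right h6 _)).trans (le_of_eq ?_)
    field_simp
    ring
  have h8 : w ≤ √((1 + 2 * s ^ K / (1 - s)) * Q ^ 2) := Real.le_sqrt_of_sq_le h7
  rw [Real.sqrt_mul (by positivity), Real.sqrt_sq hQ0] at h8
  exact h8

end Crest.Agent.Crz.Dual
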