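import Crest.Agent.Crz.DualA
import Crest.Agent.Crz.DualC

set_option autoImplicit false

open Complex Metric Set Polynomial Matrix
open scoped Topology ComplexOrder Matrix.Norms.L2Operator NNReal ENNReal
open Crest.AnalysisR.NumRange

namespace Crest.Agent.Crz.Dual

variable {n : ℕ}

/-- columns of a matrix as an element of `E^n` -/
noncomputable def cols (m : Matrix (Fin n) (Fin n) ℂ) :
    PiLp 2 (fun _ : Fin n => EuclideanSpace ℂ (Fin n)) :=
  WithLp.toLp 2 (fun j => WithLp.toLp 2 (fun i => m i j))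

lemma cols_add (m m' : Matrix (Fin n) (Fin n) ℂ) : cols (m + m') = cols m + cols m' := rfl

lemma cols_sub (m m' : Matrix (Fin n) (Fin n) ℂ) : cols (m - m') = cols m - cols m' := rfl

lemma cols_smul (r : ℝ) (m : Matrix (Fin n) (Fin n) ℂ) : cols (r • m) = r • cols m := rfl

lemma norm_cols_sq (m : Matrix (Fin n) (Fin n) ℂ) : ‖cols m‖ ^ 2 = (trace (m * mᴴ)).re := by
  rw [cols, PiLp.norm_sq_eq_of_L2]
  simp only [EuclideanSpace.norm_sq_eq, trace, diag, Matrix.mul_apply, Complex.re_sum]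
  rw [Finset.sum_comm]
  refine Finset.sum_congr rfl fun i _ => Finset.sum_congr rfl fun j _ => ?_
  rw [conjTranspose_apply]
  show _ = (m i j * (starRingEnd ℂ) (m i j)).re
  rw [Complex.mul_conj, Complex.normSq_eq_norm_sq, Complex.ofReal_re]

lemma norm_cols_sq' (m : Matrix (Fin n) (Fin n) ℂ) :
    ‖cols m‖ ^ 2 = ∑ i, ‖(WithLp.toLp 2 (m i) : EuclideanSpace ℂ (Fin n))‖ ^ 2 := by
  rw [cols, PiLp.norm_sq_eq_of_L2]
  simp only [EuclideanSpace.norm_sq_eq]
  rw [Finset.sum_comm]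

lemma norm_cols_mul_le (T m : Matrix (Fin n) (Fin n) ℂ) : ‖cols (T * m)‖ ≤ ‖T‖ * ‖cols m‖ := by
  refine le_of_sq_le_sq ?_ (by positivity)
  rw [mul_pow, cols, cols, PiLp.norm_sq_eq_of_L2, PiLp.norm_sq_eq_of_L2, Finset.mul_sum]
  refine Finset.sum_le_sum fun j _ => ?_
  rw [← mul_pow]
  refine pow_le_pow_left₀ (norm_nonneg _) ?_ 2
  have := T.l2_opNorm_mulVec (WithLp.toLp 2 (fun i => m i j))
  exact this

lemma norm_cols_mul_transpose_le {a : Matrix (Fin n) (Fin n) ℂ}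
    (ha : ∀ p : Fin n → ℂ, ‖(WithLp.toLp 2 (a *ᵥ p) : EuclideanSpace ℂ (Fin n))‖ ≤
      ‖(WithLp.toLp 2 p : EuclideanSpace ℂ (Fin n))‖) (m : Matrix (Fin n) (Fin n) ℂ) :
    ‖cols (m * aᵀ)‖ ≤ ‖cols m‖ := by
  refine le_of_sq_le_sq ?_ (norm_nonneg _)
  rw [norm_cols_sq', norm_cols_sq']
  refine Finset.sum_le_sum fun i _ => ?_
  refine pow_le_pow_left₀ (norm_nonneg _) ?_ 2
  have h1 : (m * aᵀ) i = a *ᵥ (m i) := by
    ext j
    rw [Matrix.mul_apply, mulVec, dotProduct]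
    exact Finset.sum_congr rfl fun l _ => mul_comm _ _
  rw [h1]
  exact ha _

/-- the polynomial matrix with coefficients `q` -/
noncomputable def pmat (q : ℕ → Matrix (Fin n) (Fin n) ℂ) (N : ℕ) : Matrix (Fin n) (Fin n) ℂ[X] :=
  Matrix.of fun j l => ∑ k ∈ Finset.range N, C (q k j l) * X ^ k

lemma evNorm_pmat (q : ℕ → Matrix (Fin n) (Fin n) ℂ) (N : ℕ) (z : ℂ) :
    evNorm (pmat q N) z = ‖∑ k ∈ Finset.range N, z ^ k • q k‖ := by
  rw [evNorm, l2_opNorm_toEuclideanCLM]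
  congr 1
  ext i j
  simp only [pmat, Matrix.map_apply, Matrix.of_apply, eval_finsetSum, eval_mul, eval_C, eval_pow,
    eval_X, Matrix.sum_apply, Matrix.smul_apply, smul_eq_mul]
  exact Finset.sum_congr rfl fun l _ => mul_comm _ _

lemma opAct_pmat (T z : Matrix (Fin n) (Fin n) ℂ) (q : ℕ → Matrix (Fin n) (Fin n) ℂ) (N : ℕ) :
    opAct (Matrix.toEuclideanCLM (n := Fin n) (𝕜 := ℂ) T) (pmat q N) (cols z) =
      cols (∑ k ∈ Finset.range N, T ^ k * z * (q k)ᵀ) := by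
  ext j i
  show (∑ l : Fin n, (aeval (Matrix.toEuclideanCLM (n := Fin n) (𝕜 := ℂ) T) (pmat q N j l) :
      EuclideanSpace ℂ (Fin n) →L[ℂ] EuclideanSpace ℂ (Fin n)) (cols z l)).ofLp i =
    (∑ k ∈ Finset.range N, T ^ k * z * (q k)ᵀ) i j
  have h1 : ∀ l, (aeval (Matrix.toEuclideanCLM (n := Fin n) (𝕜 := ℂ) T) (pmat q N j l) :
      EuclideanSpace ℂ (Fin n) →L[ℂ] EuclideanSpace ℂ (Fin n)) =
      Matrix.toEuclideanCLM (n := Fin n) (𝕜 := ℂ) (∑ k ∈ Finset.range N, q k j l • T ^ k) := by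
    intro l
    simp only [pmat, Matrix.of_apply, map_sum, map_mul, aeval_C, map_pow, aeval_X, map_smul,
      Algebra.algebraMap_eq_smul_one, smul_mul_assoc, one_mul]
  simp only [h1]
  have h2 : ∀ l, ((Matrix.toEuclideanCLM (n := Fin n) (𝕜 := ℂ)
      (∑ k ∈ Finset.range N, q k j l • T ^ k)) (cols z l)) =
      WithLp.toLp 2 ((∑ k ∈ Finset.range N, q k j l • T ^ k) *ᵥ (fun i => z i l)) := by
    intro l
    rw [cols, toEuclideanCLM_toLp]
  simp only [h2]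
  have h3 : ∀ l i, ((∑ k ∈ Finset.range N, q k j l • T ^ k) *ᵥ (fun i => z i l)) i =
      ∑ k ∈ Finset.range N, q k j l * (T ^ k * z) i l := by
    intro l i
    rw [sum_mulVec, Finset.sum_apply]
    refine Finset.sum_congr rfl fun k _ => ?_
    rw [smul_mulVec, Pi.smul_apply, smul_eq_mul]
    rfl
  simp only [WithLp.ofLp_sum, Finset.sum_apply, h3, Matrix.sum_apply]
  rw [Finset.sum_comm]
  refine Finset.sum_congr rfl fun k _ => ?_
  rw [Matrix.mul_apply]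
  refine Finset.sum_congr rfl fun l _ => ?_
  rw [transpose_apply, mul_comm]

/-- coefficients of the truncated transfer function at `s ζ` -/
noncomputable def coef (a b c d : Matrix (Fin n) (Fin n) ℂ) (s : ℝ) :
    ℕ → Matrix (Fin n) (Fin n) ℂ
  | 0 => d
  | (i + 1) => ((s : ℂ) ^ (i + 1)) • (c * a ^ i * b)

lemma sum_coef (a b c d : Matrix (Fin n) (Fin n) ℂ) (s : ℝ) (z : ℂ) (K : ℕ) :
    ∑ k ∈ Finset.range (K + 1), z ^ k • coef a b c d s k = tf a b c d (s * z) K := by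
  rw [Finset.sum_range_succ', tf, add_comm]
  congr 1
  · simp [coef]
  · refine Finset.sum_congr rfl fun i _ => ?_
    rw [coef, smul_smul, mul_pow, mul_comm]

/-- the error terms -/
noncomputable def err (a c y T : Matrix (Fin n) (Fin n) ℂ) (k : ℕ) : Matrix (Fin n) (Fin n) ℂ :=
  T ^ (k + 1) * y * (c * a ^ k)ᵀ

lemma err_identity {a b c d y x z T : Matrix (Fin n) (Fin n) ℂ}
    (hy : y = T * y * aᵀ + z * bᵀ) (hx : x = T * y * cᵀ + z * dᵀ) (s : ℝ) (K : ℕ) :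
    x - ∑ k ∈ Finset.range (K + 1), T ^ k * z * (coef a b c d s k)ᵀ =
      (1 - s) • (∑ k ∈ Finset.range K, s ^ k • err a c y T k) + s ^ K • err a c y T K := by
  have hstep : ∀ k : ℕ, T ^ (k + 1) * z * (c * a ^ k * b)ᵀ =
      err a c y T k - err a c y T (k + 1) := by
    intro k
    have hz : z * bᵀ = y - T * y * aᵀ := by rw [eq_sub_iff_add_eq, add_comm]; exact hy.symm
    calc T ^ (k + 1) * z * (c * a ^ k * b)ᵀ = T ^ (k + 1) * (z * bᵀ) * (c * a ^ k)ᵀ := by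
          rw [transpose_mul (c * a ^ k) b]; simp only [Matrix.mul_assoc]
      _ = T ^ (k + 1) * y * (c * a ^ k)ᵀ - T ^ (k + 1) * T * y * (aᵀ * (c * a ^ k)ᵀ) := by
          rw [hz, Matrix.mul_sub, Matrix.sub_mul]; simp only [Matrix.mul_assoc]
      _ = err a c y T k - err a c y T (k + 1) := by
          rw [← transpose_mul, Matrix.mul_assoc c, ← pow_succ, ← pow_succ, err, err]
  induction K with
  | zero =>
    simp [coef, err]
    nth_rw 1 [hx]
    abel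
  | succ K ih =>
    rw [Finset.sum_range_succ, ← sub_sub, ih, coef, transpose_smul, Matrix.mul_smul, hstep,
      Finset.sum_range_succ, smul_add]
    have h1 : ((s : ℂ) ^ (K + 1)) • (err a c y T K - err a c y T (K + 1)) =
        (s ^ (K + 1)) • (err a c y T K - err a c y T (K + 1)) := by
      rw [← Complex.ofReal_pow, Complex.coe_smul]
    rw [h1]
    module

lemma norm_cols_err_le {a b c d : Matrix (Fin n) (Fin n) ℂ} (h : IsoBlock a b c d)
    (y T : Matrix (Fin n) (Fin n) ℂ) (k : ℕ) :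
    ‖cols (err a c y T k)‖ ≤ ‖T ^ (k + 1)‖ * ‖cols y‖ := by
  have h1 : ∀ p : Fin n → ℂ, ‖(WithLp.toLp 2 ((c * a ^ k) *ᵥ p) : EuclideanSpace ℂ (Fin n))‖ ≤
      ‖(WithLp.toLp 2 p : EuclideanSpace ℂ (Fin n))‖ := by
    intro p
    rw [← mulVec_mulVec]
    exact (h.c_le _).trans (h.pow_le p k)
  refine (norm_cols_mul_transpose_le h1 _).trans ?_
  exact norm_cols_mul_le _ _

lemma cols_sum (t : Finset ℕ) (g : ℕ → Matrix (Fin n) (Fin n) ℂ) :
    cols (∑ k ∈ t, g k) = ∑ k ∈ t, cols (g k) := by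
  induction t using Finset.cons_induction with
  | empty => rfl
  | cons a t ha ih => rw [Finset.sum_cons, Finset.sum_cons, cols_add, ih]

lemma norm_cols_add_le (m m' : Matrix (Fin n) (Fin n) ℂ) :
    ‖cols (m + m')‖ ≤ ‖cols m‖ + ‖cols m'‖ := by
  rw [cols_add]; exact norm_add_le _ _

lemma norm_cols_smul (r : ℝ) (hr : 0 ≤ r) (m : Matrix (Fin n) (Fin n) ℂ) :
    ‖cols (r • m)‖ = r * ‖cols m‖ := by
  rw [cols_smul, norm_smul, Real.norm_of_nonneg hr]

lemma main_ineq {a b c d y x z T : Matrix (Fin n) (Fin n) ℂ} (h : IsoBlock a b c d)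
    (hy : y = T * y * aᵀ + z * bᵀ) (hx : x = T * y * cᵀ + z * dᵀ)
    (hsum1 : Summable fun k : ℕ => ‖T ^ (k + 1)‖)
    (hcb : ∀ (m : ℕ) (Q : Matrix (Fin m) (Fin m) ℂ[X]) (M : ℝ),
      (∀ z : ℂ, ‖z‖ ≤ 1 → evNorm Q z ≤ M) →
      ∀ v : PiLp 2 (fun _ : Fin m => EuclideanSpace ℂ (Fin n)),
        ‖opAct (Matrix.toEuclideanCLM (n := Fin n) (𝕜 := ℂ) T) Q v‖ ≤ 2 * M * ‖v‖)
    (s : ℝ) (hs0 : 0 ≤ s) (hs1 : s < 1) (K : ℕ) (B : ℝ)
    (hB : B = (∑' k : ℕ, ‖T ^ (k + 1)‖) * ‖cols y‖) :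
    ‖cols x‖ ≤ 2 * √(1 + 2 * s ^ K / (1 - s)) * ‖cols z‖ + ((1 - s) * B + s ^ K * B) := by
  have herr : ∀ k, ‖cols (err a c y T k)‖ ≤ B := fun k => by
    rw [hB]
    exact (norm_cols_err_le h y T k).trans (mul_le_mul_of_nonneg_right
      (hsum1.le_tsum k (fun _ _ => norm_nonneg _)) (norm_nonneg _))
  have hid := err_identity hy hx s K
  have h2 : ‖cols (∑ k ∈ Finset.range (K + 1), T ^ k * z * (coef a b c d s k)ᵀ)‖ ≤
      2 * √(1 + 2 * s ^ K / (1 - s)) * ‖cols z‖ := by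
    have := hcb n (pmat (coef a b c d s) (K + 1)) (√(1 + 2 * s ^ K / (1 - s))) (by
      intro ζ hζ
      rw [evNorm_pmat, sum_coef]
      refine norm_tf_le h _ s ?_ hs1 K
      rw [norm_mul, Complex.norm_real, Real.norm_of_nonneg hs0]
      exact mul_le_of_le_one_right hs0 hζ) (cols z)
    rwa [opAct_pmat] at this
  generalize ∑ k ∈ Finset.range (K + 1), T ^ k * z * (coef a b c d s k)ᵀ = S at hid h2
  have h3 : ‖cols (∑ k ∈ Finset.range K, s ^ k • err a c y T k)‖ ≤ B := by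
    rw [cols_sum]
    refine (norm_sum_le _ _).trans ?_
    calc ∑ k ∈ Finset.range K, ‖cols (s ^ k • err a c y T k)‖
        ≤ ∑ k ∈ Finset.range K, ‖T ^ (k + 1)‖ * ‖cols y‖ := by
          refine Finset.sum_le_sum fun k _ => ?_
          rw [norm_cols_smul _ (pow_nonneg hs0 k)]
          refine (mul_le_of_le_one_left (norm_nonneg _) (pow_le_one₀ hs0 hs1.le)).trans ?_
          exact norm_cols_err_le h y T k
      _ ≤ B := by
          rw [← Finset.sum_mul, hB]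
          exact mul_le_mul_of_nonneg_right
            (hsum1.sum_le_tsum _ (fun _ _ => norm_nonneg _)) (norm_nonneg _)
  generalize (∑ k ∈ Finset.range K, s ^ k • err a c y T k) = R at hid h3
  have h1 : x = S + ((1 - s) • R + s ^ K • err a c y T K) := by
    rw [← hid]; abel
  calc ‖cols x‖ = ‖cols (S + ((1 - s) • R + s ^ K • err a c y T K))‖ := by rw [← h1]
    _ ≤ ‖cols S‖ + (‖cols ((1 - s) • R)‖ + ‖cols (s ^ K • err a c y T K)‖) :=
        (norm_cols_add_le _ _).trans (add_le_add le_rfl (norm_cols_add_le _ _))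
    _ ≤ 2 * √(1 + 2 * s ^ K / (1 - s)) * ‖cols z‖ + ((1 - s) * B + s ^ K * B) := by
        rw [norm_cols_smul _ (by linarith), norm_cols_smul _ (pow_nonneg hs0 K)]
        exact add_le_add h2 (add_le_add (mul_le_mul_of_nonneg_left h3 (by linarith))
          (mul_le_mul_of_nonneg_left (herr K) (pow_nonneg hs0 K)))

lemma real_limit (X Z B : ℝ) (hmain : ∀ s : ℝ, 0 ≤ s → s < 1 → ∀ K : ℕ,
      X ≤ 2 * √(1 + 2 * s ^ K / (1 - s)) * Z + ((1 - s) * B + s ^ K * B)) : X ≤ 2 * Z := by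
  -- K → ∞
  have hlim1 : ∀ s : ℝ, 0 ≤ s → s < 1 → X ≤ 2 * Z + (1 - s) * B := by
    intro s hs0 hs1
    have hp : Filter.Tendsto (fun K : ℕ => s ^ K) Filter.atTop (𝓝 0) :=
      tendsto_pow_atTop_nhds_zero_of_lt_one hs0 hs1
    have hc : Continuous fun t : ℝ =>
        2 * √(1 + 2 * t / (1 - s)) * Z + ((1 - s) * B + t * B) := by fun_prop
    have ht := (hc.tendsto 0).comp hp
    have := ge_of_tendsto' ht (hmain s hs0 hs1)
    simpa using this
  -- s → 1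
  have ht : Filter.Tendsto (fun s : ℝ => 2 * Z + (1 - s) * B) (𝓝[<] 1)
      (𝓝 (2 * Z + (1 - 1) * B)) := by
    have : Continuous fun s : ℝ => 2 * Z + (1 - s) * B := by fun_prop
    exact (this.tendsto 1).mono_left nhdsWithin_le_nhds
  have hfin := ge_of_tendsto ht (b := X) (by
    have : ∀ᶠ s : ℝ in 𝓝[<] 1, 0 < s := by
      refine (eventually_gt_nhds (show (0:ℝ) < 1 by norm_num)).filter_mono nhdsWithin_le_nhds
    filter_upwards [this, self_mem_nhdsWithin] with s hs0 hs1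
    exact hlim1 s hs0.le hs1)
  simpa using hfin

lemma final_ineq {a b c d y x z T : Matrix (Fin n) (Fin n) ℂ} (h : IsoBlock a b c d)
    (hy : y = T * y * aᵀ + z * bᵀ) (hx : x = T * y * cᵀ + z * dᵀ)
    (hspec : ∀ μ ∈ spectrum ℂ T, ‖μ‖ < 1)
    (hcb : ∀ (m : ℕ) (Q : Matrix (Fin m) (Fin m) ℂ[X]) (M : ℝ),
      (∀ z : ℂ, ‖z‖ ≤ 1 → evNorm Q z ≤ M) →
      ∀ v : PiLp 2 (fun _ : Fin m => EuclideanSpace ℂ (Fin n)),
        ‖opAct (Matrix.toEuclideanCLM (n := Fin n) (𝕜 := ℂ) T) Q v‖ ≤ 2 * M * ‖v‖) :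
    ‖cols x‖ ≤ 2 * ‖cols z‖ := by
  have hsum : Summable fun k : ℕ => ‖T ^ k‖ := summable_norm_pow T hspec
  have hsum1 : Summable fun k : ℕ => ‖T ^ (k + 1)‖ :=
    hsum.comp_injective (add_left_injective 1)
  obtain ⟨B, hB⟩ : ∃ B : ℝ, B = (∑' k : ℕ, ‖T ^ (k + 1)‖) * ‖cols y‖ := ⟨_, rfl⟩
  refine real_limit ‖cols x‖ ‖cols z‖ B ?_
  intro s hs0 hs1 K
  exact main_ineq h hy hx hsum1 hcb s hs0 hs1 K B hB

/-- CHUNK 7 (DUAL). Finite-dimensional Paulsen similarity with constant. -/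
theorem exists_metric (n : ℕ) (T : Matrix (Fin n) (Fin n) ℂ)
    (hspec : ∀ μ ∈ spectrum ℂ T, ‖μ‖ < 1)
    (hcb : ∀ (m : ℕ) (Q : Matrix (Fin m) (Fin m) ℂ[X]) (M : ℝ),
      (∀ z : ℂ, ‖z‖ ≤ 1 → evNorm Q z ≤ M) →
      ∀ v : PiLp 2 (fun _ : Fin m => EuclideanSpace ℂ (Fin n)),
        ‖opAct (Matrix.toEuclideanCLM (n := Fin n) (𝕜 := ℂ) T) Q v‖ ≤ 2 * M * ‖v‖) :
    ∃ H : Matrix (Fin n) (Fin n) ℂ, MetricFeasible T H 4 := by
  by_contra hno
  obtain ⟨y, x, z, hsum, htr⟩ := exists_data T hno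
  obtain ⟨a, b, c, d, h1, h2, h3⟩ := exists_blocks (T * y) z y x hsum
  have hy : y = T * y * aᵀ + z * bᵀ := by
    have := congrArg Matrix.transpose h1
    rwa [transpose_transpose, transpose_add, transpose_mul a, transpose_mul b,
      transpose_transpose, transpose_transpose] at this
  have hx : x = T * y * cᵀ + z * dᵀ := by
    have := congrArg Matrix.transpose h2
    rwa [transpose_transpose, transpose_add, transpose_mul c, transpose_mul d,
      transpose_transpose, transpose_transpose] at this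
  have hfin := final_ineq h3 hy hx hspec hcb
  rw [← norm_cols_sq, ← norm_cols_sq] at htr
  have h4 : ‖cols x‖ ^ 2 ≤ (2 * ‖cols z‖) ^ 2 := pow_le_pow_left₀ (norm_nonneg _) hfin 2
  nlinarith

end Crest.Agent.Crz.Dual
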