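import Crest.Agent.Crz.Defs
import Crest.Prelude.Def_NumRangeMetric

set_option autoImplicit false

open Complex Metric Set Polynomial Matrix
open scoped Topology ComplexOrder Matrix.Norms.L2Operator
open Crest.AnalysisR.NumRange

namespace Crest.Agent.Crz.Dual

variable {n : ℕ}

/-- the real functional `X ↦ re tr (Y X)` represents every real functional -/
lemma exists_repr (f : Matrix (Fin n) (Fin n) ℂ →ₗ[ℝ] ℝ) :
    ∃ Y : Matrix (Fin n) (Fin n) ℂ, ∀ X, f X = (trace (Y * X)).re := by
  refine ⟨Matrix.of fun j i => (f (Matrix.single i j 1) : ℂ) - I * f (Matrix.single i j I),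
    fun X => ?_⟩
  conv_lhs => rw [matrix_eq_sum_single X]
  simp only [map_sum]
  have h1 : ∀ i j, f (Matrix.single i j (X i j)) =
      (X i j).re * f (Matrix.single i j 1) + (X i j).im * f (Matrix.single i j I) := by
    intro i j
    have : Matrix.single i j (X i j) = (X i j).re • Matrix.single i j (1 : ℂ) +
        (X i j).im • Matrix.single i j I := by
      ext a b
      by_cases h : i = a ∧ j = b
      · obtain ⟨rfl, rfl⟩ := h
        simp
      · simp [Matrix.single, h]
    rw [this, map_add, map_smul, map_smul]; simp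
  simp only [h1]
  rw [Finset.sum_comm]
  simp only [trace, diag, Matrix.mul_apply, Complex.re_sum]
  refine Finset.sum_congr rfl fun j _ => Finset.sum_congr rfl fun i _ => ?_
  simp [mul_comm]

lemma isClosed_isHermitian : IsClosed {A : Matrix (Fin n) (Fin n) ℂ | A.IsHermitian} := by
  have : Continuous fun A : Matrix (Fin n) (Fin n) ℂ => Aᴴ := by fun_prop
  exact isClosed_eq this continuous_id

lemma isClosed_posSemidef : IsClosed {A : Matrix (Fin n) (Fin n) ℂ | A.PosSemidef} := by
  have : {A : Matrix (Fin n) (Fin n) ℂ | A.PosSemidef} =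
      {A | A.IsHermitian} ∩ ⋂ x : Fin n → ℂ, {A | 0 ≤ star x ⬝ᵥ (A *ᵥ x)} := by
    ext A
    simp only [Set.mem_ofPred_eq, mem_inter_iff, mem_iInter, posSemidef_iff_dotProduct_mulVec]
  rw [this]
  refine isClosed_isHermitian.inter (isClosed_iInter fun x => ?_)
  have h : Continuous fun A : Matrix (Fin n) (Fin n) ℂ => star x ⬝ᵥ (A *ᵥ x) := by fun_prop
  exact isClosed_le continuous_const h

lemma convex_posSemidef : Convex ℝ {A : Matrix (Fin n) (Fin n) ℂ | A.PosSemidef} := by
  intro A hA B hB a b ha hb hab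
  have h1 : (a • A).PosSemidef := by
    have := hA.smul (α := ℂ) (a := (a : ℂ)) (by exact_mod_cast ha)
    simpa using this
  have h2 : (b • B).PosSemidef := by
    have := hB.smul (α := ℂ) (a := (b : ℂ)) (by exact_mod_cast hb)
    simpa using this
  exact h1.add h2

/-- `I ≤ H ≤ 4 I` -/
def HSet (n : ℕ) (τ : ℝ) : Set (Matrix (Fin n) (Fin n) ℂ) :=
  {H | (H - 1).PosSemidef ∧ ((τ : ℂ) • (1 : Matrix (Fin n) (Fin n) ℂ) - H).PosSemidef}

lemma convex_HSet (τ : ℝ) : Convex ℝ (HSet n τ) := by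
  intro A hA B hB a b ha hb hab
  constructor
  · have := convex_posSemidef hA.1 hB.1 ha hb hab
    have e : a • A + b • B - 1 = a • (A - 1) + b • (B - 1) := by
      rw [smul_sub, smul_sub]
      have : (1 : Matrix (Fin n) (Fin n) ℂ) = a • 1 + b • 1 := by
        rw [← add_smul, hab, one_smul]
      nth_rw 1 [this]
      abel
    rw [e]; exact this
  · have := convex_posSemidef hA.2 hB.2 ha hb hab
    have e : (τ : ℂ) • (1 : Matrix (Fin n) (Fin n) ℂ) - (a • A + b • B) =
      a • ((τ : ℂ) • (1 : Matrix (Fin n) (Fin n) ℂ) - A) +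
        b • ((τ : ℂ) • (1 : Matrix (Fin n) (Fin n) ℂ) - B) := by
      rw [smul_sub, smul_sub]
      have : ((τ : ℂ) • (1 : Matrix (Fin n) (Fin n) ℂ)) =
          a • ((τ : ℂ) • (1 : Matrix (Fin n) (Fin n) ℂ)) +
          b • ((τ : ℂ) • (1 : Matrix (Fin n) (Fin n) ℂ)) := by
        rw [← add_smul, hab, one_smul]
      nth_rw 1 [this]
      abel
    rw [e]; exact this

lemma isClosed_HSet (τ : ℝ) : IsClosed (HSet n τ) := by
  have h1 : Continuous fun H : Matrix (Fin n) (Fin n) ℂ => H - 1 := by fun_prop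
  have h2 : Continuous fun H : Matrix (Fin n) (Fin n) ℂ =>
    (τ : ℂ) • (1 : Matrix (Fin n) (Fin n) ℂ) - H := by fun_prop
  exact (isClosed_posSemidef.preimage h1).inter (isClosed_posSemidef.preimage h2)

open scoped MatrixOrder in
lemma norm_le_of_posSemidef {A B : Matrix (Fin n) (Fin n) ℂ} (hA : A.PosSemidef)
    (hAB : (B - A).PosSemidef) : ‖A‖ ≤ ‖B‖ := by
  apply CStarAlgebra.norm_le_norm_of_nonneg_of_le
  · exact hA.nonneg
  · exact hAB


lemma posSemidef_of_HSet {τ : ℝ} {H : Matrix (Fin n) (Fin n) ℂ} (hH : H ∈ HSet n τ) :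
    H.PosSemidef := by
  have := hH.1.add (PosSemidef.one (n := Fin n) (R := ℂ))
  simpa using this

lemma norm_le_of_HSet {τ : ℝ} {H : Matrix (Fin n) (Fin n) ℂ} (hH : H ∈ HSet n τ) :
    ‖H‖ ≤ |τ| * ‖(1 : Matrix (Fin n) (Fin n) ℂ)‖ := by
  have := norm_le_of_posSemidef (posSemidef_of_HSet hH) hH.2
  refine this.trans ?_
  rw [norm_smul]; simp

lemma isCompact_HSet (τ : ℝ) : IsCompact (HSet n τ) := by
  have : ProperSpace (Matrix (Fin n) (Fin n) ℂ) := FiniteDimensional.proper ℂ _
  refine Metric.isCompact_of_isClosed_isBounded (isClosed_HSet τ) ?_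
  refine isBounded_iff_forall_norm_le.2 ⟨_, fun H hH => norm_le_of_HSet hH⟩

/-- separation -/
lemma exists_sep (T : Matrix (Fin n) (Fin n) ℂ)
    (hno : ¬ ∃ H : Matrix (Fin n) (Fin n) ℂ, MetricFeasible T H 4) :
    ∃ Y : Matrix (Fin n) (Fin n) ℂ, Y.PosSemidef ∧
      ∀ H ∈ HSet n 4, (trace (Y * (H - Tᴴ * H * T))).re < 0 := by
  set L : Matrix (Fin n) (Fin n) ℂ →ₗ[ℝ] Matrix (Fin n) (Fin n) ℂ :=
    { toFun := fun H => H - Tᴴ * H * T
      map_add' := by intro A B; noncomm_ring
      map_smul' := by intro a A; simp [smul_sub] } with hL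
  have hLc : Continuous L := by
    have : Continuous fun H : Matrix (Fin n) (Fin n) ℂ => H - Tᴴ * H * T := by fun_prop
    exact this
  have hdisj : Disjoint (L '' HSet n 4) {A : Matrix (Fin n) (Fin n) ℂ | A.PosSemidef} := by
    rw [Set.disjoint_left]
    rintro _ ⟨H, hH, rfl⟩ hP
    refine hno ⟨H, hH.1, ?_, hP⟩
    exact hH.2
  obtain ⟨f, u, v, hu, huv, hv⟩ := geometric_hahn_banach_compact_closed
    ((convex_HSet 4).linear_image L) ((isCompact_HSet 4).image hLc)
    (convex_posSemidef (n := n)) isClosed_posSemidef hdisj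
  have hv0 : v < 0 := by
    have := hv 0 (PosSemidef.zero)
    simpa using this
  have hfP : ∀ P : Matrix (Fin n) (Fin n) ℂ, P.PosSemidef → 0 ≤ f P := by
    intro P hP
    by_contra hneg
    push Not at hneg
    have hmem : ((v / f P) • P).PosSemidef := by
      have hc : 0 ≤ v / f P := div_nonneg_of_nonpos hv0.le hneg.le
      have h3 := hP.smul (α := ℂ) (a := ((v / f P : ℝ) : ℂ)) (by exact_mod_cast hc)
      rwa [Complex.coe_smul] at h3
    have := hv _ hmem
    rw [map_smul, smul_eq_mul, div_mul_cancel₀ _ hneg.ne] at this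
    exact lt_irrefl _ this
  obtain ⟨Y, hY⟩ := exists_repr (f : Matrix (Fin n) (Fin n) ℂ →ₗ[ℝ] ℝ)
  -- Hermitian part
  refine ⟨(1 / 2 : ℂ) • (Y + Yᴴ), ?_, ?_⟩
  · rw [posSemidef_iff_dotProduct_mulVec]
    have hherm : ((1 / 2 : ℂ) • (Y + Yᴴ)).IsHermitian := by
      rw [IsHermitian, conjTranspose_smul, conjTranspose_add, conjTranspose_conjTranspose,
        add_comm]
      simp
    refine ⟨hherm, fun x => ?_⟩
    have h1 := hfP _ (posSemidef_vecMulVec_self_star x)
    have h2 := hY (vecMulVec x (star x))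
    have h3 : trace (Y * vecMulVec x (star x)) = star x ⬝ᵥ (Y *ᵥ x) := by
      rw [mul_vecMulVec, trace_vecMulVec, dotProduct_comm]
    have h4 : star x ⬝ᵥ (Yᴴ *ᵥ x) = star (star x ⬝ᵥ (Y *ᵥ x)) := by
      rw [← star_dotProduct, star_mulVec, ← dotProduct_mulVec]
    have h5 : star x ⬝ᵥ (((1 / 2 : ℂ) • (Y + Yᴴ)) *ᵥ x) =
        (((star x ⬝ᵥ (Y *ᵥ x)).re : ℝ) : ℂ) := by
      rw [smul_mulVec, dotProduct_smul, add_mulVec, dotProduct_add, h4]
      apply Complex.ext
      · simp; ring
      · simp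
    rw [h5]
    rw [h3] at h2
    have h6 : 0 ≤ (star x ⬝ᵥ (Y *ᵥ x)).re := by rw [← h2]; exact h1
    exact_mod_cast h6
  · intro H hH
    have hHh : H.IsHermitian := (posSemidef_of_HSet hH).isHermitian
    set K := H - Tᴴ * H * T with hK
    have hKh : K.IsHermitian := by
      rw [IsHermitian, hK, conjTranspose_sub, conjTranspose_mul, conjTranspose_mul,
        conjTranspose_conjTranspose, hHh.eq, Matrix.mul_assoc]
    have h1 : f K < u := hu K ⟨H, hH, rfl⟩
    have h2 : f K = (trace (Y * K)).re := hY K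
    have h3 : trace (Yᴴ * K) = star (trace (Y * K)) := by
      rw [← trace_conjTranspose, conjTranspose_mul, hKh.eq, trace_mul_comm]
    have h4 : (trace (((1 / 2 : ℂ) • (Y + Yᴴ)) * K)).re = (trace (Y * K)).re := by
      rw [Matrix.smul_mul, trace_smul, Matrix.add_mul, trace_add, h3]
      simp; ring
    rw [h4, ← h2]; linarith

lemma exists_split (W : Matrix (Fin n) (Fin n) ℂ) (hW : W.IsHermitian)
    (hpos : ∀ H ∈ HSet n 4, 0 < (trace (H * W)).re) :
    ∃ X Z : Matrix (Fin n) (Fin n) ℂ, X.PosSemidef ∧ Z.PosSemidef ∧ W = X - Z ∧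
      4 * (trace Z).re < (trace X).re := by
  set U : Matrix (Fin n) (Fin n) ℂ := (hW.eigenvectorUnitary : Matrix (Fin n) (Fin n) ℂ) with hU
  have hUU : U * Uᴴ = 1 := Unitary.coe_mul_star_self hW.eigenvectorUnitary
  have hUU' : Uᴴ * U = 1 := Unitary.coe_star_mul_self hW.eigenvectorUnitary
  set d := hW.eigenvalues with hd
  set D : (Fin n → ℝ) → Matrix (Fin n) (Fin n) ℂ := fun g =>
    U * diagonal (fun i => ((g i : ℝ) : ℂ)) * Uᴴ with hD
  have hWD : W = D d := by
    have := hW.spectral_theorem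
    rw [Unitary.conjStarAlgAut_apply] at this
    exact this
  have hDpsd : ∀ g : Fin n → ℝ, (∀ i, 0 ≤ g i) → (D g).PosSemidef := by
    intro g hg
    refine PosSemidef.mul_mul_conjTranspose_same (PosSemidef.diagonal ?_) U
    intro i
    show (0 : ℂ) ≤ ((g i : ℝ) : ℂ)
    exact_mod_cast hg i
  have hDsub : ∀ g h : Fin n → ℝ, D (fun i => g i - h i) = D g - D h := by
    intro g h
    simp only [hD]
    rw [← Matrix.sub_mul, ← Matrix.mul_sub, diagonal_sub]
    simp
  have hDmul : ∀ g h : Fin n → ℝ, D g * D h = D (fun i => g i * h i) := by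
    intro g h
    simp only [hD]
    calc U * diagonal (fun i => ((g i : ℝ) : ℂ)) * Uᴴ * (U * diagonal (fun i => ((h i : ℝ) : ℂ)) * Uᴴ)
        = U * diagonal (fun i => ((g i : ℝ) : ℂ)) * (Uᴴ * U) *
          diagonal (fun i => ((h i : ℝ) : ℂ)) * Uᴴ := by noncomm_ring
      _ = _ := by
        rw [hUU', Matrix.mul_one, Matrix.mul_assoc U, diagonal_mul_diagonal]
        simp
  have hDtr : ∀ g : Fin n → ℝ, (trace (D g)).re = ∑ i, g i := by
    intro g
    simp only [hD]
    rw [trace_mul_cycle, hUU', Matrix.one_mul, trace_diagonal]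
    simp
  have hDone : D (fun _ => 1) = 1 := by
    simp [hD, hUU]
  have hDfour : D (fun _ => 4) = ((4 : ℝ) : ℂ) • (1 : Matrix (Fin n) (Fin n) ℂ) := by
    simp only [hD]
    rw [← smul_one_eq_diagonal, Matrix.mul_smul, Matrix.smul_mul, Matrix.mul_one, hUU]
  refine ⟨D (fun i => max (d i) 0), D (fun i => max (-(d i)) 0), hDpsd _ fun i => le_max_right _ _,
    hDpsd _ fun i => le_max_right _ _, ?_, ?_⟩
  · rw [← hDsub, hWD]
    congr 1
    ext i
    rcases le_total 0 (d i) with h | h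
    · rw [max_eq_left h, max_eq_right (by linarith)]; ring
    · rw [max_eq_right h, max_eq_left (by linarith)]; ring
  · set h : Fin n → ℝ := fun i => if 0 ≤ d i then 1 else 4 with hh
    have hmem : D h ∈ HSet n 4 := by
      constructor
      · rw [← hDone, ← hDsub]
        refine hDpsd _ fun i => ?_
        by_cases hi : 0 ≤ d i
        · simp [hh, hi]
        · simp only [hh, hi, if_false]; norm_num
      · rw [← hDfour, ← hDsub]
        refine hDpsd _ fun i => ?_
        by_cases hi : 0 ≤ d i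
        · simp only [hh, hi, if_true]; norm_num
        · simp [hh, hi]
    have h1 := hpos _ hmem
    rw [hWD, hDmul, hDtr] at h1
    rw [hDtr, hDtr, Finset.mul_sum]
    have h2 : ∑ i, h i * d i = ∑ i, max (d i) 0 - ∑ i, 4 * max (-(d i)) 0 := by
      rw [← Finset.sum_sub_distrib]
      refine Finset.sum_congr rfl fun i _ => ?_
      by_cases hi : 0 ≤ d i
      · rw [max_eq_left hi, max_eq_right (by linarith)]; simp [hh, hi]
      · push Not at hi
        rw [max_eq_right hi.le, max_eq_left (by linarith)]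
        simp [hh, not_le.2 hi]
    linarith

open scoped MatrixOrder in
lemma exists_factor {Y : Matrix (Fin n) (Fin n) ℂ} (hY : Y.PosSemidef) :
    ∃ y : Matrix (Fin n) (Fin n) ℂ, y * yᴴ = Y := by
  obtain ⟨a, ha⟩ := CStarAlgebra.nonneg_iff_eq_star_mul_self.mp hY.nonneg
  refine ⟨star a, ?_⟩
  rw [ha, star_eq_conjTranspose, conjTranspose_conjTranspose]

/-- the data of the separation: families with equal Gram sums -/
lemma exists_data (T : Matrix (Fin n) (Fin n) ℂ)
    (hno : ¬ ∃ H : Matrix (Fin n) (Fin n) ℂ, MetricFeasible T H 4) :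
    ∃ y x z : Matrix (Fin n) (Fin n) ℂ,
      y * yᴴ + x * xᴴ = (T * y) * (T * y)ᴴ + z * zᴴ ∧
      4 * (trace (z * zᴴ)).re < (trace (x * xᴴ)).re := by
  obtain ⟨Y, hY, hneg⟩ := exists_sep T hno
  obtain ⟨X, Z, hX, hZ, hW, htr⟩ := exists_split (T * Y * Tᴴ - Y)
    ((hY.mul_mul_conjTranspose_same T).isHermitian.sub hY.isHermitian) (by
      intro H hH
      have h1 := hneg H hH
      have h2 : trace (H * (T * Y * Tᴴ - Y)) = - trace (Y * (H - Tᴴ * H * T)) := by
        rw [Matrix.mul_sub, Matrix.mul_sub, trace_sub, trace_sub, trace_mul_comm H Y]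
        have : trace (H * (T * Y * Tᴴ)) = trace (Y * (Tᴴ * H * T)) := by
          rw [← trace_mul_comm, Matrix.mul_assoc, Matrix.mul_assoc, trace_mul_comm]
          congr 1
          noncomm_ring
        rw [this]; ring
      rw [h2]; simpa using h1)
  obtain ⟨y, hy⟩ := exists_factor hY
  obtain ⟨x, hx⟩ := exists_factor hX
  obtain ⟨z, hz⟩ := exists_factor hZ
  refine ⟨y, x, z, ?_, ?_⟩
  · rw [hy, hx, hz, conjTranspose_mul]
    have : T * y * (yᴴ * Tᴴ) = T * Y * Tᴴ := by
      rw [← hy]; noncomm_ring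
    rw [this]
    have h3 : T * Y * Tᴴ = X - Z + Y := by rw [← hW]; abel
    rw [h3]; abel
  · rw [hx, hz]; exact htr

end Crest.Agent.Crz.Dual
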