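import Crest.Agent.Crz.Defs

set_option autoImplicit false

open Complex Metric Set Polynomial Matrix
open scoped Topology ComplexOrder Matrix.Norms.L2Operator

namespace Crest.Agent.Crz.Dual

variable {n : ℕ}

lemma exists_isometry {V W : Type*} [AddCommGroup V] [Module ℂ V]
    [NormedAddCommGroup W] [InnerProductSpace ℂ W] [FiniteDimensional ℂ W]
    (F G : V →ₗ[ℂ] W) (h : ∀ u, ‖F u‖ = ‖G u‖) : ∃ U : W →ₗᵢ[ℂ] W, ∀ u, U (F u) = G u := by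
  obtain ⟨s, hs⟩ := F.rangeRestrict.exists_rightInverse_of_surjective
    (LinearMap.range_rangeRestrict F)
  have hs' : ∀ w : LinearMap.range F, F (s w) = w := by
    intro w
    have := LinearMap.congr_fun hs w
    have h2 := congrArg (Subtype.val) this
    simpa using h2
  let L₀ : LinearMap.range F →ₗᵢ[ℂ] W :=
    { toLinearMap := G ∘ₗ s
      norm_map' := by
        intro w
        show ‖G (s w)‖ = ‖w‖
        rw [← h, hs']; rfl }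
  refine ⟨L₀.extend, fun u => ?_⟩
  have h1 : L₀.extend (F u) = L₀ ⟨F u, LinearMap.mem_range_self F u⟩ :=
    L₀.extend_apply ⟨F u, LinearMap.mem_range_self F u⟩
  rw [h1]
  show G (s ⟨F u, _⟩) = G u
  rw [← sub_eq_zero, ← map_sub, ← norm_eq_zero, ← h, map_sub, hs', sub_self, norm_zero]

lemma norm_sq_sum_elim (f g : Fin n → ℂ) :
    ‖(WithLp.toLp 2 (Sum.elim f g) : EuclideanSpace ℂ (Fin n ⊕ Fin n))‖ ^ 2 =
      ‖(WithLp.toLp 2 f : EuclideanSpace ℂ (Fin n))‖ ^ 2 +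
      ‖(WithLp.toLp 2 g : EuclideanSpace ℂ (Fin n))‖ ^ 2 := by
  rw [EuclideanSpace.norm_sq_eq, EuclideanSpace.norm_sq_eq, EuclideanSpace.norm_sq_eq,
    Fintype.sum_sum_type]
  simp

lemma norm_sq_transpose_mulVec (R : Matrix (Fin n) (Fin n) ℂ) (u : Fin n → ℂ) :
    ((‖(WithLp.toLp 2 (Rᵀ *ᵥ u) : EuclideanSpace ℂ (Fin n))‖ ^ 2 : ℝ) : ℂ) =
      star u ⬝ᵥ ((R * Rᴴ)ᵀ *ᵥ u) := by
  have h1 : (R * Rᴴ)ᵀ = (Rᵀ)ᴴ * Rᵀ := by
    rw [transpose_mul]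
    rfl
  rw [h1, ← mulVec_mulVec, dotProduct_mulVec, ← star_mulVec, EuclideanSpace.norm_sq_eq]
  push_cast
  refine Finset.sum_congr rfl fun i _ => ?_
  simp only [Pi.star_apply]
  rw [← Complex.conj_mul']
  rfl

lemma exists_blocks (R₁ R₂ L₁ L₂ : Matrix (Fin n) (Fin n) ℂ)
    (h : L₁ * L₁ᴴ + L₂ * L₂ᴴ = R₁ * R₁ᴴ + R₂ * R₂ᴴ) :
    ∃ a b c d : Matrix (Fin n) (Fin n) ℂ,
      L₁ᵀ = a * R₁ᵀ + b * R₂ᵀ ∧ L₂ᵀ = c * R₁ᵀ + d * R₂ᵀ ∧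
      ∀ p q : Fin n → ℂ,
        ‖(WithLp.toLp 2 (a *ᵥ p + b *ᵥ q) : EuclideanSpace ℂ (Fin n))‖ ^ 2 +
        ‖(WithLp.toLp 2 (c *ᵥ p + d *ᵥ q) : EuclideanSpace ℂ (Fin n))‖ ^ 2 =
        ‖(WithLp.toLp 2 p : EuclideanSpace ℂ (Fin n))‖ ^ 2 +
        ‖(WithLp.toLp 2 q : EuclideanSpace ℂ (Fin n))‖ ^ 2 := by
  set Fm : Matrix (Fin n) (Fin n) ℂ → Matrix (Fin n) (Fin n) ℂ →
    (Fin n → ℂ) →ₗ[ℂ] EuclideanSpace ℂ (Fin n ⊕ Fin n) := fun A B =>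
    { toFun := fun u => WithLp.toLp 2 (Sum.elim (Aᵀ *ᵥ u) (Bᵀ *ᵥ u))
      map_add' := by
        intro u v
        rw [← WithLp.toLp_add]
        congr 1
        ext i
        rcases i with i | i <;> simp [mulVec_add]
      map_smul' := by
        intro c u
        rw [RingHom.id_apply, ← WithLp.toLp_smul]
        congr 1
        ext i
        rcases i with i | i <;> simp [mulVec_smul] } with hFm
  obtain ⟨U, hU⟩ := exists_isometry (Fm R₁ R₂) (Fm L₁ L₂) (by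
    intro u
    have hcalc : ∀ A B : Matrix (Fin n) (Fin n) ℂ, ((‖Fm A B u‖ ^ 2 : ℝ) : ℂ) =
        star u ⬝ᵥ ((A * Aᴴ + B * Bᴴ)ᵀ *ᵥ u) := by
      intro A B
      show ((‖(WithLp.toLp 2 (Sum.elim (Aᵀ *ᵥ u) (Bᵀ *ᵥ u)) :
        EuclideanSpace ℂ (Fin n ⊕ Fin n))‖ ^ 2 : ℝ) : ℂ) = _
      rw [norm_sq_sum_elim]
      push_cast
      have h1 := norm_sq_transpose_mulVec A u
      have h2 := norm_sq_transpose_mulVec B u
      push_cast at h1 h2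
      rw [h1, h2, transpose_add, add_mulVec, dotProduct_add]
    have h3 := hcalc R₁ R₂
    have h4 := hcalc L₁ L₂
    rw [h, ← h3] at h4
    have h5 : ‖Fm L₁ L₂ u‖ ^ 2 = ‖Fm R₁ R₂ u‖ ^ 2 := by exact_mod_cast h4
    exact (sq_eq_sq₀ (norm_nonneg _) (norm_nonneg _)).1 h5.symm)
  set M : Matrix (Fin n ⊕ Fin n) (Fin n ⊕ Fin n) ℂ :=
    (Matrix.toEuclideanLin (𝕜 := ℂ) (m := Fin n ⊕ Fin n) (n := Fin n ⊕ Fin n)).symm
      U.toLinearMap with hM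
  have hMU : ∀ w : (Fin n ⊕ Fin n) → ℂ, U (WithLp.toLp 2 w) = WithLp.toLp 2 (M *ᵥ w) := by
    intro w
    have : Matrix.toEuclideanLin M = U.toLinearMap := by
      rw [hM, LinearEquiv.apply_symm_apply]
    have h2 := LinearMap.congr_fun this (WithLp.toLp 2 w)
    exact h2.symm
  have hMb : M = fromBlocks M.toBlocks₁₁ M.toBlocks₁₂ M.toBlocks₂₁ M.toBlocks₂₂ :=
    (fromBlocks_toBlocks M).symm
  have hMv : ∀ f g : Fin n → ℂ, M *ᵥ (Sum.elim f g) =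
      Sum.elim (M.toBlocks₁₁ *ᵥ f + M.toBlocks₁₂ *ᵥ g) (M.toBlocks₂₁ *ᵥ f + M.toBlocks₂₂ *ᵥ g) := by
    intro f g
    conv_lhs => rw [hMb]
    rw [fromBlocks_mulVec]
    simp
  have hkey : ∀ u : Fin n → ℂ, Sum.elim (L₁ᵀ *ᵥ u) (L₂ᵀ *ᵥ u) =
      Sum.elim (M.toBlocks₁₁ *ᵥ (R₁ᵀ *ᵥ u) + M.toBlocks₁₂ *ᵥ (R₂ᵀ *ᵥ u))
        (M.toBlocks₂₁ *ᵥ (R₁ᵀ *ᵥ u) + M.toBlocks₂₂ *ᵥ (R₂ᵀ *ᵥ u)) := by
    intro u
    have h1 := hU u
    have h2 : U (WithLp.toLp 2 (Sum.elim (R₁ᵀ *ᵥ u) (R₂ᵀ *ᵥ u))) =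
      WithLp.toLp 2 (Sum.elim (L₁ᵀ *ᵥ u) (L₂ᵀ *ᵥ u)) := h1
    rw [hMU, hMv] at h2
    exact (WithLp.toLp_injective 2 h2).symm
  refine ⟨M.toBlocks₁₁, M.toBlocks₁₂, M.toBlocks₂₁, M.toBlocks₂₂, ?_, ?_, ?_⟩
  · refine Matrix.ext_iff_mulVec.2 fun u => ?_
    rw [add_mulVec, ← mulVec_mulVec, ← mulVec_mulVec]
    have := congrArg (fun f => f ∘ Sum.inl) (hkey u)
    simpa using this
  · refine Matrix.ext_iff_mulVec.2 fun u => ?_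
    rw [add_mulVec, ← mulVec_mulVec, ← mulVec_mulVec]
    have := congrArg (fun f => f ∘ Sum.inr) (hkey u)
    simpa using this
  · intro p q
    rw [← norm_sq_sum_elim, ← norm_sq_sum_elim, ← hMv, ← hMU, U.norm_map]

end Crest.Agent.Crz.Dual
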