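import Crest.Agent.Crz.Defs

/-!
# Row 132: Taylor coefficients and the Faber recursion
-/

set_option autoImplicit false

open Complex Metric Set Polynomial
open scoped Topology ComplexOrder

namespace Crest.Agent.Crz

section Taylor

variable {E : Type*} [NormedAddCommGroup E] [NormedSpace ℂ E]

/-- Taylor coefficient at `0`. -/
noncomputable def tc (n : ℕ) (f : ℂ → E) : E := ((n.factorial : ℂ))⁻¹ • iteratedDeriv n f 0

lemma tc_zero (f : ℂ → E) : tc 0 f = f 0 := by
  simp [tc]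

lemma kcoef_eq_tc (κ : ℂ → ℂ) (j : ℕ) : kcoef κ j = tc j κ := by
  unfold kcoef tc
  rw [smul_eq_mul, div_eq_inv_mul]

lemma tc_congr {f g : ℂ → E} (h : f =ᶠ[𝓝 0] g) (n : ℕ) : tc n f = tc n g := by
  unfold tc
  rw [h.iteratedDeriv_eq n]

lemma tc_add {f g : ℂ → E} (hf : ContDiffAt ℂ ⊤ f 0) (hg : ContDiffAt ℂ ⊤ g 0) (n : ℕ) :
    tc n (fun ζ => f ζ + g ζ) = tc n f + tc n g := by
  unfold tc
  have := iteratedDeriv_fun_add (n := n) (hf.of_le (by exact_mod_cast le_top)) (hg.of_le (by exact_mod_cast le_top))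
  rw [this, smul_add]

lemma tc_sub {f g : ℂ → E} (hf : ContDiffAt ℂ ⊤ f 0) (hg : ContDiffAt ℂ ⊤ g 0) (n : ℕ) :
    tc n (fun ζ => f ζ - g ζ) = tc n f - tc n g := by
  unfold tc
  have := iteratedDeriv_fun_sub (n := n) (hf.of_le (by exact_mod_cast le_top)) (hg.of_le (by exact_mod_cast le_top))
  rw [this, smul_sub]

lemma tc_const_smul (c : ℂ) (f : ℂ → E) (n : ℕ) : tc n (fun ζ => c • f ζ) = c • tc n f := by
  unfold tc
  rw [iteratedDeriv_fun_const_smul_field, smul_comm]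

lemma tc_smul {f : ℂ → ℂ} {g : ℂ → E} (hf : ContDiffAt ℂ ⊤ f 0) (hg : ContDiffAt ℂ ⊤ g 0) (n : ℕ) :
    tc n (fun ζ => f ζ • g ζ) = ∑ i ∈ Finset.range (n + 1), tc i f • tc (n - i) g := by
  unfold tc
  have h1 := iteratedDerivWithin_smul (n := n) (Set.mem_univ (0 : ℂ)) uniqueDiffOn_univ
    ((hf.of_le (by exact_mod_cast le_top)).contDiffWithinAt)
    ((hg.of_le (by exact_mod_cast le_top)).contDiffWithinAt)
  simp only [iteratedDerivWithin_univ] at h1
  have h2 : (fun ζ => f ζ • g ζ) = f • g := rfl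
  rw [h2, h1, Finset.smul_sum]
  apply Finset.sum_congr rfl
  intro i hi
  rw [Finset.mem_range] at hi
  have hi' : i ≤ n := by omega
  have h3 : (n.choose i : ℂ) * (i.factorial : ℂ) * ((n - i).factorial : ℂ) = n.factorial := by
    exact_mod_cast Nat.choose_mul_factorial_mul_factorial hi'
  have h4 : (n.factorial : ℂ) ≠ 0 := by exact_mod_cast n.factorial_ne_zero
  have h5 : (i.factorial : ℂ) ≠ 0 := by exact_mod_cast i.factorial_ne_zero
  have h6 : ((n - i).factorial : ℂ) ≠ 0 := by exact_mod_cast (n - i).factorial_ne_zero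
  rw [← Nat.cast_smul_eq_nsmul ℂ, smul_smul, smul_smul, smul_smul, smul_eq_mul]
  congr 1
  field_simp
  rw [← h3]
  ring

lemma tc_id (n : ℕ) : tc n (fun ζ : ℂ => ζ) = if n = 1 then 1 else 0 := by
  unfold tc
  rw [iteratedDeriv_fun_id_zero]
  split_ifs with h
  · subst h; simp
  · simp

lemma tc_const (c : E) (n : ℕ) : tc n (fun _ : ℂ => c) = if n = 0 then c else 0 := by
  unfold tc
  rw [iteratedDeriv_const]
  split_ifs with h
  · subst h; simp
  · simp

lemma tc_id_smul {g : ℂ → E} (hg : ContDiffAt ℂ ⊤ g 0) (n : ℕ) :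
    tc (n + 1) (fun ζ => ζ • g ζ) = tc n g := by
  rw [tc_smul (f := fun ζ => ζ) contDiffAt_id hg]
  rw [Finset.sum_eq_single 1]
  · rw [tc_id, if_pos rfl, one_smul]
    rfl
  · intro i _ hi
    rw [tc_id, if_neg hi, zero_smul]
  · intro h
    exfalso
    apply h
    rw [Finset.mem_range]
    omega

lemma tc_deriv (κ : ℂ → ℂ) (n : ℕ) : tc n (deriv κ) = (n + 1) * tc (n + 1) κ := by
  unfold tc
  rw [iteratedDeriv_succ', Nat.factorial_succ]
  push_cast
  have h4 : (n.factorial : ℂ) ≠ 0 := by exact_mod_cast n.factorial_ne_zero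
  have h5 : (n : ℂ) + 1 ≠ 0 := by exact_mod_cast n.succ_ne_zero
  rw [smul_eq_mul, smul_eq_mul]
  field_simp

lemma tc_eker {κ : ℂ → ℂ} (hκ : AnalyticAt ℂ κ 0) (n : ℕ) :
    tc n (eker κ) = (1 - n) * tc n κ := by
  have h1 : eker κ = fun ζ => κ ζ - ζ • deriv κ ζ := rfl
  have hd : ContDiffAt ℂ ⊤ (deriv κ) 0 := hκ.deriv.contDiffAt
  rw [h1, tc_sub (g := fun ζ => ζ • deriv κ ζ) hκ.contDiffAt (contDiffAt_id.smul hd)]
  cases n with
  | zero =>
    rw [tc_zero (fun ζ => ζ • deriv κ ζ)]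
    simp
  | succ n =>
    rw [tc_id_smul hd, tc_deriv]
    push_cast
    ring

end Taylor

section Rec

variable {𝔸 : Type*} [NormedRing 𝔸] [NormedAlgebra ℂ 𝔸]

/-- The Taylor coefficients of a solution of `(κ(ζ) - ζ A) h(ζ) = E(ζ)` are the Faber
polynomials of `A`. -/
theorem tc_eq_faber {κ : ℂ → ℂ} (hκ : AnalyticAt ℂ κ 0) (h0 : κ 0 ≠ 0) (A : 𝔸) {h : ℂ → 𝔸}
    (hh : ContDiffAt ℂ ⊤ h 0)
    (heq : ∀ᶠ ζ in 𝓝 (0 : ℂ), κ ζ • h ζ - ζ • (A * h ζ) = eker κ ζ • (1 : 𝔸)) (n : ℕ) :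
    tc n h = aeval A (faber κ n) := by
  have hAh : ContDiffAt ℂ ⊤ (fun ζ => A * h ζ) 0 := contDiffAt_const.mul hh
  have tcA : ∀ n, tc n (fun ζ => A * h ζ) = A * tc n h := by
    intro n
    unfold tc
    rw [iteratedDeriv_const_mul A (hh.of_le (by exact_mod_cast le_top)), mul_smul_comm]
  have hκ' : ContDiffAt ℂ ⊤ κ 0 := hκ.contDiffAt
  have hE : ContDiffAt ℂ ⊤ (eker κ) 0 := by
    have h1 : eker κ = fun ζ => κ ζ - ζ • deriv κ ζ := rfl
    rw [h1]
    exact hκ'.sub (contDiffAt_id.smul hκ.deriv.contDiffAt)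
  have key : ∀ n, tc n (fun ζ => κ ζ • h ζ) - tc n (fun ζ => ζ • (A * h ζ)) =
      ((1 - n) * tc n κ) • (1 : 𝔸) := by
    intro n
    rw [← tc_sub (f := fun ζ => κ ζ • h ζ) (g := fun ζ => ζ • (A * h ζ)) (hκ'.smul hh)
      (contDiffAt_id.smul hAh), tc_congr heq, ← tc_eker hκ]
    unfold tc
    rw [iteratedDeriv_smul_const (hE.of_le (by exact_mod_cast le_top)), smul_assoc]
  have h00 : tc 0 κ ≠ 0 := by rw [tc_zero]; exact h0
  induction n using Nat.strong_induction_on with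
  | _ n ih =>
    cases n with
    | zero =>
      have h1 := key 0
      rw [tc_zero (fun ζ => κ ζ • h ζ), tc_zero (fun ζ => ζ • (A * h ζ)), tc_zero] at h1
      simp only [zero_smul, sub_zero, Nat.cast_zero, one_mul] at h1
      rw [tc_zero]
      have h2 : h 0 = 1 := by
        have h3 : κ 0 • (h 0 - 1) = 0 := by rw [smul_sub, h1, sub_self]
        rcases smul_eq_zero.1 h3 with h4 | h4
        · exact absurd h4 h0
        · exact sub_eq_zero.1 h4
      rw [h2]
      simp [faber]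
    | succ n =>
      have h1 := key (n + 1)
      rw [tc_smul hκ' hh, tc_id_smul hAh, tcA] at h1
      have h2 : ∑ i ∈ Finset.range (n + 1 + 1), tc i κ • tc (n + 1 - i) h =
          ∑ i ∈ Finset.range (n + 1), tc (n + 1 - i) κ • tc i h + tc 0 κ • tc (n + 1) h := by
        rw [← Finset.sum_flip]
        rw [Finset.sum_range_succ, Nat.sub_self, Nat.sub_zero]
        congr 1
        apply Finset.sum_congr rfl
        intro i hi
        rw [Finset.mem_range] at hi
        rw [show n + 1 - (n + 1 - i) = i by omega]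
      rw [h2] at h1
      have h3 : ∑ i ∈ Finset.range (n + 1), tc (n + 1 - i) κ • tc i h =
          ∑ i : Fin (n + 1), (kcoef κ (n + 1 - i)) • aeval A (faber κ i) := by
        rw [Finset.sum_range]
        apply Finset.sum_congr rfl
        intro i _
        rw [kcoef_eq_tc, ih i (by omega)]
      rw [h3, ih n (by omega)] at h1
      have h4 : aeval A (faber κ (n + 1)) = (tc 0 κ)⁻¹ • ((-(n : ℂ) * tc (n + 1) κ) • (1 : 𝔸) +
          A * aeval A (faber κ n) - ∑ i : Fin (n + 1), (kcoef κ (n + 1 - i)) • aeval A (faber κ i)) := by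
        rw [faber, kcoef_eq_tc, kcoef_eq_tc]
        simp only [map_mul, map_sub, map_add, aeval_C, aeval_X, map_sum, Algebra.smul_def, mul_one]
      rw [h4, eq_inv_smul_iff₀ h00]
      have h5 : (1 - ((n + 1 : ℕ) : ℂ)) = -(n : ℂ) := by push_cast; ring
      rw [h5] at h1
      rw [← h1]
      abel

end Rec

end Crest.Agent.Crz
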