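import Crest.Agent.Crz.FabA

/-!
# Row 132: degrees of the Faber polynomials, circle averages as Taylor coefficients
-/

set_option autoImplicit false

open Complex Metric Set Polynomial
open scoped Topology ComplexOrder

namespace Crest.Agent.Crz

lemma faber_natDegree_coeff {κ : ℂ → ℂ} (n : ℕ) :
    (faber κ n).natDegree ≤ n ∧ (faber κ n).coeff n = ((kcoef κ 0)⁻¹) ^ n := by
  induction n using Nat.strong_induction_on with
  | _ n ih =>
    cases n with
    | zero => simp [faber]
    | succ n =>
      have h1 := ih n (by omega)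
      have hsum : (∑ i : Fin (n + 1), C (kcoef κ (n + 1 - i)) * faber κ i).natDegree ≤ n := by
        apply natDegree_sum_le_of_forall_le
        intro i _
        apply (natDegree_C_mul_le _ _).trans
        exact (ih i (by omega)).1.trans (by omega)
      constructor
      · rw [faber]
        apply (natDegree_C_mul_le _ _).trans
        apply (natDegree_sub_le _ _).trans
        apply max_le
        · apply (natDegree_add_le _ _).trans
          apply max_le
          · rw [natDegree_C]; omega
          · apply natDegree_mul_le.trans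
            rw [natDegree_X]
            omega
        · omega
      · rw [faber, coeff_C_mul, coeff_sub, coeff_add, coeff_C, if_neg (by omega), coeff_X_mul,
          coeff_eq_zero_of_natDegree_lt (lt_of_le_of_lt hsum (by omega)), h1.2]
        ring

lemma faber_span {κ : ℂ → ℂ} (h0 : κ 0 ≠ 0) (N : ℕ) (P : ℂ[X]) (hP : P.natDegree ≤ N) :
    ∃ a : ℕ → ℂ, P = ∑ n ∈ Finset.range (N + 1), C (a n) * faber κ n := by
  have hk : kcoef κ 0 ≠ 0 := by
    rw [kcoef_eq_tc, tc_zero]; exact h0
  induction N generalizing P with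
  | zero =>
    refine ⟨fun _ => P.coeff 0, ?_⟩
    rw [Finset.sum_range_one]
    have : P = C (P.coeff 0) := eq_C_of_natDegree_le_zero hP
    simp only [faber, mul_one]
    exact this
  | succ N ih =>
    obtain ⟨h1, h2⟩ := faber_natDegree_coeff (κ := κ) (N + 1)
    set c : ℂ := P.coeff (N + 1) * (kcoef κ 0) ^ (N + 1) with hc
    have h3 : (P - C c * faber κ (N + 1)).natDegree ≤ N := by
      rw [natDegree_le_iff_coeff_eq_zero]
      intro m hm
      rw [coeff_sub, coeff_C_mul]
      rcases Nat.lt_or_ge (N + 1) m with h4 | h4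
      · rw [coeff_eq_zero_of_natDegree_lt (lt_of_le_of_lt hP h4),
          coeff_eq_zero_of_natDegree_lt (lt_of_le_of_lt h1 h4)]
        ring
      · have h5 : m = N + 1 := by omega
        rw [h5, h2, hc]
        have : (kcoef κ 0) ^ (N + 1) * ((kcoef κ 0)⁻¹) ^ (N + 1) = 1 := by
          rw [← mul_pow, mul_inv_cancel₀ hk, one_pow]
        rw [mul_assoc, this]
        ring
    obtain ⟨a, ha⟩ := ih _ h3
    refine ⟨fun n => if n = N + 1 then c else a n, ?_⟩
    rw [Finset.sum_range_succ]
    simp only [if_true]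
    have h6 : ∑ n ∈ Finset.range (N + 1), C (if n = N + 1 then c else a n) * faber κ n =
        ∑ n ∈ Finset.range (N + 1), C (a n) * faber κ n := by
      apply Finset.sum_congr rfl
      intro n hn
      rw [Finset.mem_range] at hn
      rw [if_neg (by omega)]
    rw [h6, ← ha]
    ring

section Avg

variable {r : ℝ}

/-- circle average over the unit circle. -/
noncomputable abbrev cavg (f : ℂ → ℂ) : ℂ := Real.circleAverage f 0 1

lemma cavg_eq_zero_val {f : ℂ → ℂ} (hr : 1 < r) (hf : DifferentiableOn ℂ f (ball 0 r)) :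
    cavg f = f 0 := by
  apply DiffContOnCl.circleAverage
  rw [abs_one]
  apply DifferentiableOn.diffContOnCl
  rw [closure_ball _ one_ne_zero]
  apply hf.mono
  exact closedBall_subset_ball hr

lemma circleIntegrable_of_cont {f : ℂ → ℂ} (hf : ContinuousOn f (sphere 0 1)) :
    CircleIntegrable f 0 1 := by
  apply ContinuousOn.circleIntegrable'
  rwa [abs_one]

lemma cavg_inv_pow (n : ℕ) (hn : n ≠ 0) : cavg (fun ζ => ζ⁻¹ ^ n) = 0 := by
  have h1 := Real.circleAverage_zero_one_congr_inv (f := fun ζ : ℂ => ζ ^ n)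
  unfold cavg
  rw [h1]
  have h2 := cavg_eq_zero_val (r := 2) (f := fun ζ : ℂ => ζ ^ n) (by norm_num)
    ((differentiable_pow n).differentiableOn)
  unfold cavg at h2
  rw [h2, zero_pow hn]

lemma cavg_inv_pow_mul {h : ℂ → ℂ} (hr : 1 < r) (hh : DifferentiableOn ℂ h (ball 0 r)) (n : ℕ) :
    cavg (fun ζ => ζ⁻¹ ^ n * h ζ) = tc n h := by
  have hmem : ball (0 : ℂ) r ∈ 𝓝 (0 : ℂ) := ball_mem_nhds 0 (by linarith)
  induction n generalizing h with
  | zero =>
    rw [tc_zero, ← cavg_eq_zero_val hr hh]
    simp
  | succ n ih =>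
    have h1 : DifferentiableOn ℂ (dslope h 0) (ball 0 r) :=
      (Complex.differentiableOn_dslope hmem).2 hh
    have h2 : ∀ ζ, h ζ = h 0 + ζ * dslope h 0 ζ := by
      intro ζ
      have := sub_smul_dslope h 0 ζ
      rw [sub_zero, smul_eq_mul] at this
      rw [this]; ring
    have h3 : tc (n + 1) h = tc n (dslope h 0) := by
      have hd : ContDiffAt ℂ ⊤ (dslope h 0) 0 := (h1.analyticAt hmem).contDiffAt
      have h4 : tc (n + 1) h = tc (n + 1) (fun ζ => h 0 + ζ • dslope h 0 ζ) := by
        congr 1
        funext ζ; exact h2 ζ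
      rw [h4, tc_add (f := fun _ => h 0) (g := fun ζ => ζ • dslope h 0 ζ) contDiffAt_const
        (contDiffAt_id.smul hd), tc_const, if_neg (by omega), tc_id_smul hd, zero_add]
    rw [h3, ← ih h1]
    have h5 : cavg (fun ζ => ζ⁻¹ ^ (n + 1) * h ζ) =
        cavg (fun ζ => h 0 * ζ⁻¹ ^ (n + 1) + ζ⁻¹ ^ n * dslope h 0 ζ) := by
      apply Real.circleAverage_congr_sphere
      intro ζ hζ
      rw [abs_one, mem_sphere_zero_iff_norm] at hζ
      have hζ0 : ζ ≠ 0 := by
        intro h; rw [h, norm_zero] at hζ; norm_num at hζ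
      simp only
      rw [h2 ζ, pow_succ]
      field_simp
    have hsub : sphere (0 : ℂ) 1 ⊆ ball 0 r := by
      intro ζ hζ
      rw [mem_sphere_zero_iff_norm] at hζ
      rw [mem_ball_zero_iff, hζ]; exact hr
    have hinv : ∀ m : ℕ, ContinuousOn (fun ζ : ℂ => ζ⁻¹ ^ m) (sphere 0 1) := by
      intro m
      apply ContinuousOn.pow
      apply ContinuousOn.inv₀ continuousOn_id
      intro ζ hζ
      rw [mem_sphere_zero_iff_norm] at hζ
      intro h
      rw [id, ] at h
      rw [h, norm_zero] at hζ
      norm_num at hζ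
    rw [h5]
    unfold cavg
    rw [Real.circleAverage_fun_add]
    · have h6 : Real.circleAverage (fun ζ : ℂ => h 0 * ζ⁻¹ ^ (n + 1)) 0 1 = 0 := by
        have := Real.circleAverage_fun_smul (a := h 0) (f := fun ζ : ℂ => ζ⁻¹ ^ (n + 1)) (c := 0) (R := 1)
        simp only [smul_eq_mul] at this
        rw [this]
        have h7 := cavg_inv_pow (n + 1) (by omega)
        unfold cavg at h7
        rw [h7, mul_zero]
      rw [h6, zero_add]
    · exact circleIntegrable_of_cont (continuousOn_const.mul (hinv _))
    · exact circleIntegrable_of_cont ((hinv _).mul (h1.continuousOn.mono hsub))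

end Avg

end Crest.Agent.Crz
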