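import Crest.Agent.Crz.FabB

/-!
# Row 132: the kernel `Ψ` of the double layer potential
-/

set_option autoImplicit false

open Complex Metric Set Polynomial MeasureTheory
open scoped Topology ComplexOrder

namespace Crest.Agent.Crz

/-- second order divided difference. -/
noncomputable def D2 (κ : ℂ → ℂ) (r : ℝ) (ζ ξ : ℂ) : ℂ :=
  Real.circleAverage (fun s => s * κ s / ((s - ζ) ^ 2 * (s - ξ))) 0 r

/-- first order divided difference of `κ(ζ)/ζ` (times `-ζ ξ`). -/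
noncomputable def QQ (κ : ℂ → ℂ) (r : ℝ) (ζ ξ : ℂ) : ℂ :=
  eker κ ζ - ζ * (ξ - ζ) * D2 κ r ζ ξ

/-- the kernel. -/
noncomputable def Psi (κ : ℂ → ℂ) (r : ℝ) (ζ ξ : ℂ) : ℂ := ξ * ζ * D2 κ r ζ ξ / QQ κ r ζ ξ

section

variable {κ : ℂ → ℂ} {ρ r : ℝ}

lemma sub_ne_of_sphere {s w : ℂ} (hs : s ∈ sphere (0 : ℂ) r) (hw : w ∈ ball (0 : ℂ) r) :
    s - w ≠ 0 := by
  intro h
  rw [sub_eq_zero] at h
  rw [mem_sphere_zero_iff_norm] at hs
  rw [mem_ball_zero_iff, ← h, hs] at hw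
  exact lt_irrefl _ hw

lemma D2_spec (hr : 0 < r) (hrρ : r < ρ) (hκ : DifferentiableOn ℂ κ (ball 0 ρ)) {ζ ξ : ℂ}
    (hζ : ζ ∈ ball (0 : ℂ) r) (hξ : ξ ∈ ball (0 : ℂ) r) :
    (ξ - ζ) ^ 2 * D2 κ r ζ ξ = κ ξ - κ ζ - (ξ - ζ) * deriv κ ζ := by
  have hcl : closedBall (0 : ℂ) r ⊆ ball 0 ρ := closedBall_subset_ball hrρ
  have habs : |r| = r := abs_of_pos hr
  have hdc : DiffContOnCl ℂ κ (ball 0 |r|) := by
    rw [habs]
    apply DifferentiableOn.diffContOnCl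
    rw [closure_ball _ hr.ne']
    exact hκ.mono hcl
  have hcont : ContinuousOn κ (sphere 0 r) :=
    hκ.continuousOn.mono (sphere_subset_closedBall.trans hcl)
  have hA : ∀ w ∈ ball (0 : ℂ) r, Real.circleAverage (fun s => s / (s - w) * κ s) 0 r = κ w := by
    intro w hw
    have := hdc.circleAverage_smul_div (w := w) (by rwa [habs])
    simp only [sub_zero, smul_eq_mul] at this
    exact this
  have hB : Real.circleAverage (fun s => s / (s - ζ) ^ 2 * κ s) 0 r = deriv κ ζ := by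
    rw [Real.circleAverage_eq_circleIntegral hr.ne',
      ← two_pi_I_inv_smul_circleIntegral_sub_sq_inv_smul_of_differentiable isOpen_ball hcl hκ hζ]
    congr 1
    apply circleIntegral.integral_congr hr.le
    intro s hs
    have hs0 : s ≠ 0 := by
      have := sub_ne_of_sphere hs (mem_ball_self hr)
      simpa using this
    have hs1 := sub_ne_of_sphere hs hζ
    simp only [sub_zero, smul_eq_mul]
    field_simp
  have hcA : ∀ w ∈ ball (0 : ℂ) r, ContinuousOn (fun s => s / (s - w) * κ s) (sphere 0 |r|) := by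
    intro w hw
    rw [habs]
    exact (continuousOn_id.div (continuousOn_id.sub continuousOn_const)
      (fun s hs => sub_ne_of_sphere hs hw)).mul hcont
  have hcB : ContinuousOn (fun s => s / (s - ζ) ^ 2 * κ s) (sphere 0 |r|) := by
    rw [habs]
    exact (continuousOn_id.div ((continuousOn_id.sub continuousOn_const).pow 2)
      (fun s hs => pow_ne_zero 2 (sub_ne_of_sphere hs hζ))).mul hcont
  rw [← hA ξ hξ, ← hA ζ hζ, ← hB]
  unfold D2
  have e1 := Real.circleAverage_fun_smul (𝕜 := ℂ) (a := (ξ - ζ) ^ 2) (c := (0 : ℂ)) (R := r)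
    (f := fun s => s * κ s / ((s - ζ) ^ 2 * (s - ξ)))
  have e2 := Real.circleAverage_fun_smul (𝕜 := ℂ) (a := (ξ - ζ)) (c := (0 : ℂ)) (R := r)
    (f := fun s => s / (s - ζ) ^ 2 * κ s)
  simp only [smul_eq_mul] at e1 e2
  have hcB' : ContinuousOn (fun s => (ξ - ζ) * (s / (s - ζ) ^ 2 * κ s)) (sphere 0 |r|) :=
    continuousOn_const.mul hcB
  rw [← e1, ← e2, ← Real.circleAverage_fun_sub (ContinuousOn.circleIntegrable' (hcA ξ hξ))
    (ContinuousOn.circleIntegrable' (hcA ζ hζ)),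
    ← Real.circleAverage_fun_sub (f₁ := fun z => z / (z - ξ) * κ z - z / (z - ζ) * κ z)
      (ContinuousOn.circleIntegrable' ((hcA ξ hξ).sub (hcA ζ hζ)))
      (ContinuousOn.circleIntegrable' hcB')]
  apply Real.circleAverage_congr_sphere
  intro s hs
  rw [habs] at hs
  have h1 := sub_ne_of_sphere hs hζ
  have h2 := sub_ne_of_sphere hs hξ
  simp only
  field_simp
  ring

lemma continuousOn_D2 (hr : 0 < r) (hrρ : r < ρ) (hκ : DifferentiableOn ℂ κ (ball 0 ρ)) :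
    ContinuousOn (fun p : ℂ × ℂ => D2 κ r p.1 p.2) (ball 0 r ×ˢ ball 0 r) := by
  rw [continuousOn_iff_continuous_domRestrict]
  unfold D2 Real.circleAverage
  apply Continuous.const_smul
  apply intervalIntegral.continuous_parametric_intervalIntegral_of_continuous'
  have hκc : Continuous (fun θ : ℝ => κ (circleMap 0 r θ)) := by
    have h1 : ContinuousOn κ (sphere 0 r) :=
      hκ.continuousOn.mono (sphere_subset_closedBall.trans (closedBall_subset_ball hrρ))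
    exact h1.comp_continuous (continuous_circleMap 0 r) (fun θ => circleMap_mem_sphere 0 hr.le θ)
  apply Continuous.div
  · apply Continuous.mul
    · exact (continuous_circleMap 0 r).comp continuous_snd
    · exact hκc.comp continuous_snd
  · have hc := (continuous_circleMap 0 r).comp
      (continuous_snd (X := ↥((ball (0 : ℂ) r) ×ˢ (ball (0 : ℂ) r))) (Y := ℝ))
    have h1 : Continuous (fun p : ↥((ball (0 : ℂ) r) ×ˢ (ball (0 : ℂ) r)) × ℝ => (p.1 : ℂ × ℂ).1) :=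
      continuous_fst.comp (continuous_subtype_val.comp continuous_fst)
    have h2 : Continuous (fun p : ↥((ball (0 : ℂ) r) ×ˢ (ball (0 : ℂ) r)) × ℝ => (p.1 : ℂ × ℂ).2) :=
      continuous_snd.comp (continuous_subtype_val.comp continuous_fst)
    exact ((hc.sub h1).pow 2).mul (hc.sub h2)
  · rintro ⟨⟨⟨ζ, ξ⟩, hζ, hξ⟩, θ⟩
    exact mul_ne_zero (pow_ne_zero 2 (sub_ne_of_sphere (circleMap_mem_sphere 0 hr.le θ) hζ))
      (sub_ne_of_sphere (circleMap_mem_sphere 0 hr.le θ) hξ)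

lemma continuousAt_D2_fst (hr : 0 < r) (hrρ : r < ρ) (hκ : DifferentiableOn ℂ κ (ball 0 ρ))
    {ζ ξ : ℂ} (hζ : ζ ∈ ball (0 : ℂ) r) (hξ : ξ ∈ ball (0 : ℂ) r) :
    ContinuousAt (fun ζ => D2 κ r ζ ξ) ζ := by
  have h1 : ContinuousAt (fun p : ℂ × ℂ => D2 κ r p.1 p.2) (ζ, ξ) :=
    (continuousOn_D2 hr hrρ hκ).continuousAt
      ((isOpen_ball.prod isOpen_ball).mem_nhds ⟨hζ, hξ⟩)
  exact ContinuousAt.comp (f := fun ζ : ℂ => (ζ, ξ)) (g := fun p : ℂ × ℂ => D2 κ r p.1 p.2) h1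
    (by fun_prop)

lemma continuousAt_D2_snd (hr : 0 < r) (hrρ : r < ρ) (hκ : DifferentiableOn ℂ κ (ball 0 ρ))
    {ζ ξ : ℂ} (hζ : ζ ∈ ball (0 : ℂ) r) (hξ : ξ ∈ ball (0 : ℂ) r) :
    ContinuousAt (fun ξ => D2 κ r ζ ξ) ξ := by
  have h1 : ContinuousAt (fun p : ℂ × ℂ => D2 κ r p.1 p.2) (ζ, ξ) :=
    (continuousOn_D2 hr hrρ hκ).continuousAt
      ((isOpen_ball.prod isOpen_ball).mem_nhds ⟨hζ, hξ⟩)
  exact ContinuousAt.comp (f := fun ξ : ℂ => (ζ, ξ)) (g := fun p : ℂ × ℂ => D2 κ r p.1 p.2) h1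
    (by fun_prop)

lemma differentiableOn_D2_snd (hr : 0 < r) (hrρ : r < ρ) (hκ : DifferentiableOn ℂ κ (ball 0 ρ))
    {ζ : ℂ} (hζ : ζ ∈ ball (0 : ℂ) r) : DifferentiableOn ℂ (fun ξ => D2 κ r ζ ξ) (ball 0 r) := by
  apply (differentiableOn_compl_singleton_and_continuousAt_iff (isOpen_ball.mem_nhds hζ)).1
  refine ⟨?_, continuousAt_D2_snd hr hrρ hκ hζ hζ⟩
  have hsub : ball (0 : ℂ) r ⊆ ball 0 ρ := ball_subset_ball hrρ.le
  have h1 : DifferentiableOn ℂ (fun ξ => (κ ξ - κ ζ - (ξ - ζ) * deriv κ ζ) / (ξ - ζ) ^ 2)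
      (ball 0 r \ {ζ}) := by
    apply DifferentiableOn.div
    · exact ((hκ.mono (sdiff_subset.trans hsub)).sub_const _).sub
        ((differentiableOn_id.sub_const _).mul_const _)
    · exact (differentiableOn_id.sub_const _).pow 2
    · rintro ξ ⟨_, hne⟩
      exact pow_ne_zero 2 (sub_ne_zero.2 hne)
  apply h1.congr
  rintro ξ ⟨hξ, hne⟩
  have h2 : (ξ - ζ) ^ 2 ≠ 0 := pow_ne_zero 2 (sub_ne_zero.2 hne)
  rw [eq_div_iff h2, ← D2_spec hr hrρ hκ hζ hξ]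
  ring

lemma differentiableOn_D2_fst (hr : 0 < r) (hrρ : r < ρ) (hκ : DifferentiableOn ℂ κ (ball 0 ρ))
    {ξ : ℂ} (hξ : ξ ∈ ball (0 : ℂ) r) : DifferentiableOn ℂ (fun ζ => D2 κ r ζ ξ) (ball 0 r) := by
  apply (differentiableOn_compl_singleton_and_continuousAt_iff (isOpen_ball.mem_nhds hξ)).1
  refine ⟨?_, continuousAt_D2_fst hr hrρ hκ hξ hξ⟩
  have hsub : ball (0 : ℂ) r ⊆ ball 0 ρ := ball_subset_ball hrρ.le
  have hd : DifferentiableOn ℂ (deriv κ) (ball 0 ρ) := hκ.deriv isOpen_ball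
  have h1 : DifferentiableOn ℂ (fun ζ => (κ ξ - κ ζ - (ξ - ζ) * deriv κ ζ) / (ξ - ζ) ^ 2)
      (ball 0 r \ {ξ}) := by
    apply DifferentiableOn.div
    · exact ((differentiableOn_const _).sub (hκ.mono (sdiff_subset.trans hsub))).sub
        (((differentiableOn_const _).sub differentiableOn_id).mul (hd.mono (sdiff_subset.trans hsub)))
    · exact ((differentiableOn_const _).sub differentiableOn_id).pow 2
    · rintro ζ ⟨_, hne⟩
      exact pow_ne_zero 2 (sub_ne_zero.2 (Ne.symm hne))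
  apply h1.congr
  rintro ζ ⟨hζ, hne⟩
  have h2 : (ξ - ζ) ^ 2 ≠ 0 := pow_ne_zero 2 (sub_ne_zero.2 (Ne.symm hne))
  rw [eq_div_iff h2, ← D2_spec hr hrρ hκ hζ hξ]
  ring

lemma QQ_spec (hr : 0 < r) (hrρ : r < ρ) (hκ : DifferentiableOn ℂ κ (ball 0 ρ)) {ζ ξ : ℂ}
    (hζ : ζ ∈ ball (0 : ℂ) r) (hξ : ξ ∈ ball (0 : ℂ) r) :
    ξ * κ ζ - ζ * κ ξ = (ξ - ζ) * QQ κ r ζ ξ := by
  unfold QQ eker
  have := D2_spec hr hrρ hκ hζ hξ
  linear_combination ζ * this

lemma QQ_ne (h : ConvexCurve κ ρ) (hr : 0 < r) (hrρ : r < ρ) {ζ ξ : ℂ}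
    (hζ : ζ ∈ ball (0 : ℂ) r) (hξ : ξ ∈ ball (0 : ℂ) r) : QQ κ r ζ ξ ≠ 0 := by
  have hsub : ball (0 : ℂ) r ⊆ ball 0 ρ := ball_subset_ball hrρ.le
  intro h0
  by_cases he : ζ = ξ
  · subst he
    unfold QQ at h0
    simp only [sub_self, mul_zero, zero_mul, sub_zero] at h0
    exact h.eker_ne ζ (hsub hζ) h0
  · have h1 := QQ_spec hr hrρ h.diff hζ hξ
    rw [h0, mul_zero, sub_eq_zero] at h1
    exact he (h.inj ζ (hsub hζ) ξ (hsub hξ) h1)

lemma Psi_spec (h : ConvexCurve κ ρ) (hr : 0 < r) (hrρ : r < ρ) {ζ ξ : ℂ}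
    (hζ : ζ ∈ ball (0 : ℂ) r) (hξ : ξ ∈ ball (0 : ℂ) r) :
    QQ κ r ζ ξ * (ξ + (ξ - ζ) * Psi κ r ζ ξ) = ξ * eker κ ζ := by
  have hQ := QQ_ne h hr hrρ hζ hξ
  unfold Psi
  have h1 : QQ κ r ζ ξ * (ξ + (ξ - ζ) * (ξ * ζ * D2 κ r ζ ξ / QQ κ r ζ ξ)) =
      ξ * QQ κ r ζ ξ + (ξ - ζ) * (ξ * ζ * D2 κ r ζ ξ) := by
    field_simp
  rw [h1]
  unfold QQ
  ring

lemma Psi_zero_left (ξ : ℂ) : Psi κ r 0 ξ = 0 := by
  unfold Psi
  simp

lemma Psi_zero_right (ζ : ℂ) : Psi κ r ζ 0 = 0 := by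
  unfold Psi
  simp

lemma differentiableOn_eker (h : ConvexCurve κ ρ) : DifferentiableOn ℂ (eker κ) (ball 0 ρ) := by
  have h1 : eker κ = fun ζ => κ ζ - ζ * deriv κ ζ := rfl
  rw [h1]
  exact h.diff.sub (differentiableOn_id.mul (h.diff.deriv isOpen_ball))

lemma continuousOn_Psi (h : ConvexCurve κ ρ) (hr : 0 < r) (hrρ : r < ρ) :
    ContinuousOn (fun p : ℂ × ℂ => Psi κ r p.1 p.2) (ball 0 r ×ˢ ball 0 r) := by
  have hD := continuousOn_D2 hr hrρ h.diff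
  have hE : ContinuousOn (fun p : ℂ × ℂ => eker κ p.1) (ball 0 r ×ˢ ball 0 r) := by
    apply ((differentiableOn_eker h).continuousOn.mono (ball_subset_ball hrρ.le)).comp
      continuousOn_fst
    rintro ⟨a, b⟩ ⟨h1, _⟩
    exact h1
  have hQ : ContinuousOn (fun p : ℂ × ℂ => QQ κ r p.1 p.2) (ball 0 r ×ˢ ball 0 r) := by
    unfold QQ
    exact hE.sub ((continuousOn_fst.mul (continuousOn_snd.sub continuousOn_fst)).mul hD)
  unfold Psi
  apply ((continuousOn_snd.mul continuousOn_fst).mul hD).div hQ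
  rintro ⟨a, b⟩ ⟨h1, h2⟩
  exact QQ_ne h hr hrρ h1 h2

lemma differentiableOn_Psi_fst (h : ConvexCurve κ ρ) (hr : 0 < r) (hrρ : r < ρ) {ξ : ℂ}
    (hξ : ξ ∈ ball (0 : ℂ) r) : DifferentiableOn ℂ (fun ζ => Psi κ r ζ ξ) (ball 0 r) := by
  have hD := differentiableOn_D2_fst hr hrρ h.diff hξ
  have hE := (differentiableOn_eker h).mono (ball_subset_ball hrρ.le)
  unfold Psi QQ
  apply (((differentiableOn_const _).mul differentiableOn_id).mul hD).div
  · exact hE.sub ((differentiableOn_id.mul ((differentiableOn_const _).sub differentiableOn_id)).mul hD)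
  · intro ζ hζ
    exact QQ_ne h hr hrρ hζ hξ

lemma differentiableOn_Psi_snd (h : ConvexCurve κ ρ) (hr : 0 < r) (hrρ : r < ρ) {ζ : ℂ}
    (hζ : ζ ∈ ball (0 : ℂ) r) : DifferentiableOn ℂ (fun ξ => Psi κ r ζ ξ) (ball 0 r) := by
  have hD := differentiableOn_D2_snd hr hrρ h.diff hζ
  unfold Psi QQ
  apply ((differentiableOn_id.mul_const _).mul hD).div
  · exact (differentiableOn_const _).sub
      (((differentiableOn_const _).mul (differentiableOn_id.sub_const _)).mul hD)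
  · intro ξ hξ
    exact QQ_ne h hr hrρ hζ hξ

end

end Crest.Agent.Crz
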