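import Crest.Agent.Crz.FabC

/-!
# Row 132: Faber polynomials on the curve, orthogonality
-/

set_option autoImplicit false

open Complex Metric Set Polynomial MeasureTheory
open scoped Topology ComplexOrder

namespace Crest.Agent.Crz

section

variable {κ : ℂ → ℂ} {ρ r : ℝ}

lemma contDiffAt_geom {ξ : ℂ} (hξ : ξ ≠ 0) : ContDiffAt ℂ ⊤ (fun ζ : ℂ => ξ / (ξ - ζ)) 0 := by
  apply ContDiffAt.div contDiffAt_const (contDiffAt_const.sub contDiffAt_id)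
  simpa using hξ

lemma tc_geom {ξ : ℂ} (hξ : ξ ≠ 0) (n : ℕ) : tc n (fun ζ : ℂ => ξ / (ξ - ζ)) = ξ⁻¹ ^ n := by
  induction n with
  | zero =>
    rw [tc_zero]
    simp [hξ]
  | succ n ih =>
    have hg := contDiffAt_geom hξ
    have h1 : (fun ζ : ℂ => ξ / (ξ - ζ)) =ᶠ[𝓝 0]
        (fun ζ : ℂ => (1 : ℂ) + ζ • (ξ⁻¹ • (ξ / (ξ - ζ)))) := by
      have h2 : ∀ᶠ ζ : ℂ in 𝓝 0, ζ ≠ ξ := isOpen_ne.mem_nhds hξ.symm
      filter_upwards [h2] with ζ hζ
      have h3 : ξ - ζ ≠ 0 := sub_ne_zero.2 (Ne.symm hζ)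
      simp only [smul_eq_mul]
      field_simp
      ring
    have hg' : ContDiffAt ℂ ⊤ (fun ζ : ℂ => ξ⁻¹ • (ξ / (ξ - ζ))) 0 :=
      hg.const_smul ξ⁻¹
    rw [tc_congr h1, tc_add (f := fun _ => (1 : ℂ)) (g := fun ζ : ℂ => ζ • (ξ⁻¹ • (ξ / (ξ - ζ))))
      contDiffAt_const (contDiffAt_id.smul hg'), tc_const, if_neg (by omega), tc_id_smul hg',
      tc_const_smul, ih, zero_add, smul_eq_mul, pow_succ]
    ring

lemma contDiffAt_Psi_fst (h : ConvexCurve κ ρ) (hr : 0 < r) (hrρ : r < ρ) {ξ : ℂ}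
    (hξ : ξ ∈ ball (0 : ℂ) r) : ContDiffAt ℂ ⊤ (fun ζ => Psi κ r ζ ξ) 0 :=
  ((differentiableOn_Psi_fst h hr hrρ hξ).analyticAt (ball_mem_nhds 0 hr)).contDiffAt

/-- The Faber polynomials on the curve. -/
lemma faber_eval (h : ConvexCurve κ ρ) (hr : 0 < r) (hrρ : r < ρ) {ξ : ℂ}
    (hξ : ξ ∈ ball (0 : ℂ) r) (hξ0 : ξ ≠ 0) (n : ℕ) :
    (faber κ n).eval (gam κ ξ) = ξ⁻¹ ^ n + tc n (fun ζ => Psi κ r ζ ξ) := by
  have hκ : AnalyticAt ℂ κ 0 := h.diff.analyticAt (ball_mem_nhds 0 (hr.trans hrρ))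
  have hg := contDiffAt_geom hξ0
  have hP := contDiffAt_Psi_fst h hr hrρ hξ
  have key := tc_eq_faber hκ h.zero_ne (gam κ ξ) (h := fun ζ => ξ / (ξ - ζ) + Psi κ r ζ ξ)
    (hg.add hP) ?_ n
  · rw [tc_add hg hP, tc_geom hξ0] at key
    rw [key]
    rw [Polynomial.coe_aeval_eq_eval]
  · have h2 : ∀ᶠ ζ : ℂ in 𝓝 0, ζ ≠ ξ := isOpen_ne.mem_nhds hξ0.symm
    have h3 : ∀ᶠ ζ : ℂ in 𝓝 0, ζ ∈ ball (0 : ℂ) r := ball_mem_nhds 0 hr
    filter_upwards [h2, h3] with ζ hζ hζr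
    have h4 : ξ - ζ ≠ 0 := sub_ne_zero.2 (Ne.symm hζ)
    have h5 := QQ_spec hr hrρ h.diff hζr hξ
    have h6 := Psi_spec h hr hrρ hζr hξ
    simp only [smul_eq_mul, mul_one]
    unfold gam
    have h7 : ξ * (κ ζ * (ξ / (ξ - ζ) + Psi κ r ζ ξ) - ζ * (κ ξ / ξ * (ξ / (ξ - ζ) + Psi κ r ζ ξ))) =
        ξ * eker κ ζ := by
      rw [← h6]
      have h8 : ξ * (κ ζ * (ξ / (ξ - ζ) + Psi κ r ζ ξ) - ζ * (κ ξ / ξ * (ξ / (ξ - ζ) + Psi κ r ζ ξ))) =
          (ξ * κ ζ - ζ * κ ξ) * (ξ / (ξ - ζ) + Psi κ r ζ ξ) := by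
        field_simp
      rw [h8, h5]
      field_simp
    exact mul_left_cancel₀ hξ0 h7

/-- Fubini for circle averages. -/
lemma avg_swap {E : Type*} [NormedAddCommGroup E] [NormedSpace ℝ E] [CompleteSpace E]
    {F : ℂ → ℂ → E}
    (hF : ContinuousOn (fun p : ℂ × ℂ => F p.1 p.2) (sphere 0 1 ×ˢ sphere 0 1)) :
    Real.circleAverage (fun ξ => Real.circleAverage (fun ζ => F ζ ξ) 0 1) 0 1 =
      Real.circleAverage (fun ζ => Real.circleAverage (fun ξ => F ζ ξ) 0 1) 0 1 := by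
  unfold Real.circleAverage
  rw [intervalIntegral.integral_smul, intervalIntegral.integral_smul]
  congr 2
  apply intervalIntegral_intervalIntegral_swap
  have hc : Continuous (Function.uncurry fun x y => F (circleMap 0 1 y) (circleMap 0 1 x)) := by
    have h1 : (Function.uncurry fun x y => F (circleMap 0 1 y) (circleMap 0 1 x)) =
        fun q : ℝ × ℝ => (fun p : ℂ × ℂ => F p.1 p.2) (circleMap 0 1 q.2, circleMap 0 1 q.1) := rfl
    rw [h1]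
    apply hF.comp_continuous
    · exact ((continuous_circleMap 0 1).comp continuous_snd).prodMk
        ((continuous_circleMap 0 1).comp continuous_fst)
    · intro q
      exact ⟨circleMap_mem_sphere 0 zero_le_one _, circleMap_mem_sphere 0 zero_le_one _⟩
  apply (hc.continuousOn.integrableOn_compact (isCompact_uIcc.prod isCompact_uIcc)).mono_set
  exact prod_mono uIoc_subset_uIcc uIoc_subset_uIcc

lemma sphere_sub_ball (hr : 1 < r) : sphere (0 : ℂ) 1 ⊆ ball 0 r := by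
  intro ζ hζ
  rw [mem_sphere_zero_iff_norm] at hζ
  rw [mem_ball_zero_iff, hζ]; exact hr

lemma ne_zero_of_sphere {ζ : ℂ} (hζ : ζ ∈ sphere (0 : ℂ) 1) : ζ ≠ 0 := by
  rw [mem_sphere_zero_iff_norm] at hζ
  intro h
  rw [h, norm_zero] at hζ
  norm_num at hζ

lemma continuousOn_inv_pow (m : ℕ) : ContinuousOn (fun ζ : ℂ => ζ⁻¹ ^ m) (sphere 0 1) :=
  (ContinuousOn.inv₀ continuousOn_id (fun _ hζ => ne_zero_of_sphere hζ)).pow m

/-- error term. -/
noncomputable def er (κ : ℂ → ℂ) (r : ℝ) (n : ℕ) (ξ : ℂ) : ℂ := tc n (fun ζ => Psi κ r ζ ξ)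

lemma er_eq_cavg (h : ConvexCurve κ ρ) (hr : 1 < r) (hrρ : r < ρ) (n : ℕ) {ξ : ℂ}
    (hξ : ξ ∈ ball (0 : ℂ) r) : er κ r n ξ = cavg (fun ζ => ζ⁻¹ ^ n * Psi κ r ζ ξ) := by
  have h0 : 0 < r := by linarith
  unfold er
  rw [cavg_inv_pow_mul hr (differentiableOn_Psi_fst h h0 hrρ hξ)]

lemma cont_Psi_torus (h : ConvexCurve κ ρ) (hr : 1 < r) (hrρ : r < ρ) :
    ContinuousOn (fun p : ℂ × ℂ => Psi κ r p.1 p.2) (sphere 0 1 ×ˢ sphere 0 1) :=
  (continuousOn_Psi h (by linarith) hrρ).mono (prod_mono (sphere_sub_ball hr) (sphere_sub_ball hr))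

lemma orth_er (h : ConvexCurve κ ρ) (hr : 1 < r) (hrρ : r < ρ) (n k : ℕ) :
    cavg (fun ξ => ξ ^ k * er κ r n ξ) = 0 := by
  have h0 : 0 < r := by linarith
  have h1 : cavg (fun ξ => ξ ^ k * er κ r n ξ) =
      cavg (fun ξ => cavg (fun ζ => ξ ^ k * (ζ⁻¹ ^ n * Psi κ r ζ ξ))) := by
    apply Real.circleAverage_congr_sphere
    intro ξ hξ
    rw [abs_one] at hξ
    simp only
    rw [er_eq_cavg h hr hrρ n (sphere_sub_ball hr hξ)]
    have := Real.circleAverage_fun_smul (𝕜 := ℂ) (a := ξ ^ k) (c := (0 : ℂ)) (R := 1)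
      (f := fun ζ => ζ⁻¹ ^ n * Psi κ r ζ ξ)
    simp only [smul_eq_mul] at this
    exact this.symm
  rw [h1]
  unfold cavg
  rw [avg_swap (F := fun ζ ξ => ξ ^ k * (ζ⁻¹ ^ n * Psi κ r ζ ξ))]
  · have h2 : Real.circleAverage (fun ζ => Real.circleAverage
        (fun ξ => ξ ^ k * (ζ⁻¹ ^ n * Psi κ r ζ ξ)) 0 1) 0 1 =
        Real.circleAverage (fun _ => (0 : ℂ)) 0 1 := by
      apply Real.circleAverage_congr_sphere
      intro ζ hζ
      rw [abs_one] at hζ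
      simp only
      have h3 : DifferentiableOn ℂ (fun ξ => ξ ^ k * (ζ⁻¹ ^ n * Psi κ r ζ ξ)) (ball 0 r) :=
        (differentiableOn_id.pow k).mul
          ((differentiableOn_const _).mul (differentiableOn_Psi_snd h h0 hrρ (sphere_sub_ball hr hζ)))
      have h4 := cavg_eq_zero_val hr h3
      unfold cavg at h4
      rw [h4, Psi_zero_right]
      ring
    rw [h2, Real.circleAverage_const]
  · apply ContinuousOn.mul
    · exact (continuousOn_snd).pow k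
    · apply ContinuousOn.mul
      · apply (continuousOn_inv_pow n).comp continuousOn_fst
        rintro ⟨a, b⟩ ⟨ha, _⟩
        exact ha
      · exact cont_Psi_torus h hr hrρ

end

end Crest.Agent.Crz
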