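import Crest.Agent.Crz.Avg

/-!
# Main inequality, part 1: algebra of matrix polynomials, Hilbert-Schmidt norms, positive forms
-/

set_option autoImplicit false

open Complex Metric Set Polynomial Matrix
open scoped Topology ComplexOrder ComplexConjugate

namespace Crest.Agent.Crz

section op

variable {E : Type*} [NormedAddCommGroup E] [InnerProductSpace ℂ E]
variable {m : ℕ}

lemma opAct_apply (A : E →L[ℂ] E) (P : Matrix (Fin m) (Fin m) ℂ[X])
    (v : PiLp 2 (fun _ : Fin m => E)) (i : Fin m) :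
    opAct A P v i = ∑ j : Fin m, (aeval A (P i j) : E →L[ℂ] E) (v j) := rfl

/-- `opAct` as a linear map. -/
noncomputable def opLin (A : E →L[ℂ] E) (P : Matrix (Fin m) (Fin m) ℂ[X]) :
    PiLp 2 (fun _ : Fin m => E) →ₗ[ℂ] PiLp 2 (fun _ : Fin m => E) where
  toFun := opAct A P
  map_add' v w := by
    ext i
    simp only [opAct_apply, PiLp.add_apply, map_add, Finset.sum_add_distrib]
  map_smul' c v := by
    ext i
    simp only [opAct_apply, PiLp.smul_apply, map_smul, Finset.smul_sum, RingHom.id_apply]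

variable [FiniteDimensional ℂ E]

/-- `opAct` as a continuous linear map. -/
noncomputable def opL (A : E →L[ℂ] E) (P : Matrix (Fin m) (Fin m) ℂ[X]) :
    PiLp 2 (fun _ : Fin m => E) →L[ℂ] PiLp 2 (fun _ : Fin m => E) :=
  LinearMap.toContinuousLinearMap (opLin A P)

lemma opL_apply (A : E →L[ℂ] E) (P : Matrix (Fin m) (Fin m) ℂ[X])
    (v : PiLp 2 (fun _ : Fin m => E)) : opL A P v = opAct A P v := rfl

lemma opL_mul (A : E →L[ℂ] E) (P Q : Matrix (Fin m) (Fin m) ℂ[X]) :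
    opL A (P * Q) = (opL A P) ∘L (opL A Q) := by
  ext v i
  simp only [opL_apply, opAct_apply, ContinuousLinearMap.comp_apply, Matrix.mul_apply, map_sum,
    map_mul, _root_.sum_apply, mul_apply_eq_comp]
  rw [Finset.sum_comm]

lemma opL_sub (A : E →L[ℂ] E) (P Q : Matrix (Fin m) (Fin m) ℂ[X]) :
    opL A (P - Q) = opL A P - opL A Q := by
  ext v i
  simp only [opL_apply, opAct_apply, _root_.sub_apply, Matrix.sub_apply, map_sub,
    PiLp.sub_apply, Finset.sum_sub_distrib]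

lemma opL_smul (A : E →L[ℂ] E) (c : ℂ) (P : Matrix (Fin m) (Fin m) ℂ[X]) :
    opL A (c • P) = c • opL A P := by
  ext v i
  simp only [opL_apply, opAct_apply, _root_.smul_apply, Matrix.smul_apply, map_smul,
    PiLp.smul_apply, Finset.smul_sum]

/-- action of a constant matrix -/
lemma opL_const_apply (A : E →L[ℂ] E) (B : Matrix (Fin m) (Fin m) ℂ)
    (v : PiLp 2 (fun _ : Fin m => E)) (i : Fin m) :
    opL A (B.map (fun c => (C c : ℂ[X]))) v i = ∑ j : Fin m, B i j • v j := by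
  simp only [opL_apply, opAct_apply, Matrix.map_apply, aeval_C, Algebra.algebraMap_eq_smul_one,
    _root_.smul_apply, one_apply_eq_self]

/-- adjoint relation for constant matrices -/
lemma inner_opL_const (A : E →L[ℂ] E) (B : Matrix (Fin m) (Fin m) ℂ)
    (v w : PiLp 2 (fun _ : Fin m => E)) :
    inner ℂ v (opL A (Bᴴ.map (fun c => (C c : ℂ[X]))) w)
      = inner ℂ (opL A (B.map (fun c => (C c : ℂ[X]))) v) w := by
  rw [PiLp.inner_apply, PiLp.inner_apply]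
  simp only [opL_const_apply, inner_sum, sum_inner, inner_smul_right, inner_smul_left,
    Matrix.conjTranspose_apply]
  rw [Finset.sum_comm]
  rfl

end op

section ev

variable {m : ℕ}

/-- value of a matrix polynomial at a point -/
noncomputable def evM (P : Matrix (Fin m) (Fin m) ℂ[X]) (z : ℂ) : Matrix (Fin m) (Fin m) ℂ :=
  P.map (fun p => p.eval z)

lemma evM_apply (P : Matrix (Fin m) (Fin m) ℂ[X]) (z : ℂ) (i j : Fin m) :
    evM P z i j = (P i j).eval z := rfl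

lemma evM_mul (P Q : Matrix (Fin m) (Fin m) ℂ[X]) (z : ℂ) : evM (P * Q) z = evM P z * evM Q z := by
  ext i j
  simp only [evM_apply, Matrix.mul_apply, eval_finsetSum, eval_mul]

lemma evM_sub (P Q : Matrix (Fin m) (Fin m) ℂ[X]) (z : ℂ) : evM (P - Q) z = evM P z - evM Q z := by
  ext i j
  simp only [evM_apply, Matrix.sub_apply, eval_sub]

lemma evM_smul (c : ℂ) (P : Matrix (Fin m) (Fin m) ℂ[X]) (z : ℂ) :
    evM (c • P) z = c • evM P z := by
  ext i j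
  simp only [evM_apply, Matrix.smul_apply, eval_smul]

lemma evM_const (B : Matrix (Fin m) (Fin m) ℂ) (z : ℂ) :
    evM (B.map (fun c => (C c : ℂ[X]))) z = B := by
  ext i j
  simp only [evM_apply, Matrix.map_apply, eval_C]

/-- squared Hilbert-Schmidt norm -/
noncomputable def hs {ι κ : Type*} [Fintype ι] [Fintype κ] (B : Matrix ι κ ℂ) : ℝ :=
  ∑ i, ∑ j, ‖B i j‖ ^ 2

lemma hs_nonneg {ι κ : Type*} [Fintype ι] [Fintype κ] (B : Matrix ι κ ℂ) : 0 ≤ hs B :=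
  Finset.sum_nonneg (fun _ _ => Finset.sum_nonneg (fun _ _ => by positivity))

lemma hs_conjTranspose {ι κ : Type*} [Fintype ι] [Fintype κ] (B : Matrix ι κ ℂ) :
    hs Bᴴ = hs B := by
  unfold hs
  rw [Finset.sum_comm]
  refine Finset.sum_congr rfl (fun i _ => Finset.sum_congr rfl (fun j _ => ?_))
  rw [Matrix.conjTranspose_apply, norm_star]

lemma hs_mul_le_left (F B : Matrix (Fin m) (Fin m) ℂ)
    (hF : ‖Matrix.toEuclideanCLM (n := Fin m) (𝕜 := ℂ) F‖ ≤ 1) : hs (F * B) ≤ hs B := by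
  unfold hs
  rw [Finset.sum_comm, Finset.sum_comm (f := fun i j => ‖B i j‖ ^ 2)]
  refine Finset.sum_le_sum (fun j _ => ?_)
  have h1 : ‖Matrix.toEuclideanCLM (n := Fin m) (𝕜 := ℂ) F (WithLp.toLp 2 (fun i => B i j))‖
      ≤ 1 * ‖(WithLp.toLp 2 (fun i => B i j) : EuclideanSpace ℂ (Fin m))‖ :=
    ContinuousLinearMap.le_of_opNorm_le _ hF _
  rw [one_mul] at h1
  have h2 := pow_le_pow_left₀ (norm_nonneg _) h1 2
  rw [Matrix.toEuclideanCLM_toLp, EuclideanSpace.norm_sq_eq, EuclideanSpace.norm_sq_eq] at h2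
  refine le_trans (le_of_eq ?_) h2
  rfl

lemma norm_toEuclideanCLM_conjTranspose (F : Matrix (Fin m) (Fin m) ℂ) :
    ‖Matrix.toEuclideanCLM (n := Fin m) (𝕜 := ℂ) Fᴴ‖
      = ‖Matrix.toEuclideanCLM (n := Fin m) (𝕜 := ℂ) F‖ := by
  have h : Matrix.toEuclideanCLM (n := Fin m) (𝕜 := ℂ) Fᴴ
      = star (Matrix.toEuclideanCLM (n := Fin m) (𝕜 := ℂ) F) :=
    map_star (Matrix.toEuclideanCLM (n := Fin m) (𝕜 := ℂ)) F
  rw [h, ContinuousLinearMap.star_eq_adjoint]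
  exact LinearIsometryEquiv.norm_map _ _

lemma hs_mul_le_right (B F : Matrix (Fin m) (Fin m) ℂ)
    (hF : ‖Matrix.toEuclideanCLM (n := Fin m) (𝕜 := ℂ) F‖ ≤ 1) : hs (B * F) ≤ hs B := by
  rw [← hs_conjTranspose (B * F), ← hs_conjTranspose B, Matrix.conjTranspose_mul]
  exact hs_mul_le_left _ _ (by rw [norm_toEuclideanCLM_conjTranspose]; exact hF)

lemma hs_le_card (F : Matrix (Fin m) (Fin m) ℂ)
    (hF : ‖Matrix.toEuclideanCLM (n := Fin m) (𝕜 := ℂ) F‖ ≤ 1) : hs F ≤ m := by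
  have h := hs_mul_le_left F 1 hF
  rw [mul_one] at h
  refine h.trans (le_of_eq ?_)
  unfold hs
  have : ∀ i : Fin m, ∑ j : Fin m, ‖(1 : Matrix (Fin m) (Fin m) ℂ) i j‖ ^ 2 = 1 := by
    intro i
    rw [Finset.sum_eq_single i]
    · simp
    · intro j _ hj
      rw [Matrix.one_apply_ne (Ne.symm hj)]; simp
    · intro h; exact absurd (Finset.mem_univ i) h
  simp [this]

/-- The variation of a contraction in a Hilbert space. -/
lemma variation_bound {W : Type*} [NormedAddCommGroup W] [InnerProductSpace ℂ W] [CompleteSpace W]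
    (T B : W →L[ℂ] W) (hT : ‖T‖ ≤ 1) (hB : ‖B‖ ≤ 1) (ε : ℝ) (hε : 0 ≤ ε) (w : W) :
    ‖(T - (ε : ℂ) • (B - T * star B * T)) w‖ ^ 2 ≤ (1 + 4 * ε ^ 2) * ‖w‖ ^ 2 := by
  set v : W := (star B) (T w) with hv
  have hT' : ∀ x, ‖T x‖ ≤ ‖x‖ := fun x => by
    simpa using ContinuousLinearMap.le_of_opNorm_le _ hT x
  have hB' : ∀ x, ‖B x‖ ≤ ‖x‖ := fun x => by
    simpa using ContinuousLinearMap.le_of_opNorm_le _ hB x
  have hsB : ∀ x, ‖(star B) x‖ ≤ ‖x‖ := fun x => by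
    have : ‖star B‖ ≤ 1 := by rw [norm_star]; exact hB
    simpa using ContinuousLinearMap.le_of_opNorm_le _ this x
  have hvw : ‖v‖ ≤ ‖w‖ := (hsB _).trans (hT' _)
  have e1 : (T - (ε : ℂ) • (B - T * star B * T)) w = T (w + (ε : ℂ) • v) - (ε : ℂ) • B w := by
    simp only [_root_.sub_apply, _root_.smul_apply,
      mul_apply_eq_comp, map_add, map_smul, ← hv, smul_sub]
    abel
  rw [e1, @norm_sub_sq ℂ]
  have h1 : ‖T (w + (ε : ℂ) • v)‖ ^ 2 ≤ ‖w + (ε : ℂ) • v‖ ^ 2 :=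
    pow_le_pow_left₀ (norm_nonneg _) (hT' _) 2
  have h2 : ‖w + (ε : ℂ) • v‖ ^ 2 = ‖w‖ ^ 2 + 2 * (ε * (inner ℂ w v).re) + ε ^ 2 * ‖v‖ ^ 2 := by
    rw [@norm_add_sq ℂ, inner_smul_right, norm_smul, mul_pow]
    simp
  have h3 : (inner ℂ (T (w + (ε : ℂ) • v)) ((ε : ℂ) • B w)).re
      = ε * (inner ℂ w v).re + ε ^ 2 * (inner ℂ (T v) (B w)).re := by
    have h4 : inner ℂ (T w) (B w) = conj (inner ℂ w v) := by
      rw [hv, inner_conj_symm, ContinuousLinearMap.star_eq_adjoint,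
        ContinuousLinearMap.adjoint_inner_left]
    rw [map_add, map_smul, inner_add_left, inner_smul_left, inner_smul_right, inner_smul_right, h4]
    simp only [Complex.conj_ofReal, Complex.add_re, Complex.re_ofReal_mul, Complex.conj_re]
    ring
  have h5 : -(inner ℂ (T v) (B w)).re ≤ ‖w‖ ^ 2 := by
    have h6 : |(inner ℂ (T v) (B w)).re| ≤ ‖T v‖ * ‖B w‖ :=
      (Complex.abs_re_le_norm _).trans (norm_inner_le_norm _ _)
    have h7 : ‖T v‖ * ‖B w‖ ≤ ‖w‖ * ‖w‖ :=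
      mul_le_mul ((hT' _).trans hvw) (hB' _) (norm_nonneg _) (norm_nonneg _)
    have h8 := neg_abs_le (inner ℂ (T v) (B w)).re
    nlinarith
  have h9 : ‖(ε : ℂ) • B w‖ ^ 2 ≤ ε ^ 2 * ‖w‖ ^ 2 := by
    rw [norm_smul, mul_pow]
    have : ‖(ε : ℂ)‖ ^ 2 = ε ^ 2 := by simp
    rw [this]
    exact mul_le_mul_of_nonneg_left (pow_le_pow_left₀ (norm_nonneg _) (hB' _) 2) (sq_nonneg _)
  have h10 : ‖v‖ ^ 2 ≤ ‖w‖ ^ 2 := pow_le_pow_left₀ (norm_nonneg _) hvw 2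
  rw [RCLike.re_eq_complex_re, h3]
  have h11 : ε ^ 2 * ‖v‖ ^ 2 ≤ ε ^ 2 * ‖w‖ ^ 2 := mul_le_mul_of_nonneg_left h10 (sq_nonneg _)
  have h12 : ε ^ 2 * (-(inner ℂ (T v) (B w)).re) ≤ ε ^ 2 * ‖w‖ ^ 2 :=
    mul_le_mul_of_nonneg_left h5 (sq_nonneg _)
  nlinarith

/-- matrix version of the variation bound -/
lemma variation_bound_matrix (F B : Matrix (Fin m) (Fin m) ℂ)
    (hF : ‖Matrix.toEuclideanCLM (n := Fin m) (𝕜 := ℂ) F‖ ≤ 1)
    (hB : ‖Matrix.toEuclideanCLM (n := Fin m) (𝕜 := ℂ) B‖ ≤ 1) (ε : ℝ) (hε : 0 ≤ ε) :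
    ‖Matrix.toEuclideanCLM (n := Fin m) (𝕜 := ℂ) (F - (ε : ℂ) • (B - F * Bᴴ * F))‖
      ≤ Real.sqrt (1 + 4 * ε ^ 2) := by
  refine ContinuousLinearMap.opNorm_le_bound _ (Real.sqrt_nonneg _) (fun w => ?_)
  have h := variation_bound (Matrix.toEuclideanCLM (n := Fin m) (𝕜 := ℂ) F)
    (Matrix.toEuclideanCLM (n := Fin m) (𝕜 := ℂ) B) hF hB ε hε w
  have e : Matrix.toEuclideanCLM (n := Fin m) (𝕜 := ℂ) (F - (ε : ℂ) • (B - F * Bᴴ * F))
      = Matrix.toEuclideanCLM (n := Fin m) (𝕜 := ℂ) F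
        - (ε : ℂ) • (Matrix.toEuclideanCLM (n := Fin m) (𝕜 := ℂ) B
          - Matrix.toEuclideanCLM (n := Fin m) (𝕜 := ℂ) F
            * star (Matrix.toEuclideanCLM (n := Fin m) (𝕜 := ℂ) B)
            * Matrix.toEuclideanCLM (n := Fin m) (𝕜 := ℂ) F) := by
    rw [map_sub, map_smul, map_sub, map_mul, map_mul]
    rw [show (Bᴴ : Matrix (Fin m) (Fin m) ℂ) = star B from rfl, map_star]
  rw [e]
  have h2 : ‖(Matrix.toEuclideanCLM (n := Fin m) (𝕜 := ℂ) F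
        - (ε : ℂ) • (Matrix.toEuclideanCLM (n := Fin m) (𝕜 := ℂ) B
          - Matrix.toEuclideanCLM (n := Fin m) (𝕜 := ℂ) F
            * star (Matrix.toEuclideanCLM (n := Fin m) (𝕜 := ℂ) B)
            * Matrix.toEuclideanCLM (n := Fin m) (𝕜 := ℂ) F)) w‖
      ≤ Real.sqrt ((1 + 4 * ε ^ 2) * ‖w‖ ^ 2) := Real.le_sqrt_of_sq_le h
  rwa [Real.sqrt_mul (by positivity), Real.sqrt_sq (norm_nonneg _)] at h2

end ev

section block

variable {ι : Type*} [Fintype ι] [DecidableEq ι]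

lemma hs_eq_trace {κ l : Type*} [Fintype κ] [Fintype l] (B : Matrix κ l ℂ) :
    (hs B : ℂ) = (Bᴴ * B).trace := by
  unfold hs
  simp only [Matrix.trace, Matrix.diag_apply, Matrix.mul_apply, Matrix.conjTranspose_apply]
  rw [Finset.sum_comm]
  push_cast
  refine Finset.sum_congr rfl (fun i _ => Finset.sum_congr rfl (fun j _ => ?_))
  rw [← Complex.ofReal_pow, ← Complex.normSq_eq_norm_sq, Complex.normSq_eq_conj_mul_self]
  rfl

/-- For a positive semidefinite block matrix, `2 ‖Z‖² ≤ ‖P‖² + ‖Q‖²` (Hilbert-Schmidt norms). -/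
lemma psd_block (G : Matrix (ι ⊕ ι) (ι ⊕ ι) ℂ) (hG : G.PosSemidef) :
    2 * ∑ i, ∑ j, ‖G (Sum.inr i) (Sum.inl j)‖ ^ 2
      ≤ ∑ i, ∑ j, ‖G (Sum.inl i) (Sum.inl j)‖ ^ 2 + ∑ i, ∑ j, ‖G (Sum.inr i) (Sum.inr j)‖ ^ 2 := by
  open scoped MatrixOrder in
  obtain ⟨R, hR⟩ := CStarAlgebra.nonneg_iff_eq_star_mul_self.mp hG.nonneg
  set X : Matrix (ι ⊕ ι) ι ℂ := R.submatrix id Sum.inl with hX
  set Y : Matrix (ι ⊕ ι) ι ℂ := R.submatrix id Sum.inr with hY
  have e1 : ∀ i j, G (Sum.inl i) (Sum.inl j) = (Xᴴ * X) i j := by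
    intro i j; rw [hR]; rfl
  have e2 : ∀ i j, G (Sum.inr i) (Sum.inr j) = (Yᴴ * Y) i j := by
    intro i j; rw [hR]; rfl
  have e3 : ∀ i j, G (Sum.inr i) (Sum.inl j) = (Yᴴ * X) i j := by
    intro i j; rw [hR]; rfl
  simp only [e1, e2, e3]
  change 2 * hs (Yᴴ * X) ≤ hs (Xᴴ * X) + hs (Yᴴ * Y)
  have h0 : 0 ≤ hs (X * Xᴴ - Y * Yᴴ) := hs_nonneg _
  have key : ((hs (X * Xᴴ - Y * Yᴴ) : ℝ) : ℂ)
      = (hs (Xᴴ * X) : ℂ) + (hs (Yᴴ * Y) : ℂ) - 2 * (hs (Yᴴ * X) : ℂ) := by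
    simp only [hs_eq_trace, Matrix.conjTranspose_sub, Matrix.conjTranspose_mul,
      Matrix.conjTranspose_conjTranspose, Matrix.sub_mul, Matrix.mul_sub, Matrix.trace_sub]
    have t1 : (X * Xᴴ * (X * Xᴴ)).trace = (Xᴴ * X * (Xᴴ * X)).trace := by
      rw [Matrix.mul_assoc, Matrix.trace_mul_comm]
      simp only [Matrix.mul_assoc]
    have t2 : (Y * Yᴴ * (Y * Yᴴ)).trace = (Yᴴ * Y * (Yᴴ * Y)).trace := by
      rw [Matrix.mul_assoc, Matrix.trace_mul_comm]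
      simp only [Matrix.mul_assoc]
    have t3 : (Y * Yᴴ * (X * Xᴴ)).trace = (Xᴴ * Y * (Yᴴ * X)).trace := by
      rw [← Matrix.mul_assoc, Matrix.trace_mul_comm]
      simp only [Matrix.mul_assoc]
    have t4 : (X * Xᴴ * (Y * Yᴴ)).trace = (Xᴴ * Y * (Yᴴ * X)).trace := by
      rw [Matrix.mul_assoc, Matrix.trace_mul_comm]
      simp only [Matrix.mul_assoc]
    rw [t1, t2, t3, t4]
    ring
  have key' : hs (X * Xᴴ - Y * Yᴴ) = hs (Xᴴ * X) + hs (Yᴴ * Y) - 2 * hs (Yᴴ * X) := by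
    exact_mod_cast key
  linarith

end block

end Crest.Agent.Crz
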