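import Crest.Agent.Crz.Main1

/-!
# Main inequality, part 2: L² estimates for Faber expansions
-/

set_option autoImplicit false

open Complex Metric Set Polynomial Matrix
open scoped Topology ComplexOrder ComplexConjugate

namespace Crest.Agent.Crz

section prelim

lemma av_pow_mul_ser {a : ℕ → ℂ} (ha : Summable fun n => ‖a n‖) (n : ℕ) :
    av (fun z : ℂ => z ^ n * ser a z) = if n = 0 then a 0 else 0 := by
  have h5 := av_mul_ser (CC.pow n) ha
  refine h5.unique ?_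
  have h7 : (fun k => av (fun z : ℂ => z ^ n * z ^ k) * a k)
      = fun k => if k = 0 then (if n = 0 then a 0 else 0) else 0 := by
    funext k
    have h8 : av (fun z : ℂ => z ^ n * z ^ k) = if n + k = 0 then 1 else 0 := by
      rw [← av_pow]
      exact av_congr (fun z _ => by rw [pow_add])
    rw [h8]
    by_cases hk : k = 0
    · subst hk; by_cases hn : n = 0 <;> simp [hn]
    · rw [if_neg (by omega), if_neg hk, zero_mul]
  rw [h7]
  exact hasSum_ite_eq 0 _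

lemma av_bilin {ι κ : Type*} (s : Finset ι) (t : Finset κ) (α : ι → ℂ → ℂ) (β : κ → ℂ → ℂ)
    (hα : ∀ i ∈ s, CC (α i)) (hβ : ∀ k ∈ t, CC (β k)) :
    av (fun z => (∑ i ∈ s, α i z) * (∑ k ∈ t, β k z))
      = ∑ i ∈ s, ∑ k ∈ t, av (fun z => α i z * β k z) := by
  have h1 : av (fun z => (∑ i ∈ s, α i z) * (∑ k ∈ t, β k z))
      = av (fun z => ∑ i ∈ s, ∑ k ∈ t, α i z * β k z) :=
    av_congr (fun z _ => Finset.sum_mul_sum _ _ _ _)
  rw [h1, av_sum (fun i hi => CC.sum (fun k hk => (hα i hi).mul (hβ k hk)))]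
  refine Finset.sum_congr rfl (fun i hi => ?_)
  exact av_sum (fun k hk => (hα i hi).mul (hβ k hk))

lemma CC.const_mul {f : ℂ → ℂ} (hf : CC f) (a : ℂ) : CC (fun z => a * f z) :=
  (CC.const a).mul hf

/-- `av ‖∑ aₙ ζ⁻ⁿ‖² = ∑ ‖aₙ‖²`. -/
lemma av_normsq_invpoly (s : Finset ℕ) (a : ℕ → ℂ) :
    av (fun z : ℂ => ‖∑ n ∈ s, a n * z⁻¹ ^ n‖ ^ 2) = ∑ n ∈ s, ‖a n‖ ^ 2 := by
  have hcc : CC (fun z : ℂ => ∑ n ∈ s, a n * z⁻¹ ^ n) :=
    CC.sum (fun n _ => (CC.invpow n).const_mul (a n))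
  have h1 : ((av (fun z : ℂ => ‖∑ n ∈ s, a n * z⁻¹ ^ n‖ ^ 2) : ℝ) : ℂ)
      = ((∑ n ∈ s, ‖a n‖ ^ 2 : ℝ) : ℂ) := by
    rw [← av_ofReal hcc.normsq]
    have h2 : av (fun z : ℂ => ((‖∑ n ∈ s, a n * z⁻¹ ^ n‖ ^ 2 : ℝ) : ℂ))
        = av (fun z : ℂ => (∑ k ∈ s, conj (a k) * z ^ k) * (∑ n ∈ s, a n * z⁻¹ ^ n)) := by
      refine av_congr (fun z hz => ?_)
      have h3 : (∑ k ∈ s, conj (a k) * z ^ k) = conj (∑ n ∈ s, a n * z⁻¹ ^ n) := by
        rw [map_sum]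
        refine Finset.sum_congr rfl (fun k _ => ?_)
        rw [map_mul, conj_inv_pow hz]
      rw [h3, mul_comm, Complex.mul_conj, Complex.normSq_eq_norm_sq]
    rw [h2, av_bilin s s _ _ (fun k _ => (CC.pow k).const_mul _)
      (fun n _ => (CC.invpow n).const_mul _)]
    push_cast
    refine Finset.sum_congr rfl (fun k hk => ?_)
    rw [Finset.sum_eq_single k]
    · have h4 : av (fun z : ℂ => conj (a k) * z ^ k * (a k * z⁻¹ ^ k))
          = (conj (a k) * a k) * av (fun z : ℂ => z⁻¹ ^ k * z ^ k) := by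
        rw [← av_const_mul]
        exact av_congr (fun z _ => by ring)
      rw [h4, av_invpow_mul_pow, if_pos rfl, mul_one, mul_comm, Complex.mul_conj,
        Complex.normSq_eq_norm_sq]
      push_cast
      rfl
    · intro n _ hn
      have h4 : av (fun z : ℂ => conj (a k) * z ^ k * (a n * z⁻¹ ^ n))
          = (conj (a k) * a n) * av (fun z : ℂ => z⁻¹ ^ n * z ^ k) := by
        rw [← av_const_mul]
        exact av_congr (fun z _ => by ring)
      rw [h4, av_invpow_mul_pow, if_neg hn, mul_zero]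
    · intro h; exact absurd hk h
  exact_mod_cast h1

lemma sum_range_succ_eq_Icc {M : Type*} [AddCommMonoid M] (f : ℕ → M) (N : ℕ) :
    ∑ n ∈ Finset.range (N + 1), f n = f 0 + ∑ n ∈ Finset.Icc 1 N, f n := by
  rw [Finset.range_eq_Ico, Finset.sum_eq_sum_Ico_succ_bot (Nat.succ_pos N)]
  congr 1

end prelim

section faber

variable {γ : ℂ → ℂ} {F : ℕ → ℂ[X]}

lemma cc_eval (hF : FaberSystem γ F) (p : ℂ[X]) : CC (fun ζ => p.eval (γ ζ)) :=
  p.continuous.comp_continuousOn hF.cont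

/-- Faber combination -/
noncomputable def fcomb (F : ℕ → ℂ[X]) (N : ℕ) (a : ℕ → ℂ) : ℂ[X] :=
  ∑ n ∈ Finset.range (N + 1), C (a n) * F n

lemma eval_fcomb (N : ℕ) (a : ℕ → ℂ) (z : ℂ) :
    (fcomb F N a).eval z = ∑ n ∈ Finset.range (N + 1), a n * (F n).eval z := by
  simp only [fcomb, eval_finsetSum, eval_mul, eval_C]

/-- the two-term decomposition of `av ‖p ∘ γ‖²` -/
lemma av_normsq_fcomb (hF : FaberSystem γ F) (N : ℕ) (a : ℕ → ℂ) :
    av (fun ζ => ‖(fcomb F N a).eval (γ ζ)‖ ^ 2)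
      = ∑ n ∈ Finset.range (N + 1), ‖a n‖ ^ 2
        + av (fun ζ : ℂ => ‖∑ n ∈ Finset.Icc 1 N, a n * ((F n).eval (γ ζ) - ζ⁻¹ ^ n)‖ ^ 2) := by
  set u : ℂ → ℂ := fun ζ => ∑ n ∈ Finset.range (N + 1), a n * ζ⁻¹ ^ n with hu
  set e : ℂ → ℂ := fun ζ => ∑ n ∈ Finset.Icc 1 N, a n * ((F n).eval (γ ζ) - ζ⁻¹ ^ n) with he
  have hcu : CC u := CC.sum (fun n _ => (CC.invpow n).const_mul (a n))
  have hce1 : ∀ n, CC (fun ζ : ℂ => (F n).eval (γ ζ) - ζ⁻¹ ^ n) :=
    fun n => (cc_eval hF (F n)).sub (CC.invpow n)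
  have hce : CC e := CC.sum (fun n _ => (hce1 n).const_mul (a n))
  have hdec : ∀ ζ : ℂ, (fcomb F N a).eval (γ ζ) = u ζ + e ζ := by
    intro ζ
    change _ = (∑ n ∈ Finset.range (N + 1), a n * ζ⁻¹ ^ n)
      + (∑ n ∈ Finset.Icc 1 N, a n * ((F n).eval (γ ζ) - ζ⁻¹ ^ n))
    rw [eval_fcomb, sum_range_succ_eq_Icc, sum_range_succ_eq_Icc, hF.zero, eval_one,
      add_assoc, ← Finset.sum_add_distrib]
    rw [pow_zero]
    congr 1
    exact Finset.sum_congr rfl (fun n _ => by ring)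
  have hcross : av (fun ζ => conj (u ζ) * e ζ) = 0 := by
    have h2 : av (fun ζ => conj (u ζ) * e ζ)
        = av (fun z : ℂ => (∑ k ∈ Finset.range (N + 1), conj (a k) * z ^ k) *
          (∑ n ∈ Finset.Icc 1 N, a n * ((F n).eval (γ z) - z⁻¹ ^ n))) := by
      refine av_congr (fun z hz => ?_)
      have h3 : (∑ k ∈ Finset.range (N + 1), conj (a k) * z ^ k) = conj (u z) := by
        rw [hu, map_sum]
        refine Finset.sum_congr rfl (fun k _ => ?_)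
        rw [map_mul, conj_inv_pow hz]
      rw [h3]
    rw [h2, av_bilin _ _ _ _ (fun k _ => (CC.pow k).const_mul _)
      (fun n _ => (hce1 n).const_mul _)]
    refine Finset.sum_eq_zero (fun k _ => Finset.sum_eq_zero (fun n _ => ?_))
    have h4 : av (fun z : ℂ => conj (a k) * z ^ k * (a n * ((F n).eval (γ z) - z⁻¹ ^ n)))
        = (conj (a k) * a n) * av (fun z : ℂ => z ^ k * ((F n).eval (γ z) - z⁻¹ ^ n)) := by
      rw [← av_const_mul]
      exact av_congr (fun z _ => by ring)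
    rw [h4]
    have h5 : av (fun z : ℂ => z ^ k * ((F n).eval (γ z) - z⁻¹ ^ n)) = 0 := hF.orth n k
    rw [h5, mul_zero]
  have hpt : ∀ ζ : ℂ, ‖(fcomb F N a).eval (γ ζ)‖ ^ 2
      = (‖u ζ‖ ^ 2 + ‖e ζ‖ ^ 2) + 2 * (conj (u ζ) * e ζ).re := by
    intro ζ
    rw [hdec]
    have := @norm_add_sq ℂ ℂ _ _ _ (u ζ) (e ζ)
    rw [this, RCLike.inner_apply', RCLike.re_eq_complex_re]
    ring
  have h6 : av (fun ζ => ‖(fcomb F N a).eval (γ ζ)‖ ^ 2)
      = av (fun ζ => (‖u ζ‖ ^ 2 + ‖e ζ‖ ^ 2) + 2 * (conj (u ζ) * e ζ).re) :=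
    av_congr (fun ζ _ => hpt ζ)
  rw [h6, av_add (hcu.normsq.addR hce.normsq) ((CC.const (2 : ℝ)).mulR (hcu.conj.mul hce).re),
    av_add hcu.normsq hce.normsq, av_const_mul_real, av_re (hcu.conj.mul hce), hcross,
    hu, av_normsq_invpoly, Complex.zero_re, mul_zero, add_zero]

lemma fcomb_lower (hF : FaberSystem γ F) (N : ℕ) (a : ℕ → ℂ) :
    ∑ n ∈ Finset.range (N + 1), ‖a n‖ ^ 2 ≤ av (fun ζ => ‖(fcomb F N a).eval (γ ζ)‖ ^ 2) := by
  rw [av_normsq_fcomb hF]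
  have : 0 ≤ av (fun ζ : ℂ => ‖∑ n ∈ Finset.Icc 1 N, a n * ((F n).eval (γ ζ) - ζ⁻¹ ^ n)‖ ^ 2) :=
    av_nonneg (fun z _ => by positivity)
  linarith

lemma fcomb_upper (hF : FaberSystem γ F) (N : ℕ) (a : ℕ → ℂ) :
    av (fun ζ => ‖(fcomb F N a).eval (γ ζ)‖ ^ 2)
      ≤ ‖a 0‖ ^ 2 + 2 * ∑ n ∈ Finset.Icc 1 N, ‖a n‖ ^ 2 := by
  rw [av_normsq_fcomb hF, sum_range_succ_eq_Icc]
  have := hF.contr N a
  have h2 : av (fun ζ : ℂ => ‖∑ n ∈ Finset.Icc 1 N, a n * ((F n).eval (γ ζ) - ζ⁻¹ ^ n)‖ ^ 2)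
      ≤ ∑ n ∈ Finset.Icc 1 N, ‖a n‖ ^ 2 := this
  linarith

end faber

section form

variable {E : Type*} [NormedAddCommGroup E] [InnerProductSpace ℂ E]
variable {A : E →L[ℂ] E} {γ : ℂ → ℂ} {F : ℕ → ℂ[X]}

/-- moments -/
noncomputable def sq (A : E →L[ℂ] E) (F : ℕ → ℂ[X]) (x y : E) (n : ℕ) : ℂ :=
  inner ℂ x ((aeval A (F n) : E →L[ℂ] E) y)

lemma sq_zero (hF : FaberSystem γ F) (x y : E) : sq A F x y 0 = inner ℂ x y := by
  simp [sq, hF.zero]

lemma norm_sq_le (x y : E) (n : ℕ) :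
    ‖sq A F x y n‖ ≤ ‖x‖ * ‖y‖ * ‖(aeval A (F n) : E →L[ℂ] E)‖ := by
  unfold sq
  refine (norm_inner_le_norm _ _).trans ?_
  have := ContinuousLinearMap.le_opNorm (aeval A (F n) : E →L[ℂ] E) y
  calc ‖x‖ * ‖(aeval A (F n) : E →L[ℂ] E) y‖
      ≤ ‖x‖ * (‖(aeval A (F n) : E →L[ℂ] E)‖ * ‖y‖) :=
        mul_le_mul_of_nonneg_left this (norm_nonneg _)
    _ = _ := by ring

lemma summable_sq (hA : OpPos A F) (x y : E) : Summable fun n => ‖sq A F x y n‖ :=
  Summable.of_nonneg_of_le (fun _ => norm_nonneg _) (fun n => norm_sq_le x y n)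
    (hA.summable.mul_left _)

/-- the Hermitian form `⟨x, Re C(ζ) y⟩` -/
noncomputable def hf (A : E →L[ℂ] E) (F : ℕ → ℂ[X]) (ζ : ℂ) (x y : E) : ℂ :=
  (ser (sq A F x y) ζ + conj (ser (sq A F y x) ζ)) / 2

lemma cc_hf (hA : OpPos A F) (x y : E) : CC (fun ζ => hf A F ζ x y) := by
  have h1 := CC.ser (summable_sq hA x y)
  have h2 := (CC.ser (summable_sq hA y x)).conj
  exact ContinuousOn.div_const (h1.add h2) 2

lemma av_moment (hF : FaberSystem γ F) (hA : OpPos A F) (x y : E) (hxy : inner ℂ x y = (0 : ℂ))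
    (n : ℕ) : av (fun ζ => ζ⁻¹ ^ n * (2 * hf A F ζ x y)) = sq A F x y n := by
  have h1 : av (fun ζ => ζ⁻¹ ^ n * (2 * hf A F ζ x y))
      = av (fun ζ => ζ⁻¹ ^ n * ser (sq A F x y) ζ + conj (ζ ^ n * ser (sq A F y x) ζ)) := by
    refine av_congr (fun z hz => ?_)
    rw [map_mul, conj_pow' hz, hf]
    ring
  rw [h1, av_add ((CC.invpow n).mul (CC.ser (summable_sq hA x y)))
    ((CC.pow n).mul (CC.ser (summable_sq hA y x))).conj,
    av_conj ((CC.pow n).mul (CC.ser (summable_sq hA y x))),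
    av_invpow_mul_ser (summable_sq hA x y), av_pow_mul_ser (summable_sq hA y x)]
  have h2 : sq A F y x 0 = 0 := by
    rw [sq_zero hF, ← inner_conj_symm, hxy, map_zero]
  rw [h2]
  simp

/-- Scalar key estimate. -/
lemma key_scalar (hF : FaberSystem γ F) (hA : OpPos A F) (x y : E)
    (hxy : inner ℂ x y = (0 : ℂ)) (N : ℕ) (b : ℕ → ℂ) (t : ℝ) (ht : 0 < t) :
    (∑ n ∈ Finset.range (N + 1), b n * sq A F x y n).re
      ≤ t / 2 * ∑ n ∈ Finset.range (N + 1), ‖b n‖ ^ 2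
        + 2 / t * av (fun ζ => ‖hf A F ζ x y‖ ^ 2) := by
  set u : ℂ → ℂ := fun ζ => ∑ n ∈ Finset.range (N + 1), b n * ζ⁻¹ ^ n with hu
  have hcu : CC u := CC.sum (fun n _ => (CC.invpow n).const_mul (b n))
  have hch := cc_hf hA x y
  have hch2 : CC (fun ζ => 2 * hf A F ζ x y) := hch.const_mul 2
  have h1 : ∑ n ∈ Finset.range (N + 1), b n * sq A F x y n
      = av (fun ζ => u ζ * (2 * hf A F ζ x y)) := by
    have h2 : av (fun ζ => u ζ * (2 * hf A F ζ x y))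
        = av (fun ζ => ∑ n ∈ Finset.range (N + 1), b n * (ζ⁻¹ ^ n * (2 * hf A F ζ x y))) := by
      refine av_congr (fun z _ => ?_)
      rw [hu, Finset.sum_mul]
      exact Finset.sum_congr rfl (fun n _ => by ring)
    rw [h2, av_sum (fun n _ => ((CC.invpow n).mul hch2).const_mul (b n))]
    refine Finset.sum_congr rfl (fun n _ => ?_)
    rw [av_const_mul, av_moment hF hA x y hxy]
  rw [h1, ← av_re (hcu.mul hch2), ← av_normsq_invpoly, ← av_const_mul_real, ← av_const_mul_real,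
    ← av_add ((CC.const _).mulR hcu.normsq) ((CC.const _).mulR hch.normsq)]
  refine av_mono (hcu.mul hch2).re
    (((CC.const _).mulR hcu.normsq).addR ((CC.const _).mulR hch.normsq)) (fun z _ => ?_)
  have h3 : (u z * (2 * hf A F z x y)).re ≤ ‖u z‖ * (2 * ‖hf A F z x y‖) := by
    refine (Complex.re_le_norm _).trans (le_of_eq ?_)
    rw [norm_mul, norm_mul]; simp
  refine h3.trans ?_
  have h4 : 0 ≤ (t * ‖u z‖ - 2 * ‖hf A F z x y‖) ^ 2 / (2 * t) := by positivity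
  have h5 : (t * ‖u z‖ - 2 * ‖hf A F z x y‖) ^ 2 / (2 * t)
      = t / 2 * ‖u z‖ ^ 2 + 2 / t * ‖hf A F z x y‖ ^ 2 - ‖u z‖ * (2 * ‖hf A F z x y‖) := by
    field_simp
    ring
  rw [h5] at h4
  change ‖u z‖ * (2 * ‖hf A F z x y‖) ≤ t / 2 * ‖u z‖ ^ 2 + 2 / t * ‖hf A F z x y‖ ^ 2
  linarith

/-- Parseval for the Hermitian form. -/
lemma av_normsq_hf (hF : FaberSystem γ F) (hA : OpPos A F) (x y : E) :
    av (fun ζ => ‖hf A F ζ x y‖ ^ 2)
      = ((∑' n, ‖sq A F x y n‖ ^ 2) + (∑' n, ‖sq A F y x n‖ ^ 2)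
          + 2 * ‖(inner ℂ x y : ℂ)‖ ^ 2) / 4 := by
  have hc1 := CC.ser (summable_sq hA x y)
  have hc2 := CC.ser (summable_sq hA y x)
  have h1 : av (fun ζ => ‖hf A F ζ x y‖ ^ 2)
      = av (fun ζ => (1 / 4 : ℝ) * ((‖ser (sq A F x y) ζ‖ ^ 2 + ‖ser (sq A F y x) ζ‖ ^ 2)
          + 2 * (ser (sq A F x y) ζ * ser (sq A F y x) ζ).re)) := by
    refine av_congr (fun z _ => ?_)
    have h2 := @norm_add_sq ℂ ℂ _ _ _ (conj (ser (sq A F y x) z)) (ser (sq A F x y) z)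
    rw [RCLike.inner_apply', RCLike.re_eq_complex_re] at h2
    unfold hf
    rw [norm_div, div_pow, add_comm, h2]
    simp only [Complex.norm_conj, Complex.conj_conj]
    rw [mul_comm (ser (sq A F y x) z)]
    norm_num
    ring
  rw [h1, av_const_mul_real, av_add (hc1.normsq.addR hc2.normsq)
    ((CC.const (2 : ℝ)).mulR (hc1.mul hc2).re), av_add hc1.normsq hc2.normsq, av_const_mul_real,
    av_re (hc1.mul hc2), av_ser_mul_ser (summable_sq hA x y) (summable_sq hA y x),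
    ← (av_normsq_ser (summable_sq hA x y)).tsum_eq, ← (av_normsq_ser (summable_sq hA y x)).tsum_eq,
    sq_zero hF, sq_zero hF]
  have h3 : ((inner ℂ x y : ℂ) * inner ℂ y x).re = ‖(inner ℂ x y : ℂ)‖ ^ 2 := by
    rw [← inner_conj_symm y x, Complex.mul_conj, Complex.normSq_eq_norm_sq, Complex.ofReal_re]
  rw [h3]
  ring

variable [CompleteSpace E]

/-- The operator generating function on the circle. -/
noncomputable def Cop (A : E →L[ℂ] E) (F : ℕ → ℂ[X]) (ζ : ℂ) : E →L[ℂ] E :=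
  ∑' n, ζ ^ n • (aeval A (F n) : E →L[ℂ] E)

lemma ser_sq_eq (hA : OpPos A F) {ζ : ℂ} (hζ : ‖ζ‖ = 1) (x y : E) :
    ser (sq A F x y) ζ = inner ℂ x (Cop A F ζ y) := by
  have hs : Summable fun n => ζ ^ n • (aeval A (F n) : E →L[ℂ] E) := by
    refine Summable.of_norm ?_
    simpa [norm_smul, norm_pow, hζ] using hA.summable
  have h1 : HasSum (fun n => ζ ^ n • (aeval A (F n) : E →L[ℂ] E)) (Cop A F ζ) := hs.hasSum
  have h2 := h1.mapL ((innerSL ℂ x).comp (ContinuousLinearMap.apply ℂ E y))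
  have h3 := h2.tsum_eq
  calc ser (sq A F x y) ζ
      = ∑' n, ((innerSL ℂ x).comp (ContinuousLinearMap.apply ℂ E y))
          (ζ ^ n • (aeval A (F n) : E →L[ℂ] E)) := by
        unfold ser
        refine tsum_congr (fun n => ?_)
        simp [sq]
    _ = _ := h3

lemma hf_eq (hA : OpPos A F) {ζ : ℂ} (hζ : ‖ζ‖ = 1) (x y : E) :
    hf A F ζ x y = (inner ℂ x (Cop A F ζ y) + inner ℂ (Cop A F ζ x) y) / 2 := by
  unfold hf
  rw [ser_sq_eq hA hζ, ser_sq_eq hA hζ, inner_conj_symm]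

/-- pointwise block inequality -/
lemma block_hf {m : ℕ} (hA : OpPos A F) {ζ : ℂ} (hζ : ‖ζ‖ = 1)
    (X Y : Fin m → E) :
    2 * ∑ i, ∑ j, ‖hf A F ζ (Y i) (X j)‖ ^ 2
      ≤ ∑ i, ∑ j, ‖hf A F ζ (X i) (X j)‖ ^ 2 + ∑ i, ∑ j, ‖hf A F ζ (Y i) (Y j)‖ ^ 2 := by
  set z : Fin m ⊕ Fin m → E := Sum.elim X Y with hz
  have hG : (Matrix.of (fun a b : Fin m ⊕ Fin m => hf A F ζ (z a) (z b))).PosSemidef := by
    refine Matrix.PosSemidef.of_dotProduct_mulVec_nonneg ?_ ?_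
    · ext a b
      simp only [Matrix.conjTranspose_apply, Matrix.of_apply, hf_eq hA hζ]
      change conj ((inner ℂ (z b) (Cop A F ζ (z a)) + inner ℂ (Cop A F ζ (z b)) (z a)) / 2) = _
      rw [map_div₀, map_add, inner_conj_symm, inner_conj_symm, add_comm]
      rw [map_ofNat (starRingEnd ℂ) 2]
    · intro c
      have h1 : star c ⬝ᵥ (Matrix.of (fun a b : Fin m ⊕ Fin m => hf A F ζ (z a) (z b))) *ᵥ c
          = hf A F ζ (∑ a, c a • z a) (∑ b, c b • z b) := by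
        rw [hf_eq hA hζ]
        simp only [map_sum, map_smul, inner_sum, sum_inner, inner_smul_left, inner_smul_right]
        simp only [dotProduct, Matrix.mulVec, Matrix.of_apply, hf_eq hA hζ, Pi.star_apply,
          Finset.mul_sum]
        rw [Finset.sum_comm, ← Finset.sum_add_distrib, Finset.sum_div]
        refine Finset.sum_congr rfl (fun a _ => ?_)
        rw [← Finset.sum_add_distrib, Finset.sum_div]
        refine Finset.sum_congr rfl (fun b _ => ?_)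
        simp only [RCLike.star_def]
        ring
      rw [h1]
      set w : E := ∑ a, c a • z a with hw
      have h2 : hf A F ζ w w = (((ser (sq A F w w) ζ).re : ℝ) : ℂ) := by
        unfold hf
        rw [Complex.add_conj]
        push_cast
        ring
      rw [h2]
      have h3 := hA.pos ζ hζ w
      exact_mod_cast h3
  have h := psd_block _ hG
  simpa [hz] using h

end form

end Crest.Agent.Crz
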