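import Crest.Agent.Crz.Main2

/-!
# Main inequality, part 3: the extremal pair
-/

set_option autoImplicit false

open Complex Metric Set Polynomial Matrix
open scoped Topology ComplexOrder ComplexConjugate

namespace Crest.Agent.Crz

section mat

variable {E : Type*} [NormedAddCommGroup E] [InnerProductSpace ℂ E]
variable {A : E →L[ℂ] E} {γ : ℂ → ℂ} {F : ℕ → ℂ[X]} {m : ℕ}

/-- squared L² Hilbert-Schmidt norm of a matrix polynomial on the curve -/
noncomputable def l2 (γ : ℂ → ℂ) (P : Matrix (Fin m) (Fin m) ℂ[X]) : ℝ :=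
  av (fun ζ => hs (evM P (γ ζ)))

/-- squared L² norm of the matrix of forms -/
noncomputable def zz (A : E →L[ℂ] E) (F : ℕ → ℂ[X]) (Y X : Fin m → E) : ℝ :=
  av (fun ζ => ∑ i, ∑ j, ‖hf A F ζ (Y i) (X j)‖ ^ 2)

lemma cc_hs (hF : FaberSystem γ F) (P : Matrix (Fin m) (Fin m) ℂ[X]) :
    CC (fun ζ => hs (evM P (γ ζ))) :=
  CC.sumR (fun i _ => CC.sumR (fun j _ => (cc_eval hF (P i j)).normsq))

lemma l2_eq (hF : FaberSystem γ F) (P : Matrix (Fin m) (Fin m) ℂ[X]) :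
    l2 γ P = ∑ i, ∑ j, av (fun ζ => ‖(P i j).eval (γ ζ)‖ ^ 2) := by
  have h0 : l2 γ P = av (fun ζ => ∑ i, ∑ j, ‖(P i j).eval (γ ζ)‖ ^ 2) := rfl
  rw [h0, av_sum (fun i _ => CC.sumR (fun j _ => (cc_eval hF (P i j)).normsq))]
  refine Finset.sum_congr rfl (fun i _ => ?_)
  exact av_sum (fun j _ => (cc_eval hF (P i j)).normsq)

lemma zz_eq (hA : OpPos A F) (Y X : Fin m → E) :
    zz A F Y X = ∑ i, ∑ j, av (fun ζ => ‖hf A F ζ (Y i) (X j)‖ ^ 2) := by
  unfold zz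
  rw [av_sum (fun i _ => CC.sumR (fun j _ => (cc_hf hA (Y i) (X j)).normsq))]
  refine Finset.sum_congr rfl (fun i _ => ?_)
  exact av_sum (fun j _ => (cc_hf hA (Y i) (X j)).normsq)

lemma zz_nonneg (Y X : Fin m → E) : 0 ≤ zz A F Y X :=
  av_nonneg (fun _ _ => Finset.sum_nonneg (fun _ _ => Finset.sum_nonneg (fun _ _ => by positivity)))

lemma l2_nonneg (P : Matrix (Fin m) (Fin m) ℂ[X]) : 0 ≤ l2 γ P :=
  av_nonneg (fun _ _ => hs_nonneg _)

/-- the unit ball of matrix polynomials -/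
def Cls (γ : ℂ → ℂ) (m : ℕ) : Set (Matrix (Fin m) (Fin m) ℂ[X]) :=
  {P | ∀ ζ : ℂ, ‖ζ‖ = 1 → evNorm P (γ ζ) ≤ 1}

lemma l2_mul_left (hF : FaberSystem γ F) {P : Matrix (Fin m) (Fin m) ℂ[X]} (hP : P ∈ Cls γ m)
    (Φ : Matrix (Fin m) (Fin m) ℂ[X]) : l2 γ (P * Φ) ≤ l2 γ Φ := by
  refine av_mono (cc_hs hF _) (cc_hs hF _) (fun z hz => ?_)
  rw [evM_mul]
  exact hs_mul_le_left _ _ (hP z hz)

lemma l2_mul_right (hF : FaberSystem γ F) {P : Matrix (Fin m) (Fin m) ℂ[X]} (hP : P ∈ Cls γ m)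
    (Φ : Matrix (Fin m) (Fin m) ℂ[X]) : l2 γ (Φ * P) ≤ l2 γ Φ := by
  refine av_mono (cc_hs hF _) (cc_hs hF _) (fun z hz => ?_)
  rw [evM_mul]
  exact hs_mul_le_right _ _ (hP z hz)

lemma exists_fcomb (hF : FaberSystem γ F) (P : Matrix (Fin m) (Fin m) ℂ[X]) :
    ∃ (N : ℕ) (a : Fin m → Fin m → ℕ → ℂ), ∀ i j, P i j = fcomb F N (a i j) := by
  set N : ℕ := ∑ i, ∑ j, (P i j).natDegree with hN
  have h : ∀ i j, (P i j).natDegree ≤ N := by
    intro i j
    rw [hN]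
    refine le_trans ?_ (Finset.single_le_sum
      (f := fun i => ∑ j, (P i j).natDegree) (fun _ _ => Nat.zero_le _) (Finset.mem_univ i))
    exact Finset.single_le_sum (f := fun j => (P i j).natDegree) (fun _ _ => Nat.zero_le _)
      (Finset.mem_univ j)
  choose a ha using fun i j => hF.span N (P i j) (h i j)
  exact ⟨N, a, ha⟩

lemma aeval_fcomb (N : ℕ) (a : ℕ → ℂ) :
    (aeval A (fcomb F N a) : E →L[ℂ] E)
      = ∑ n ∈ Finset.range (N + 1), a n • (aeval A (F n) : E →L[ℂ] E) := by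
  unfold fcomb
  rw [map_sum]
  refine Finset.sum_congr rfl (fun n _ => ?_)
  rw [map_mul, aeval_C, Algebra.algebraMap_eq_smul_one, smul_mul_assoc, one_mul]

lemma inner_fcomb (N : ℕ) (a : ℕ → ℂ) (x y : E) :
    inner ℂ x ((aeval A (fcomb F N a) : E →L[ℂ] E) y)
      = ∑ n ∈ Finset.range (N + 1), a n * sq A F x y n := by
  rw [aeval_fcomb, _root_.sum_apply, inner_sum]
  refine Finset.sum_congr rfl (fun n _ => ?_)
  rw [_root_.smul_apply, inner_smul_right]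
  rfl

lemma inner_opAct (P : Matrix (Fin m) (Fin m) ℂ[X]) (X Y : PiLp 2 (fun _ : Fin m => E)) :
    inner ℂ Y (opAct A P X) = ∑ i, ∑ j, inner ℂ (Y i) ((aeval A (P i j) : E →L[ℂ] E) (X j)) := by
  rw [PiLp.inner_apply]
  refine Finset.sum_congr rfl (fun i _ => ?_)
  rw [opAct_apply, inner_sum]

/-- Key estimate for matrix polynomials. -/
lemma key_matrix (hF : FaberSystem γ F) (hA : OpPos A F)
    (P : Matrix (Fin m) (Fin m) ℂ[X]) (X Y : PiLp 2 (fun _ : Fin m => E))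
    (hXY : ∀ i j, inner ℂ (Y i) (X j) = (0 : ℂ)) (t : ℝ) (ht : 0 < t) :
    (inner ℂ Y (opAct A P X)).re ≤ t / 2 * l2 γ P + 2 / t * zz A F Y X := by
  obtain ⟨N, a, ha⟩ := exists_fcomb hF P
  rw [inner_opAct, l2_eq hF, zz_eq hA, Finset.mul_sum, Finset.mul_sum, ← Finset.sum_add_distrib,
    Complex.re_sum]
  refine Finset.sum_le_sum (fun i _ => ?_)
  rw [Finset.mul_sum, Finset.mul_sum, ← Finset.sum_add_distrib, Complex.re_sum]
  refine Finset.sum_le_sum (fun j _ => ?_)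
  rw [ha i j, inner_fcomb]
  refine (key_scalar hF hA (Y i) (X j) (hXY i j) N (a i j) t ht).trans ?_
  have := fcomb_lower hF N (a i j)
  have h2 : t / 2 * ∑ n ∈ Finset.range (N + 1), ‖a i j n‖ ^ 2
      ≤ t / 2 * av (fun ζ => ‖(fcomb F N (a i j)).eval (γ ζ)‖ ^ 2) :=
    mul_le_mul_of_nonneg_left this (by positivity)
  linarith

/-- partial sums of the squared norm of the density -/
noncomputable def SN (A : E →L[ℂ] E) (F : ℕ → ℂ[X]) (X : Fin m → E) (N : ℕ) : ℝ :=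
  ∑ i, ∑ j, (1 / 2 : ℝ) * (‖sq A F (X i) (X j) 0‖ ^ 2
    + ∑ n ∈ Finset.range (N + 1), ‖sq A F (X i) (X j) n‖ ^ 2)

/-- the coefficients of the test function -/
noncomputable def tcoef (A : E →L[ℂ] E) (F : ℕ → ℂ[X]) (x y : E) (n : ℕ) : ℂ :=
  if n = 0 then conj (sq A F x y 0) else conj (sq A F x y n) / 2

/-- the test function -/
noncomputable def testP (A : E →L[ℂ] E) (F : ℕ → ℂ[X]) (X : Fin m → E) (N : ℕ) :
    Matrix (Fin m) (Fin m) ℂ[X] :=
  Matrix.of fun i j => fcomb F N (tcoef A F (X i) (X j))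

lemma inner_testP (X : PiLp 2 (fun _ : Fin m => E)) (N : ℕ) :
    inner ℂ X (opAct A (testP A F X N) X) = ((SN A F X N : ℝ) : ℂ) := by
  rw [inner_opAct]
  unfold SN testP
  push_cast
  refine Finset.sum_congr rfl (fun i _ => Finset.sum_congr rfl (fun j _ => ?_))
  rw [Matrix.of_apply, inner_fcomb, sum_range_succ_eq_Icc, sum_range_succ_eq_Icc]
  have h1 : ∀ n ∈ Finset.Icc 1 N, tcoef A F (X i) (X j) n * sq A F (X i) (X j) n
      = (1 / 2 : ℂ) * (‖sq A F (X i) (X j) n‖ : ℂ) ^ 2 := by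
    intro n hn
    have : n ≠ 0 := by have := (Finset.mem_Icc.mp hn).1; omega
    unfold tcoef
    rw [if_neg this]
    have := Complex.mul_conj (sq A F (X i) (X j) n)
    rw [Complex.normSq_eq_norm_sq] at this
    push_cast at this
    rw [← this]
    ring
  rw [Finset.sum_congr rfl h1, ← Finset.mul_sum]
  have h0 : tcoef A F (X i) (X j) 0 * sq A F (X i) (X j) 0 = (‖sq A F (X i) (X j) 0‖ : ℂ) ^ 2 := by
    unfold tcoef
    rw [if_pos rfl]
    have := Complex.mul_conj (sq A F (X i) (X j) 0)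
    rw [Complex.normSq_eq_norm_sq] at this
    push_cast at this
    rw [← this]
    ring
  rw [h0]
  ring

lemma l2_testP (hF : FaberSystem γ F) (X : Fin m → E) (N : ℕ) :
    l2 γ (testP A F X N) ≤ SN A F X N := by
  rw [l2_eq hF]
  unfold SN testP
  refine Finset.sum_le_sum (fun i _ => Finset.sum_le_sum (fun j _ => ?_))
  rw [Matrix.of_apply]
  refine (fcomb_upper hF N _).trans (le_of_eq ?_)
  rw [sum_range_succ_eq_Icc]
  have h1 : ∀ n ∈ Finset.Icc 1 N, ‖tcoef A F (X i) (X j) n‖ ^ 2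
      = (1 / 4 : ℝ) * ‖sq A F (X i) (X j) n‖ ^ 2 := by
    intro n hn
    have : n ≠ 0 := by have := (Finset.mem_Icc.mp hn).1; omega
    unfold tcoef
    rw [if_neg this, norm_div, div_pow, Complex.norm_conj]
    norm_num
    ring
  rw [Finset.sum_congr rfl h1, ← Finset.mul_sum]
  have h0 : ‖tcoef A F (X i) (X j) 0‖ ^ 2 = ‖sq A F (X i) (X j) 0‖ ^ 2 := by
    unfold tcoef
    rw [if_pos rfl, Complex.norm_conj]
  rw [h0]
  ring

lemma summable_sq_sq (hA : OpPos A F) (x y : E) : Summable fun n => ‖sq A F x y n‖ ^ 2 :=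
  (av_normsq_ser (summable_sq hA x y)).summable

lemma tendsto_SN (hF : FaberSystem γ F) (hA : OpPos A F) (X : Fin m → E) :
    Filter.Tendsto (fun N => SN A F X N) Filter.atTop (𝓝 (zz A F X X)) := by
  have h1 : zz A F X X = ∑ i, ∑ j, (1 / 2 : ℝ) * (‖sq A F (X i) (X j) 0‖ ^ 2
      + ∑' n, ‖sq A F (X i) (X j) n‖ ^ 2) := by
    rw [zz_eq hA]
    have h2 : ∀ i j, av (fun ζ => ‖hf A F ζ (X i) (X j)‖ ^ 2)
        = (1 / 4 : ℝ) * (∑' n, ‖sq A F (X i) (X j) n‖ ^ 2)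
          + (1 / 4 : ℝ) * (∑' n, ‖sq A F (X j) (X i) n‖ ^ 2)
          + (1 / 2 : ℝ) * ‖sq A F (X i) (X j) 0‖ ^ 2 := by
      intro i j
      rw [av_normsq_hf hF hA, sq_zero hF]
      ring
    simp only [h2, Finset.sum_add_distrib]
    rw [Finset.sum_comm (f := fun i j => (1 / 4 : ℝ) * (∑' n, ‖sq A F (X j) (X i) n‖ ^ 2))]
    simp only [mul_add, Finset.sum_add_distrib, ← Finset.mul_sum]
    ring
  rw [h1]
  unfold SN
  refine tendsto_finsetSum _ (fun i _ => tendsto_finsetSum _ (fun j _ => ?_))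
  refine Filter.Tendsto.const_mul _ (Filter.Tendsto.const_add _ ?_)
  exact (Filter.tendsto_add_atTop_iff_nat 1).mpr
    (summable_sq_sq hA (X i) (X j)).hasSum.tendsto_sum_nat

lemma zz_pos (hF : FaberSystem γ F) (hA : OpPos A F) (X : PiLp 2 (fun _ : Fin m => E))
    (hX : ‖X‖ = 1) : 0 < zz A F X X := by
  have hex : ∃ i, X i ≠ 0 := by
    by_contra h
    push Not at h
    have : X = 0 := by ext i; simp [h i]
    rw [this] at hX
    simp at hX
  obtain ⟨i, hi⟩ := hex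
  rw [zz_eq hA]
  have hnn : ∀ k l, 0 ≤ av (fun ζ => ‖hf A F ζ (X k) (X l)‖ ^ 2) :=
    fun k l => av_nonneg (fun _ _ => by positivity)
  have h1 : 0 < av (fun ζ => ‖hf A F ζ (X i) (X i)‖ ^ 2) := by
    rw [av_normsq_hf hF hA]
    have h2 : 0 < ‖(inner ℂ (X i) (X i) : ℂ)‖ := by
      rw [norm_pos_iff]
      exact inner_self_ne_zero.mpr hi
    have h3 : 0 ≤ ∑' n, ‖sq A F (X i) (X i) n‖ ^ 2 := tsum_nonneg (fun _ => by positivity)
    positivity
  refine lt_of_lt_of_le h1 ?_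
  refine le_trans ?_ (Finset.single_le_sum
    (f := fun k => ∑ l, av (fun ζ => ‖hf A F ζ (X k) (X l)‖ ^ 2))
    (fun k _ => Finset.sum_nonneg (fun l _ => hnn k l)) (Finset.mem_univ i))
  exact Finset.single_le_sum (f := fun l => av (fun ζ => ‖hf A F ζ (X i) (X l)‖ ^ 2))
    (fun l _ => hnn i l) (Finset.mem_univ i)

lemma zz_block [CompleteSpace E] (hA : OpPos A F) (X Y : Fin m → E) :
    2 * zz A F Y X ≤ zz A F X X + zz A F Y Y := by
  have hc : ∀ (U V : Fin m → E), CC (fun ζ => ∑ i, ∑ j, ‖hf A F ζ (U i) (V j)‖ ^ 2) :=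
    fun U V => CC.sumR (fun i _ => CC.sumR (fun j _ => (cc_hf hA (U i) (V j)).normsq))
  unfold zz
  rw [← av_const_mul_real, ← av_add (hc X X) (hc Y Y)]
  exact av_mono ((CC.const (2 : ℝ)).mulR (hc Y X)) ((hc X X).addR (hc Y Y))
    (fun z hz => block_hf hA hz X Y)

end mat

end Crest.Agent.Crz
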