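import Crest.Agent.Crz.Main3

/-!
# Main inequality, part 4: compactness, the extremal pair and the constant 2
-/

set_option autoImplicit false

open Complex Metric Set Polynomial Matrix
open scoped Topology ComplexOrder ComplexConjugate

namespace Crest.Agent.Crz

section

variable {E : Type*} [NormedAddCommGroup E] [InnerProductSpace ℂ E] [FiniteDimensional ℂ E]
variable {A : E →L[ℂ] E} {γ : ℂ → ℂ} {F : ℕ → ℂ[X]} {m : ℕ}

/-- the norm of a vector of `E^m` is at most the sum of the norms. -/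
lemma norm_le_sum_norm {G : Type*} [NormedAddCommGroup G] (v : PiLp 2 (fun _ : Fin m => G)) :
    ‖v‖ ≤ ∑ i, ‖v i‖ := by
  have h1 : ‖v‖ ^ 2 ≤ (∑ i, ‖v i‖) ^ 2 := by
    rw [PiLp.norm_sq_eq_of_L2]
    exact Finset.sum_sq_le_sq_sum_of_nonneg (fun i _ => norm_nonneg _)
  exact (abs_le_of_sq_le_sq' h1 (Finset.sum_nonneg (fun i _ => norm_nonneg _))).2

lemma norm_coord_le {G : Type*} [NormedAddCommGroup G] (v : PiLp 2 (fun _ : Fin m => G))
    (i : Fin m) : ‖v i‖ ≤ ‖v‖ := PiLp.norm_apply_le v i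

lemma opL_bdd (hF : FaberSystem γ F) (hA : OpPos A F) :
    ∃ R : ℝ, ∀ P ∈ Cls γ m, ‖opL A P‖ ≤ R := by
  set S : ℝ := ∑' n, ‖(aeval A (F n) : E →L[ℂ] E)‖ with hS
  have hS0 : 0 ≤ S := tsum_nonneg (fun _ => norm_nonneg _)
  refine ⟨∑ _i : Fin m, ∑ _j : Fin m, (Real.sqrt m * S), fun P hP => ?_⟩
  obtain ⟨N, a, ha⟩ := exists_fcomb hF P
  have hcoef : ∀ i j n, n ∈ Finset.range (N + 1) → ‖a i j n‖ ≤ Real.sqrt m := by
    intro i j n hn
    refine Real.le_sqrt_of_sq_le ?_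
    have h1 : ‖a i j n‖ ^ 2 ≤ ∑ n ∈ Finset.range (N + 1), ‖a i j n‖ ^ 2 :=
      Finset.single_le_sum (f := fun n => ‖a i j n‖ ^ 2) (fun _ _ => by positivity) hn
    refine h1.trans ((fcomb_lower hF N (a i j)).trans ?_)
    rw [← ha i j]
    have h2 : av (fun _ : ℂ => (m : ℝ)) = m := av_const _
    rw [← h2]
    refine av_mono (cc_eval hF _).normsq (CC.const _) (fun z hz => ?_)
    have h3 := hs_le_card (evM P (γ z)) (hP z hz)
    refine le_trans ?_ h3
    have h4 : ‖(P i j).eval (γ z)‖ ^ 2 ≤ ∑ l, ‖evM P (γ z) i l‖ ^ 2 :=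
      Finset.single_le_sum (f := fun l => ‖evM P (γ z) i l‖ ^ 2) (fun _ _ => by positivity)
        (Finset.mem_univ j)
    refine h4.trans ?_
    exact Finset.single_le_sum (f := fun k => ∑ l, ‖evM P (γ z) k l‖ ^ 2)
      (fun _ _ => Finset.sum_nonneg (fun _ _ => by positivity)) (Finset.mem_univ i)
  have hent : ∀ i j, ‖(aeval A (P i j) : E →L[ℂ] E)‖ ≤ Real.sqrt m * S := by
    intro i j
    rw [ha i j, aeval_fcomb]
    refine (norm_sum_le _ _).trans ?_
    calc ∑ n ∈ Finset.range (N + 1), ‖a i j n • (aeval A (F n) : E →L[ℂ] E)‖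
        ≤ ∑ n ∈ Finset.range (N + 1), Real.sqrt m * ‖(aeval A (F n) : E →L[ℂ] E)‖ := by
          refine Finset.sum_le_sum (fun n hn => ?_)
          rw [norm_smul]
          exact mul_le_mul_of_nonneg_right (hcoef i j n hn) (norm_nonneg _)
      _ = Real.sqrt m * ∑ n ∈ Finset.range (N + 1), ‖(aeval A (F n) : E →L[ℂ] E)‖ := by
          rw [Finset.mul_sum]
      _ ≤ Real.sqrt m * S := by
          refine mul_le_mul_of_nonneg_left ?_ (Real.sqrt_nonneg _)
          exact hA.summable.sum_le_tsum _ (fun _ _ => norm_nonneg _)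
  refine ContinuousLinearMap.opNorm_le_bound _
    (Finset.sum_nonneg (fun _ _ => Finset.sum_nonneg (fun _ _ => by positivity))) (fun v => ?_)
  refine (norm_le_sum_norm _).trans ?_
  rw [Finset.sum_mul]
  refine Finset.sum_le_sum (fun i _ => ?_)
  rw [opL_apply, opAct_apply, Finset.sum_mul]
  refine (norm_sum_le _ _).trans (Finset.sum_le_sum (fun j _ => ?_))
  calc ‖(aeval A (P i j) : E →L[ℂ] E) (v j)‖
      ≤ ‖(aeval A (P i j) : E →L[ℂ] E)‖ * ‖v j‖ := ContinuousLinearMap.le_opNorm _ _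
    _ ≤ (Real.sqrt m * S) * ‖v‖ :=
        mul_le_mul (hent i j) (norm_coord_le v j) (norm_nonneg _) (by positivity)

/-- norm attaining vectors in finite dimension -/
lemma exists_norm_attained {W : Type*} [NormedAddCommGroup W] [NormedSpace ℂ W]
    [FiniteDimensional ℂ W] (T : W →L[ℂ] W) (hT : 0 < ‖T‖) :
    ∃ X : W, ‖X‖ = 1 ∧ ‖T X‖ = ‖T‖ := by
  have : ProperSpace W := FiniteDimensional.proper ℂ W
  have hne : ∃ w : W, w ≠ 0 := by
    by_contra h
    push Not at h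
    have : T = 0 := by ext w; rw [h w]; simp
    rw [this] at hT
    simp at hT
  obtain ⟨w, hw⟩ := hne
  have hsph : (sphere (0 : W) 1).Nonempty := by
    refine ⟨((‖w‖⁻¹ : ℝ) : ℂ) • w, ?_⟩
    rw [mem_sphere_zero_iff_norm, norm_smul]
    have : ‖w‖ ≠ 0 := norm_ne_zero_iff.mpr hw
    simp [this]
  obtain ⟨X, hX, hmax⟩ := (isCompact_sphere (0 : W) 1).exists_isMaxOn hsph
    (T.continuous.norm.continuousOn)
  have hX1 : ‖X‖ = 1 := by simpa using hX
  refine ⟨X, hX1, le_antisymm ?_ ?_⟩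
  · simpa [hX1] using T.le_opNorm X
  · refine ContinuousLinearMap.opNorm_le_bound _ (norm_nonneg _) (fun v => ?_)
    by_cases hv : v = 0
    · simp [hv]
    have hv' : ‖v‖ ≠ 0 := norm_ne_zero_iff.mpr hv
    have h1 : (((‖v‖⁻¹ : ℝ) : ℂ) • v) ∈ sphere (0 : W) 1 := by
      rw [mem_sphere_zero_iff_norm, norm_smul]
      simp [hv']
    have h2 : ‖T (((‖v‖⁻¹ : ℝ) : ℂ) • v)‖ ≤ ‖T X‖ := hmax h1
    rw [map_smul, norm_smul] at h2
    have h3 : ‖((‖v‖⁻¹ : ℝ) : ℂ)‖ = ‖v‖⁻¹ := by simp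
    rw [h3, inv_mul_le_iff₀ (lt_of_le_of_ne (norm_nonneg _) (Ne.symm hv'))] at h2
    linarith [mul_comm ‖v‖ ‖T X‖]

/-- variation inside the class -/
lemma variation_mem (B : Matrix (Fin m) (Fin m) ℂ)
    (hB : ‖Matrix.toEuclideanCLM (n := Fin m) (𝕜 := ℂ) B‖ ≤ 1) (ε : ℝ) (hε : 0 ≤ ε)
    {P : Matrix (Fin m) (Fin m) ℂ[X]} (hP : P ∈ Cls γ m) :
    (((Real.sqrt (1 + 4 * ε ^ 2))⁻¹ : ℝ) : ℂ) • (P - (ε : ℂ) •
      (B.map (fun c => (C c : ℂ[X])) - P * Bᴴ.map (fun c => (C c : ℂ[X])) * P)) ∈ Cls γ m := by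
  intro ζ hζ
  have h1 := variation_bound_matrix (evM P (γ ζ)) B (hP ζ hζ) hB ε hε
  set s : ℝ := Real.sqrt (1 + 4 * ε ^ 2) with hs
  have hspos : 0 < s := Real.sqrt_pos.mpr (by positivity)
  change ‖Matrix.toEuclideanCLM (n := Fin m) (𝕜 := ℂ) (evM _ (γ ζ))‖ ≤ 1
  rw [evM_smul, evM_sub, evM_smul, evM_sub, evM_mul, evM_mul, evM_const, evM_const, map_smul,
    norm_smul]
  have h2 : ‖(((s⁻¹ : ℝ)) : ℂ)‖ = s⁻¹ := by
    rw [Complex.norm_real, Real.norm_of_nonneg (inv_nonneg.mpr hspos.le)]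
  rw [h2]
  calc s⁻¹ * _ ≤ s⁻¹ * s := mul_le_mul_of_nonneg_left h1 (inv_nonneg.mpr hspos.le)
    _ = 1 := inv_mul_cancel₀ hspos.ne'

/-- the compact set of values -/
noncomputable def Vals (A : E →L[ℂ] E) (γ : ℂ → ℂ) (m : ℕ) :
    Set (PiLp 2 (fun _ : Fin m => E) →L[ℂ] PiLp 2 (fun _ : Fin m => E)) :=
  closure (opL A '' Cls γ m)

lemma norm_variation_le (K : ℝ) (hK : ∀ T ∈ Vals A γ m, ‖T‖ ≤ K)
    (B : Matrix (Fin m) (Fin m) ℂ)
    (hB : ‖Matrix.toEuclideanCLM (n := Fin m) (𝕜 := ℂ) B‖ ≤ 1) (ε : ℝ) (hε : 0 ≤ ε)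
    (T : PiLp 2 (fun _ : Fin m => E) →L[ℂ] PiLp 2 (fun _ : Fin m => E)) (hT : T ∈ Vals A γ m) :
    ‖T - (ε : ℂ) • (opL A (B.map (fun c => (C c : ℂ[X])))
      - (T ∘L opL A (Bᴴ.map (fun c => (C c : ℂ[X])))) ∘L T)‖ ≤ K * Real.sqrt (1 + 4 * ε ^ 2) := by
  have hclosed : IsClosed {T : PiLp 2 (fun _ : Fin m => E) →L[ℂ] PiLp 2 (fun _ : Fin m => E) |
      ‖T - (ε : ℂ) • (opL A (B.map (fun c => (C c : ℂ[X])))
      - (T ∘L opL A (Bᴴ.map (fun c => (C c : ℂ[X])))) ∘L T)‖ ≤ K * Real.sqrt (1 + 4 * ε ^ 2)} := by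
    refine isClosed_le (Continuous.norm ?_) continuous_const
    have h1 : Continuous fun T : PiLp 2 (fun _ : Fin m => E) →L[ℂ] PiLp 2 (fun _ : Fin m => E) =>
        (T ∘L opL A (Bᴴ.map (fun c => (C c : ℂ[X])))) ∘L T :=
      (continuous_id.clm_comp continuous_const).clm_comp continuous_id
    have h2 : Continuous fun T : PiLp 2 (fun _ : Fin m => E) →L[ℂ] PiLp 2 (fun _ : Fin m => E) =>
        (ε : ℂ) • (opL A (B.map (fun c => (C c : ℂ[X])))
          - (T ∘L opL A (Bᴴ.map (fun c => (C c : ℂ[X])))) ∘L T) :=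
      (continuous_const.sub h1).const_smul (ε : ℂ)
    exact continuous_id.sub h2
  refine closure_minimal ?_ hclosed hT
  rintro _ ⟨P, hP, rfl⟩
  have h1 := variation_mem (γ := γ) B hB ε hε hP
  have h2 := hK _ (subset_closure (Set.mem_image_of_mem (opL A) h1))
  set s : ℝ := Real.sqrt (1 + 4 * ε ^ 2) with hs
  have hspos : 0 < s := Real.sqrt_pos.mpr (by positivity)
  rw [opL_smul, norm_smul, opL_sub, opL_smul, opL_sub, opL_mul, opL_mul, Complex.norm_real,
    Real.norm_of_nonneg (inv_nonneg.mpr hspos.le), inv_mul_le_iff₀ hspos] at h2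
  change ‖_‖ ≤ K * s
  linarith [mul_comm s K]

/-- key estimate on the closure, multiplication from the left -/
lemma key_closure_left (hF : FaberSystem γ F) (hA : OpPos A F)
    (Φ : Matrix (Fin m) (Fin m) ℂ[X]) (X Y : PiLp 2 (fun _ : Fin m => E))
    (hXY : ∀ i j, inner ℂ (Y i) (X j) = (0 : ℂ)) (t : ℝ) (ht : 0 < t)
    (T : PiLp 2 (fun _ : Fin m => E) →L[ℂ] PiLp 2 (fun _ : Fin m => E)) (hT : T ∈ Vals A γ m) :
    (inner ℂ Y (T (opAct A Φ X))).re ≤ t / 2 * l2 γ Φ + 2 / t * zz A F Y X := by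
  have hclosed : IsClosed {T : PiLp 2 (fun _ : Fin m => E) →L[ℂ] PiLp 2 (fun _ : Fin m => E) |
      (inner ℂ Y (T (opAct A Φ X))).re ≤ t / 2 * l2 γ Φ + 2 / t * zz A F Y X} := by
    refine isClosed_le (Complex.continuous_re.comp ?_) continuous_const
    exact Continuous.inner continuous_const (continuous_id.clm_apply continuous_const)
  refine closure_minimal ?_ hclosed hT
  rintro _ ⟨P, hP, rfl⟩
  have h1 := key_matrix hF hA (P * Φ) X Y hXY t ht
  have h2 := l2_mul_left hF hP Φ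
  have h3 : opL A P (opAct A Φ X) = opAct A (P * Φ) X := by
    rw [← opL_apply A (P * Φ), opL_mul]; rfl
  change (inner ℂ Y (opL A P (opAct A Φ X))).re ≤ _
  rw [h3]
  have h4 : t / 2 * l2 γ (P * Φ) ≤ t / 2 * l2 γ Φ := mul_le_mul_of_nonneg_left h2 (by positivity)
  linarith

/-- key estimate on the closure, multiplication from the right -/
lemma key_closure_right (hF : FaberSystem γ F) (hA : OpPos A F)
    (Φ : Matrix (Fin m) (Fin m) ℂ[X]) (X Y : PiLp 2 (fun _ : Fin m => E))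
    (hXY : ∀ i j, inner ℂ (Y i) (X j) = (0 : ℂ)) (t : ℝ) (ht : 0 < t)
    (T : PiLp 2 (fun _ : Fin m => E) →L[ℂ] PiLp 2 (fun _ : Fin m => E)) (hT : T ∈ Vals A γ m) :
    (inner ℂ Y (opL A Φ (T X))).re ≤ t / 2 * l2 γ Φ + 2 / t * zz A F Y X := by
  have hclosed : IsClosed {T : PiLp 2 (fun _ : Fin m => E) →L[ℂ] PiLp 2 (fun _ : Fin m => E) |
      (inner ℂ Y (opL A Φ (T X))).re ≤ t / 2 * l2 γ Φ + 2 / t * zz A F Y X} := by
    refine isClosed_le (Complex.continuous_re.comp ?_) continuous_const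
    exact Continuous.inner continuous_const
      ((opL A Φ).continuous.comp (continuous_id.clm_apply continuous_const))
  refine closure_minimal ?_ hclosed hT
  rintro _ ⟨P, hP, rfl⟩
  have h1 := key_matrix hF hA (Φ * P) X Y hXY t ht
  have h2 := l2_mul_right hF hP Φ
  have h3 : opL A Φ (opL A P X) = opAct A (Φ * P) X := by
    rw [← opL_apply A (Φ * P), opL_mul]; rfl
  change (inner ℂ Y (opL A Φ (opL A P X))).re ≤ _
  rw [h3]
  have h4 : t / 2 * l2 γ (Φ * P) ≤ t / 2 * l2 γ Φ := mul_le_mul_of_nonneg_left h2 (by positivity)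
  linarith

lemma norm_single_le (i j : Fin m) (b : ℂ) (hb : ‖b‖ ≤ 1) :
    ‖Matrix.toEuclideanCLM (n := Fin m) (𝕜 := ℂ) (Matrix.single i j b)‖ ≤ 1 := by
  refine ContinuousLinearMap.opNorm_le_bound _ zero_le_one (fun w => ?_)
  have h1 : Matrix.toEuclideanCLM (n := Fin m) (𝕜 := ℂ) (Matrix.single i j b) w
      = EuclideanSpace.single i (b * w j) := by
    ext k
    rw [Matrix.ofLp_toEuclideanCLM]
    simp only [Matrix.mulVec, dotProduct, Matrix.single_apply, PiLp.single_apply]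
    by_cases hk : k = i
    · subst hk
      simp
    · have hk' : ¬ i = k := fun h => hk h.symm
      simp [hk, hk']
  rw [h1, PiLp.norm_single, norm_mul, one_mul]
  calc ‖b‖ * ‖w j‖ ≤ 1 * ‖w j‖ := mul_le_mul_of_nonneg_right hb (norm_nonneg _)
    _ = ‖w j‖ := one_mul _
    _ ≤ ‖w‖ := norm_coord_le w j

/-- The extremal norm is at most 2. -/
theorem norm_opL_le_two (hF : FaberSystem γ F) (hA : OpPos A F)
    (P : Matrix (Fin m) (Fin m) ℂ[X]) (hP : P ∈ Cls γ m) : ‖opL A P‖ ≤ 2 := by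
  classical
  have hfd : FiniteDimensional ℂ
      (PiLp 2 (fun _ : Fin m => E) →L[ℂ] PiLp 2 (fun _ : Fin m => E)) := inferInstance
  have : ProperSpace (PiLp 2 (fun _ : Fin m => E) →L[ℂ] PiLp 2 (fun _ : Fin m => E)) :=
    FiniteDimensional.proper ℂ _
  obtain ⟨R, hR⟩ := opL_bdd (m := m) hF hA
  have hcomp : IsCompact (Vals A γ m) := by
    refine Metric.isCompact_of_isClosed_isBounded isClosed_closure ?_
    refine Bornology.IsBounded.closure ?_
    refine (isBounded_iff_forall_norm_le).mpr ⟨R, ?_⟩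
    rintro _ ⟨Q, hQ, rfl⟩
    exact hR Q hQ
  have hmem : opL A P ∈ Vals A γ m := subset_closure (Set.mem_image_of_mem _ hP)
  obtain ⟨T, hT, hmax⟩ := hcomp.exists_isMaxOn ⟨_, hmem⟩ continuous_norm.continuousOn
  have hmax' : ∀ S ∈ Vals A γ m, ‖S‖ ≤ ‖T‖ := fun S hS => hmax hS
  refine (hmax' _ hmem).trans ?_
  by_contra hcon
  push Not at hcon
  set K : ℝ := ‖T‖ with hKdef
  have hK0 : 0 < K := by linarith
  obtain ⟨X, hX1, hTX⟩ := exists_norm_attained T hK0
  set Y : PiLp 2 (fun _ : Fin m => E) := ((K⁻¹ : ℝ) : ℂ) • T X with hY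
  have hTXY : T X = (K : ℂ) • Y := by
    rw [hY, smul_smul, ← Complex.ofReal_mul, mul_inv_cancel₀ hK0.ne', Complex.ofReal_one, one_smul]
  have hY1 : ‖Y‖ = 1 := by
    rw [hY, norm_smul, Complex.norm_real, Real.norm_of_nonneg (inv_nonneg.mpr hK0.le), hTX,
      inv_mul_cancel₀ hK0.ne']
  -- the adjoint relation
  have hadj : (ContinuousLinearMap.adjoint T) Y = (K : ℂ) • X := by
    have h1 : ‖(ContinuousLinearMap.adjoint T) Y‖ ≤ K := by
      have := (ContinuousLinearMap.adjoint T).le_opNorm Y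
      rw [hY1, mul_one, LinearIsometryEquiv.norm_map] at this
      exact this
    have h2 : inner ℂ ((ContinuousLinearMap.adjoint T) Y) X = (K : ℂ) := by
      rw [ContinuousLinearMap.adjoint_inner_left, hTXY, inner_smul_right,
        inner_self_eq_norm_sq_to_K, hY1]
      simp
    have h3 : ‖(ContinuousLinearMap.adjoint T) Y - (K : ℂ) • X‖ ^ 2 ≤ 0 := by
      rw [@norm_sub_sq ℂ, inner_smul_right, h2, norm_smul, hX1, RCLike.re_eq_complex_re,
        Complex.re_ofReal_mul, Complex.ofReal_re, Complex.norm_real, Real.norm_of_nonneg hK0.le]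
      have h4 : ‖(ContinuousLinearMap.adjoint T) Y‖ ^ 2 ≤ K ^ 2 :=
        pow_le_pow_left₀ (norm_nonneg _) h1 2
      nlinarith
    have h5 : ‖(ContinuousLinearMap.adjoint T) Y - (K : ℂ) • X‖ = 0 := by
      have := norm_nonneg ((ContinuousLinearMap.adjoint T) Y - (K : ℂ) • X)
      nlinarith
    exact sub_eq_zero.mp (norm_eq_zero.mp h5)
  -- orthogonality
  have horth0 : ∀ B : Matrix (Fin m) (Fin m) ℂ,
      ‖Matrix.toEuclideanCLM (n := Fin m) (𝕜 := ℂ) B‖ ≤ 1 →
      (inner ℂ Y (opL A (B.map (fun c => (C c : ℂ[X]))) X)).re ≤ 0 := by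
    intro B hB
    set β : ℂ := inner ℂ Y (opL A (B.map (fun c => (C c : ℂ[X]))) X) with hβ
    by_contra hpos
    push Not at hpos
    -- the inequality for all ε > 0
    have hineq : ∀ ε : ℝ, 0 < ε → (K ^ 2 - 1) * β.re ≤ 2 * K * ε := by
      intro ε hε
      have h1 := norm_variation_le K hmax' B hB ε hε.le T hT
      set Tε := T - (ε : ℂ) • (opL A (B.map (fun c => (C c : ℂ[X])))
        - (T ∘L opL A (Bᴴ.map (fun c => (C c : ℂ[X])))) ∘L T) with hTε
      have h2 : inner ℂ Y (Tε X) = (K : ℂ) - ε * (β - (K : ℂ) ^ 2 * conj β) := by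
        rw [hTε]
        simp only [_root_.sub_apply, _root_.smul_apply, ContinuousLinearMap.comp_apply,
          inner_sub_right, inner_smul_right]
        rw [← ContinuousLinearMap.adjoint_inner_left T, hadj]
        have h3 : inner ℂ Y (T (opL A (Bᴴ.map (fun c => (C c : ℂ[X]))) (T X)))
            = (K : ℂ) ^ 2 * conj β := by
          rw [← ContinuousLinearMap.adjoint_inner_left T, hadj, hTXY, map_smul, inner_smul_left,
            inner_smul_right, inner_opL_const, hβ, inner_conj_symm, Complex.conj_ofReal]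
          ring
        rw [h3, inner_smul_left, inner_self_eq_norm_sq_to_K, hX1, Complex.conj_ofReal, ← hβ]
        simp
      have h4 : (inner ℂ Y (Tε X)).re ≤ K * Real.sqrt (1 + 4 * ε ^ 2) := by
        refine (Complex.re_le_norm _).trans ((norm_inner_le_norm _ _).trans ?_)
        rw [hY1, one_mul]
        refine (Tε.le_opNorm X).trans ?_
        rw [hX1, mul_one]
        exact h1
      have h5 : (inner ℂ Y (Tε X)).re = K + ε * (K ^ 2 - 1) * β.re := by
        rw [h2]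
        have : (K : ℂ) ^ 2 = ((K ^ 2 : ℝ) : ℂ) := by push_cast; rfl
        rw [this]
        simp only [Complex.sub_re, Complex.ofReal_re, Complex.re_ofReal_mul, Complex.conj_re]
        ring
      have h6 : Real.sqrt (1 + 4 * ε ^ 2) ≤ 1 + 2 * ε ^ 2 := by
        rw [Real.sqrt_le_left (by positivity)]
        nlinarith [sq_nonneg (ε ^ 2)]
      have h7 : K * Real.sqrt (1 + 4 * ε ^ 2) ≤ K * (1 + 2 * ε ^ 2) :=
        mul_le_mul_of_nonneg_left h6 hK0.le
      have h8 : ε * ((K ^ 2 - 1) * β.re) ≤ ε * (2 * K * ε) := by nlinarith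
      exact le_of_mul_le_mul_left h8 hε
    have hK1 : 0 < K ^ 2 - 1 := by nlinarith
    have hprod : 0 < (K ^ 2 - 1) * β.re := mul_pos hK1 hpos
    have h9 := hineq ((K ^ 2 - 1) * β.re / (4 * K)) (by positivity)
    have h10 : 2 * K * ((K ^ 2 - 1) * β.re / (4 * K)) = (K ^ 2 - 1) * β.re / 2 := by
      field_simp
      ring
    rw [h10] at h9
    linarith
  have horth : ∀ i j, inner ℂ (Y i) (X j) = (0 : ℂ) := by
    intro i j
    set c : ℂ := inner ℂ (Y i) (X j) with hc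
    have hc1 : ‖conj c‖ ≤ 1 := by
      rw [Complex.norm_conj, hc]
      refine (norm_inner_le_norm _ _).trans ?_
      calc ‖Y i‖ * ‖X j‖ ≤ 1 * 1 :=
            mul_le_mul ((norm_coord_le Y i).trans hY1.le) ((norm_coord_le X j).trans hX1.le)
              (norm_nonneg _) zero_le_one
        _ = 1 := one_mul 1
    have h1 := horth0 (Matrix.single i j (conj c)) (norm_single_le i j _ hc1)
    have h2 : inner ℂ Y (opL A ((Matrix.single i j (conj c)).map (fun c => (C c : ℂ[X]))) X)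
        = conj c * c := by
      rw [PiLp.inner_apply]
      simp only [opL_const_apply]
      rw [Finset.sum_eq_single i]
      · rw [Finset.sum_eq_single j]
        · rw [Matrix.single_apply_same, inner_smul_right]
        · intro k _ hk
          rw [Matrix.single_apply_of_ne _ _ _ _ _ (by simp [Ne.symm hk]), zero_smul]
        · intro h; exact absurd (Finset.mem_univ j) h
      · intro k _ hk
        rw [Finset.sum_eq_zero, inner_zero_right]
        intro l _
        rw [Matrix.single_apply_of_ne _ _ _ _ _ (by simp [Ne.symm hk]), zero_smul]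
      · intro h; exact absurd (Finset.mem_univ i) h
    rw [h2, mul_comm, Complex.mul_conj, Complex.ofReal_re, Complex.normSq_eq_norm_sq] at h1
    have h3 : ‖c‖ = 0 := by
      have := norm_nonneg c
      nlinarith
    exact norm_eq_zero.mp h3
  -- the two estimates
  have hSNX : ∀ N, K ^ 2 * SN A F X N ≤ 4 * zz A F Y X := by
    intro N
    have h1 := key_closure_left hF hA (testP A F X N) X Y horth K hK0 T hT
    have h2 : inner ℂ Y (T (opAct A (testP A F X N) X)) = (K : ℂ) * ((SN A F X N : ℝ) : ℂ) := by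
      rw [← ContinuousLinearMap.adjoint_inner_left T, hadj, inner_smul_left, inner_testP,
        Complex.conj_ofReal]
    rw [h2, Complex.re_ofReal_mul, Complex.ofReal_re] at h1
    have h3 := l2_testP (A := A) hF X N
    have h4 : K / 2 * l2 γ (testP A F X N) ≤ K / 2 * SN A F X N :=
      mul_le_mul_of_nonneg_left h3 (by positivity)
    have h5 : K / 2 * SN A F X N ≤ 2 / K * zz A F Y X := by linarith
    have h6 := mul_le_mul_of_nonneg_left h5 (by positivity : (0 : ℝ) ≤ 2 * K)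
    have h7 : 2 * K * (2 / K * zz A F Y X) = 4 * zz A F Y X := by
      field_simp
      ring
    rw [h7] at h6
    nlinarith
  have hSNY : ∀ N, K ^ 2 * SN A F Y N ≤ 4 * zz A F Y X := by
    intro N
    have h1 := key_closure_right hF hA (testP A F Y N) X Y horth K hK0 T hT
    have h2 : inner ℂ Y (opL A (testP A F Y N) (T X)) = (K : ℂ) * ((SN A F Y N : ℝ) : ℂ) := by
      rw [hTXY, map_smul, inner_smul_right, opL_apply, inner_testP]
    rw [h2, Complex.re_ofReal_mul, Complex.ofReal_re] at h1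
    have h3 := l2_testP (A := A) hF Y N
    have h4 : K / 2 * l2 γ (testP A F Y N) ≤ K / 2 * SN A F Y N :=
      mul_le_mul_of_nonneg_left h3 (by positivity)
    have h5 : K / 2 * SN A F Y N ≤ 2 / K * zz A F Y X := by linarith
    have h6 := mul_le_mul_of_nonneg_left h5 (by positivity : (0 : ℝ) ≤ 2 * K)
    have h7 : 2 * K * (2 / K * zz A F Y X) = 4 * zz A F Y X := by
      field_simp
      ring
    rw [h7] at h6
    nlinarith
  have hlimX : K ^ 2 * zz A F X X ≤ 4 * zz A F Y X :=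
    le_of_tendsto' ((tendsto_SN hF hA X).const_mul (K ^ 2)) hSNX
  have hlimY : K ^ 2 * zz A F Y Y ≤ 4 * zz A F Y X :=
    le_of_tendsto' ((tendsto_SN hF hA Y).const_mul (K ^ 2)) hSNY
  have hblock := zz_block hA X Y
  have hposX := zz_pos hF hA X hX1
  have hposY := zz_pos hF hA Y hY1
  have hZ : 0 < zz A F Y X := by
    have : 0 < K ^ 2 * zz A F X X := by positivity
    linarith
  have h1 : K ^ 2 * (2 * zz A F Y X) ≤ K ^ 2 * (zz A F X X + zz A F Y Y) :=
    mul_le_mul_of_nonneg_left hblock (by positivity)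
  have h2 : (K ^ 2 - 4) * zz A F Y X ≤ 0 := by nlinarith
  have h3 : 0 < K ^ 2 - 4 := by nlinarith
  have := mul_pos h3 hZ
  linarith

/-- **Main inequality.** -/
theorem main_bound (A : E →L[ℂ] E) (γ : ℂ → ℂ) (F : ℕ → ℂ[X])
    (hF : FaberSystem γ F) (hA : OpPos A F) (m : ℕ) (P : Matrix (Fin m) (Fin m) ℂ[X]) (M : ℝ)
    (hM : ∀ ζ : ℂ, ‖ζ‖ = 1 → evNorm P (γ ζ) ≤ M) (v : PiLp 2 (fun _ : Fin m => E)) :
    ‖opAct A P v‖ ≤ 2 * M * ‖v‖ := by
  have hM0 : 0 ≤ M := (norm_nonneg _).trans (hM 1 (by simp))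
  have key : ∀ M' : ℝ, M < M' → ‖opAct A P v‖ ≤ 2 * M' * ‖v‖ := by
    intro M' hM'
    have hM'0 : 0 < M' := lt_of_le_of_lt hM0 hM'
    have hcls : ((M'⁻¹ : ℝ) : ℂ) • P ∈ Cls γ m := by
      intro ζ hζ
      change ‖Matrix.toEuclideanCLM (n := Fin m) (𝕜 := ℂ) (evM _ (γ ζ))‖ ≤ 1
      rw [evM_smul, map_smul, norm_smul, Complex.norm_real,
        Real.norm_of_nonneg (inv_nonneg.mpr hM'0.le), inv_mul_le_iff₀ hM'0, mul_one]
      exact (hM ζ hζ).trans hM'.le
    have h1 := norm_opL_le_two hF hA _ hcls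
    rw [opL_smul, norm_smul, Complex.norm_real, Real.norm_of_nonneg (inv_nonneg.mpr hM'0.le),
      inv_mul_le_iff₀ hM'0] at h1
    have h2 := (opL A P).le_opNorm v
    rw [opL_apply] at h2
    refine h2.trans ?_
    refine mul_le_mul_of_nonneg_right ?_ (norm_nonneg _)
    linarith
  have hlim : Filter.Tendsto (fun M' : ℝ => 2 * M' * ‖v‖) (𝓝[>] M) (𝓝 (2 * M * ‖v‖)) := by
    refine Filter.Tendsto.mono_left ?_ nhdsWithin_le_nhds
    exact (Continuous.tendsto (by fun_prop) M)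
  exact ge_of_tendsto hlim (Filter.eventually_of_mem self_mem_nhdsWithin (fun M' hM' => key M' hM'))

end

end Crest.Agent.Crz
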