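import Crest.Agent.Crz.DualA
import Crest.Agent.Crz.DualC

set_option autoImplicit false

open Complex Metric Set Polynomial Matrix
open scoped Topology ComplexOrder Matrix.Norms.L2Operator NNReal ENNReal
open Crest.AnalysisR.NumRange

namespace Crest.Agent.Crz.Dual

variable {n : ℕ}

open scoped MatrixOrder in
lemma norm_smul_one_sub_posSemidef {H : Matrix (Fin n) (Fin n) ℂ} (hH : H.IsHermitian) :
    (((‖H‖ : ℝ) : ℂ) • (1 : Matrix (Fin n) (Fin n) ℂ) - H).PosSemidef := by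
  have h1 := IsSelfAdjoint.le_algebraMap_norm_self (a := H) hH
  have h2 : (algebraMap ℝ (Matrix (Fin n) (Fin n) ℂ)) ‖H‖ =
      ((‖H‖ : ℝ) : ℂ) • (1 : Matrix (Fin n) (Fin n) ℂ) := by
    rw [Algebra.algebraMap_eq_smul_one, Complex.coe_smul]
  rw [h2] at h1
  exact h1

lemma posDef_real_smul_one {r : ℝ} (hr : 0 < r) :
    ((r : ℂ) • (1 : Matrix (Fin n) (Fin n) ℂ)).PosDef := by
  refine PosDef.smul PosDef.one ?_
  exact_mod_cast hr

lemma isClosed_feasible (T : Matrix (Fin n) (Fin n) ℂ) :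
    IsClosed {p : Matrix (Fin n) (Fin n) ℂ × ℝ | MetricFeasible T p.1 p.2} := by
  have h1 : Continuous fun p : Matrix (Fin n) (Fin n) ℂ × ℝ => p.1 - 1 := by fun_prop
  have h2 : Continuous fun p : Matrix (Fin n) (Fin n) ℂ × ℝ =>
    (p.2 : ℂ) • (1 : Matrix (Fin n) (Fin n) ℂ) - p.1 := by fun_prop
  have h3 : Continuous fun p : Matrix (Fin n) (Fin n) ℂ × ℝ => p.1 - Tᴴ * p.1 * T := by fun_prop
  exact (isClosed_posSemidef.preimage h1).inter
    ((isClosed_posSemidef.preimage h2).inter (isClosed_posSemidef.preimage h3))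

lemma one_le_of_feasible (hn : 1 ≤ n) {T H : Matrix (Fin n) (Fin n) ℂ} {τ : ℝ}
    (h : MetricFeasible T H τ) : 1 ≤ τ := by
  have h1 := (h.1.add h.2.1).diag_nonneg (i := (⟨0, hn⟩ : Fin n))
  have h2 : ((H - 1) + ((τ : ℂ) • (1 : Matrix (Fin n) (Fin n) ℂ) - H)) ⟨0, hn⟩ ⟨0, hn⟩ =
      ((τ - 1 : ℝ) : ℂ) := by
    simp
  rw [h2] at h1
  have h3 : (0 : ℝ) ≤ τ - 1 := by exact_mod_cast h1
  linarith

/-- CHUNK 7' (OPT): strict feasibility and attained optimum. -/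
theorem exists_optimal (n : ℕ) (hn : 1 ≤ n) (T : Matrix (Fin n) (Fin n) ℂ)
    (hspec : ∀ μ ∈ spectrum ℂ T, ‖μ‖ < 1)
    (h4 : ∃ H : Matrix (Fin n) (Fin n) ℂ, MetricFeasible T H 4) :
    (∃ (H : Matrix (Fin n) (Fin n) ℂ) (τ : ℝ), MetricStrictlyFeasible T H τ) ∧
    ∃ (H : Matrix (Fin n) (Fin n) ℂ) (κsq : ℝ),
      IsOptimalMetric T H κsq ∧ 1 ≤ κsq ∧ κsq ≤ 4 := by
  constructor
  · have hsum : Summable fun k : ℕ => ‖T ^ k‖ := summable_norm_pow T hspec
    have htend := hsum.tendsto_atTop_zero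
    obtain ⟨K, hK⟩ := (htend.eventually (gt_mem_nhds (show (0 : ℝ) < 1 by norm_num))).exists_forall_of_atTop
    have hK1 : ‖T ^ (K + 1)‖ < 1 := hK (K + 1) (Nat.le_succ K)
    set H : Matrix (Fin n) (Fin n) ℂ :=
      ∑ k ∈ Finset.range (K + 1), ((2 : ℝ) : ℂ) • ((T ^ k)ᴴ * T ^ k) with hH
    have hterm : ∀ k : ℕ, (((2 : ℝ) : ℂ) • ((T ^ k)ᴴ * T ^ k)).PosSemidef := fun k =>
      (posSemidef_conjTranspose_mul_self (T ^ k)).smul (by norm_num)
    have hHpsd : H.PosSemidef := posSemidef_sum _ fun k _ => hterm k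
    refine ⟨H, ‖H‖ + 1, ?_, ?_, ?_⟩
    · have h1 : H - 1 = 1 + ∑ k ∈ Finset.range K, ((2 : ℝ) : ℂ) • ((T ^ (k + 1))ᴴ * T ^ (k + 1)) := by
        rw [hH, Finset.sum_range_succ']
        simp only [pow_zero, conjTranspose_one, mul_one]
        have : ((2 : ℝ) : ℂ) • (1 : Matrix (Fin n) (Fin n) ℂ) = 1 + 1 := by
          push_cast
          rw [two_smul]
        rw [this]
        abel
      rw [h1]
      exact PosDef.one.add_posSemidef (posSemidef_sum _ fun k _ => hterm (k + 1))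
    · have h1 : (((‖H‖ + 1 : ℝ)) : ℂ) • (1 : Matrix (Fin n) (Fin n) ℂ) - H =
        ((‖H‖ : ℝ) : ℂ) • (1 : Matrix (Fin n) (Fin n) ℂ) - H + 1 := by
        push_cast
        rw [add_smul, one_smul]
        abel
      rw [h1]
      exact PosDef.posSemidef_add (norm_smul_one_sub_posSemidef hHpsd.isHermitian) PosDef.one
    · have h1 : H - Tᴴ * H * T = ((2 : ℝ) : ℂ) • (1 - (T ^ (K + 1))ᴴ * T ^ (K + 1)) := by
        have h2 : Tᴴ * H * T = ∑ k ∈ Finset.range (K + 1),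
            ((2 : ℝ) : ℂ) • ((T ^ (k + 1))ᴴ * T ^ (k + 1)) := by
          rw [hH, Finset.mul_sum, Finset.sum_mul]
          refine Finset.sum_congr rfl fun k _ => ?_
          rw [Matrix.mul_smul, Matrix.smul_mul, pow_succ, conjTranspose_mul]
          simp only [Matrix.mul_assoc]
        rw [h2, hH, ← Finset.sum_sub_distrib]
        rw [Finset.sum_range_sub' (fun k => ((2 : ℝ) : ℂ) • ((T ^ k)ᴴ * T ^ k)), smul_sub]
        simp
      rw [h1]
      refine PosDef.smul ?_ (by norm_num)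
      set N := (T ^ (K + 1))ᴴ * T ^ (K + 1) with hN
      have hNn : ‖N‖ < 1 := by
        rw [hN, l2_opNorm_conjTranspose_mul_self]
        nlinarith [norm_nonneg (T ^ (K + 1))]
      have h3 : 1 - N = ((1 - ‖N‖ : ℝ) : ℂ) • (1 : Matrix (Fin n) (Fin n) ℂ) +
          (((‖N‖ : ℝ) : ℂ) • (1 : Matrix (Fin n) (Fin n) ℂ) - N) := by
        push_cast
        rw [sub_smul, one_smul]
        abel
      rw [h3]
      exact (posDef_real_smul_one (by linarith)).add_posSemidef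
        (norm_smul_one_sub_posSemidef (posSemidef_conjTranspose_mul_self _).isHermitian)
  · set S : Set (Matrix (Fin n) (Fin n) ℂ × ℝ) :=
      {p | MetricFeasible T p.1 p.2} ∩ {p | p.2 ≤ 4} with hS
    have hSc : IsClosed S := (isClosed_feasible T).inter
      (isClosed_le continuous_snd continuous_const)
    have hsub : S ⊆ HSet n 4 ×ˢ Icc 1 4 := by
      rintro ⟨H, τ⟩ ⟨hf, hτ⟩
      refine ⟨⟨hf.1, ?_⟩, one_le_of_feasible hn hf, hτ⟩
      have h1 : ((4 : ℝ) : ℂ) • (1 : Matrix (Fin n) (Fin n) ℂ) - H =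
        (τ : ℂ) • (1 : Matrix (Fin n) (Fin n) ℂ) - H +
          ((4 - τ : ℝ) : ℂ) • (1 : Matrix (Fin n) (Fin n) ℂ) := by
        push_cast
        rw [sub_smul]
        abel
      show (((4 : ℝ) : ℂ) • (1 : Matrix (Fin n) (Fin n) ℂ) - H).PosSemidef
      rw [h1]
      refine hf.2.1.add (PosSemidef.one.smul ?_)
      have : (0 : ℝ) ≤ 4 - τ := by
        have : τ ≤ 4 := hτ
        linarith
      exact_mod_cast this
    have hcomp : IsCompact S := ((isCompact_HSet 4).prod isCompact_Icc).of_isClosed_subset hSc hsub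
    obtain ⟨H0, hH0⟩ := h4
    have hne : S.Nonempty := ⟨(H0, 4), hH0, show (4 : ℝ) ≤ 4 from le_refl _⟩
    obtain ⟨⟨H, κ⟩, hmem, hmin⟩ := hcomp.exists_isMinOn hne continuous_snd.continuousOn
    refine ⟨H, κ, ⟨hmem.1, fun H' τ' hf' => ?_⟩, one_le_of_feasible hn hmem.1, hmem.2⟩
    by_cases hτ : τ' ≤ 4
    · exact hmin (show (H', τ') ∈ S from ⟨hf', hτ⟩)
    · exact (show κ ≤ 4 from hmem.2).trans (not_le.1 hτ).le

end Crest.Agent.Crz.Dual
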