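import Crest.Agent.Crz.Defs
import Crest.Agent.Crz.Ext
import Crest.Prelude.Def_NumRangeMetric

/-!
# Row 132, chunk 6: polynomial approximation on compact convex sets
-/

set_option autoImplicit false

open Complex Metric Set Polynomial Filter
open scoped Topology ComplexOrder

namespace Crest.Agent.Crz

namespace Runge

/-! ### uniform limits of polynomials -/

/-- the closed algebra of uniform limits of polynomials on `K` -/
noncomputable def PK (K : Set ℂ) [CompactSpace K] : Subalgebra ℂ C(K, ℂ) :=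
  (polynomialFunctions K).topologicalClosure

theorem isClosed_PK (K : Set ℂ) [CompactSpace K] : IsClosed (PK K : Set C(K, ℂ)) :=
  Subalgebra.isClosed_topologicalClosure _

theorem poly_mem_PK (K : Set ℂ) [CompactSpace K] (P : ℂ[X]) : P.toContinuousMapOn K ∈ PK K := by
  apply Subalgebra.le_topologicalClosure
  rw [← SetLike.mem_coe, polynomialFunctions_coe]
  exact ⟨P, rfl⟩

theorem PK_approx {K : Set ℂ} [CompactSpace K] {f : C(K, ℂ)} (hf : f ∈ PK K) (ε : ℝ)
    (hε : 0 < ε) : ∃ P : ℂ[X], ∀ z : K, ‖f z - P.eval (z : ℂ)‖ < ε := by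
  have hf' : f ∈ closure ((polynomialFunctions K : Subalgebra ℂ C(K, ℂ)) : Set C(K, ℂ)) := hf
  rw [Metric.mem_closure_iff] at hf'
  obtain ⟨g, hg, hlt⟩ := hf' ε hε
  rw [polynomialFunctions_coe] at hg
  obtain ⟨P, rfl⟩ := hg
  refine ⟨P, fun z => ?_⟩
  rw [dist_eq_norm, ContinuousMap.norm_lt_iff _ hε] at hlt
  exact hlt z

/-- a point outside a convex compact set is strictly farther from some center than the set -/
theorem exists_center {K : Set ℂ} (hK : IsCompact K) (hconv : Convex ℝ K) {σ : ℂ} (hσ : σ ∉ K) :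
    ∃ c : ℂ, ∀ z ∈ K, ‖z - c‖ < ‖σ - c‖ := by
  rcases K.eq_empty_or_nonempty with h | hne
  · exact ⟨0, by simp [h]⟩
  obtain ⟨p, hp, hpe⟩ := exists_norm_eq_iInf_of_complete_convex (F := ℂ) hne
    hK.isClosed.isComplete hconv σ
  have hobt := (norm_eq_iInf_iff_real_inner_le_zero (F := ℂ) hconv hp).mp hpe
  set w : ℂ := σ - p with hw
  have hw0 : w ≠ 0 := fun h => hσ (by rw [sub_eq_zero.mp h]; exact hp)
  have hwn : 0 < ‖w‖ := norm_pos_iff.mpr hw0
  obtain ⟨D, hD⟩ := (hK.isBounded.sub (Bornology.isBounded_singleton (x := σ))).exists_norm_le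
  have hD' : ∀ z ∈ K, ‖z - σ‖ ≤ D := fun z hz => hD _ (Set.sub_mem_sub hz rfl)
  set t : ℝ := (D ^ 2 + 1) / ‖w‖ ^ 2 with ht
  have htpos : 0 < t := by positivity
  refine ⟨σ - t • w, fun z hz => ?_⟩
  have h1 : inner ℝ w (z - p) ≤ 0 := hobt z hz
  have h2 : z - (σ - t • w) = (z - σ) + t • w := by abel
  have h3 : σ - (σ - t • w) = t • w := by abel
  rw [h2, h3]
  have h4 := norm_add_sq_real (z - σ) (t • w)
  have h5 : inner ℝ (z - σ) (t • w) ≤ -(D ^ 2 + 1) := by
    rw [inner_smul_right, real_inner_comm]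
    have h6 : z - σ = (z - p) - w := by rw [hw]; ring
    rw [h6, inner_sub_right, real_inner_self_eq_norm_sq]
    have h7 : t * ‖w‖ ^ 2 = D ^ 2 + 1 := by rw [ht]; field_simp
    nlinarith
  have h8 := hD' z hz
  have h9 : ‖z - σ‖ ^ 2 ≤ D ^ 2 := pow_le_pow_left₀ (norm_nonneg _) h8 2
  apply lt_of_pow_lt_pow_left₀ 2 (norm_nonneg _)
  rw [h4]
  nlinarith

theorem inv_mem_PK {K : Set ℂ} [CompactSpace K] (hK : IsCompact K) (hconv : Convex ℝ K) {σ : ℂ}
    (hσ : σ ∉ K) (f : C(K, ℂ)) (hf : ∀ z : K, f z = (σ - z)⁻¹) : f ∈ PK K := by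
  obtain ⟨c, hc⟩ := exists_center hK hconv hσ
  let P : ℂ[X] := C ((σ - c)⁻¹) * (X - C c)
  let x : C(K, ℂ) := P.toContinuousMapOn K
  have hx : ∀ z : K, x z = (σ - c)⁻¹ * (z - c) := fun z => by simp [x, P]
  have hxP : x ∈ PK K := poly_mem_PK K P
  have hxn : ‖x‖ < 1 := by
    rw [ContinuousMap.norm_lt_iff _ one_pos]
    intro z
    rw [hx, norm_mul, norm_inv]
    have h1 := hc z z.2
    have h2 : 0 < ‖σ - c‖ := (norm_nonneg _).trans_lt h1
    rw [inv_mul_lt_one₀ h2]
    exact h1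
  have hsum : Summable (fun i : ℕ => x ^ i) := summable_geometric_of_norm_lt_one hxn
  have hy : (∑' i : ℕ, x ^ i) ∈ PK K := by
    apply (isClosed_PK K).mem_of_tendsto hsum.hasSum
    filter_upwards with s
    exact sum_mem (fun i _ => pow_mem hxP i)
  have hgeom := mul_neg_geom_series x hxn
  have hfe : f = ((σ - c)⁻¹) • (∑' i : ℕ, x ^ i) := by
    ext z
    have h1 := congrArg (fun g : C(K, ℂ) => g z) hgeom
    simp only [ContinuousMap.mul_apply, ContinuousMap.sub_apply, ContinuousMap.one_apply, hx] at h1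
    rw [hf, ContinuousMap.smul_apply, smul_eq_mul]
    have h2 : 0 < ‖σ - c‖ := (norm_nonneg _).trans_lt (hc z z.2)
    have h3 : σ - c ≠ 0 := norm_pos_iff.mp h2
    have h4 : σ - (z : ℂ) ≠ 0 := fun h => hσ (by rw [sub_eq_zero.mp h]; exact z.2)
    have h5 : (1 - (σ - c)⁻¹ * ((z : ℂ) - c)) = (σ - c)⁻¹ * (σ - z) := by
      field_simp; ring
    rw [h5] at h1
    rw [inv_eq_iff_eq_inv, eq_comm, inv_eq_iff_eq_inv]
    apply eq_inv_of_mul_eq_one_left
    rw [← h1]; ring
  rw [hfe]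
  exact (PK K).smul_mem hy _

/-! ### the integral formula -/

theorem hasDerivAt_gam {κ : ℂ → ℂ} {ρ : ℝ} (h : ConvexCurve κ ρ) {ζ : ℂ} (hζ : ζ ∈ ball (0 : ℂ) ρ)
    (h0 : ζ ≠ 0) : HasDerivAt (gam κ) (-(eker κ ζ) / ζ ^ 2) ζ := by
  have h1 : HasDerivAt κ (deriv κ ζ) ζ :=
    (h.diff.differentiableAt (isOpen_ball.mem_nhds hζ)).hasDerivAt
  have h2 := h1.div (hasDerivAt_id ζ) h0
  refine h2.congr_deriv ?_
  simp only [eker, id]
  congr 1
  ring

theorem continuousOn_eker {κ : ℂ → ℂ} {ρ : ℝ} (h : ConvexCurve κ ρ) :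
    ContinuousOn (eker κ) (ball 0 ρ) := by
  unfold eker
  have h1 := h.diff.deriv isOpen_ball
  exact h.diff.continuousOn.sub (continuousOn_id.mul h1.continuousOn)

theorem differentiableOn_eker {κ : ℂ → ℂ} {ρ : ℝ} (h : ConvexCurve κ ρ) :
    DifferentiableOn ℂ (eker κ) (ball 0 ρ) := by
  unfold eker
  have h1 := h.diff.deriv isOpen_ball
  exact h.diff.sub (differentiableOn_id.mul h1)

theorem cauchy_formula {κ : ℂ → ℂ} {ρ : ℝ} (hκ : ConvexCurve κ ρ) {V : Set ℂ} (hV : IsOpen V)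
    (hVc : Convex ℝ V) (hγ : ∀ ζ : ℂ, ‖ζ‖ = 1 → gam κ ζ ∈ V) {g : ℂ → ℂ}
    (hg : DifferentiableOn ℂ g V) {z : ℂ} (hzV : z ∈ V) (hz : StarAt κ ρ z) :
    Real.circleAverage (fun ζ => g (gam κ ζ) * (eker κ ζ / (κ ζ - ζ * z))) 0 1 = g z := by
  have hsub : closedBall (0 : ℂ) 1 ⊆ ball 0 ρ := closedBall_subset_ball hκ.one_lt
  have hsub' : sphere (0 : ℂ) 1 ⊆ ball 0 ρ := sphere_subset_closedBall.trans hsub
  have hden : ∀ ζ ∈ ball (0 : ℂ) ρ, κ ζ - ζ * z ≠ 0 := fun ζ hζ => sub_ne_zero.mpr (hz.ne ζ hζ)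
  have hq : DifferentiableOn ℂ (dslope g z) V :=
    (Complex.differentiableOn_dslope (hV.mem_nhds hzV)).mpr hg
  obtain ⟨Q, hQ⟩ := hVc.exists_forall_hasDerivWithinAt hq
  have hQ' : ∀ a ∈ V, HasDerivAt Q (dslope g z a) a := fun a ha =>
    (hQ a ha).hasDerivAt (hV.mem_nhds ha)
  have hgamc : ContinuousOn (gam κ) (sphere 0 1) := by
    intro ζ hζ
    have h0 : ζ ≠ 0 := by
      rintro rfl
      simp at hζ
    exact (hasDerivAt_gam hκ (hsub' hζ) h0).continuousAt.continuousWithinAt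
  have hmaps : MapsTo (gam κ) (sphere 0 1) V := fun ζ hζ => hγ ζ (by simpa using hζ)
  have hqc : ContinuousOn (fun ζ => dslope g z (gam κ ζ)) (sphere 0 1) :=
    hq.continuousOn.comp hgamc hmaps
  have hEdiff : DifferentiableOn ℂ (fun ζ => eker κ ζ / (κ ζ - ζ * z)) (ball 0 ρ) :=
    (differentiableOn_eker hκ).div (hκ.diff.sub (differentiableOn_id.mul_const z)) hden
  -- first average
  have havg1 : Real.circleAverage (fun ζ => eker κ ζ / (κ ζ - ζ * z)) 0 1 = 1 := by
    have hd : DiffContOnCl ℂ (fun ζ => eker κ ζ / (κ ζ - ζ * z)) (ball 0 |1|) := by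
      rw [abs_one]
      apply (hEdiff.mono (by rw [closure_ball _ one_ne_zero]; exact hsub)).diffContOnCl
    rw [hd.circleAverage]
    simp [eker, div_self hκ.zero_ne]
  -- second average
  have havg2 : Real.circleAverage (fun ζ => dslope g z (gam κ ζ) * (eker κ ζ / ζ)) 0 1 = 0 := by
    rw [Real.circleAverage_eq_circleIntegral one_ne_zero]
    have h1 : (∮ ζ in C(0, 1), (ζ - 0)⁻¹ • (dslope g z (gam κ ζ) * (eker κ ζ / ζ))) =
        (-1) * (∮ ζ in C(0, 1), dslope g z (gam κ ζ) * (-(eker κ ζ) / ζ ^ 2)) := by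
      rw [← circleIntegral.integral_const_mul]
      apply circleIntegral.integral_congr zero_le_one
      intro ζ hζ
      have h0 : ζ ≠ 0 := by
        rintro rfl
        simp at hζ
      simp only [sub_zero, smul_eq_mul]
      field_simp
    rw [h1, circleIntegral.integral_eq_zero_of_hasDerivWithinAt zero_le_one
      (f := fun ζ => Q (gam κ ζ))]
    · simp
    · intro ζ hζ
      have h0 : ζ ≠ 0 := by
        rintro rfl
        simp at hζ
      exact ((hQ' _ (hmaps hζ)).comp ζ (hasDerivAt_gam hκ (hsub' hζ) h0)).hasDerivWithinAt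
  -- split
  have hsplit : Real.circleAverage (fun ζ => g (gam κ ζ) * (eker κ ζ / (κ ζ - ζ * z))) 0 1 =
      Real.circleAverage (fun ζ => g z • (eker κ ζ / (κ ζ - ζ * z)) +
        dslope g z (gam κ ζ) * (eker κ ζ / ζ)) 0 1 := by
    apply Real.circleAverage_congr_sphere
    intro ζ hζ
    rw [abs_one] at hζ
    have h0 : ζ ≠ 0 := by
      rintro rfl
      simp at hζ
    have h1 := sub_smul_dslope g z (gam κ ζ)
    have h2 : gam κ ζ - z = (κ ζ - ζ * z) / ζ := by
      rw [gam]; field_simp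
    have h3 := hden ζ (hsub' hζ)
    have h4 : g (gam κ ζ) = g z + (κ ζ - ζ * z) / ζ * dslope g z (gam κ ζ) := by
      rw [← h2, ← smul_eq_mul, h1]; ring
    simp only [smul_eq_mul]
    rw [h4]
    field_simp
  rw [hsplit, Real.circleAverage_fun_add, Real.circleAverage_fun_smul, havg1, havg2]
  · simp
  · apply ContinuousOn.circleIntegrable zero_le_one
    exact (hEdiff.continuousOn.mono hsub').const_smul (g z)
  · apply ContinuousOn.circleIntegrable zero_le_one
    apply hqc.mul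
    apply ((continuousOn_eker hκ).mono hsub').div continuousOn_id
    rintro ζ hζ rfl
    simp at hζ

/-! ### Runge's theorem from a convex curve -/

theorem approx_of_curve {K : Set ℂ} (hK : IsCompact K) (hconv : Convex ℝ K) {κ : ℂ → ℂ} {ρ : ℝ}
    (hκ : ConvexCurve κ ρ) {V : Set ℂ} (hV : IsOpen V) (hVc : Convex ℝ V) (hKV : K ⊆ V)
    (hstar : ∀ a ∈ K, StarAt κ ρ a) (hγ : ∀ ζ : ℂ, ‖ζ‖ = 1 → gam κ ζ ∈ V) {g : ℂ → ℂ}
    (hg : DifferentiableOn ℂ g V) (ε : ℝ) (hε : 0 < ε) :
    ∃ P : ℂ[X], ∀ z ∈ K, ‖g z - P.eval z‖ < ε := by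
  have hcomp : CompactSpace K := isCompact_iff_compactSpace.mp hK
  have hsub : closedBall (0 : ℂ) 1 ⊆ ball 0 ρ := closedBall_subset_ball hκ.one_lt
  have hsub' : sphere (0 : ℂ) 1 ⊆ ball 0 ρ := sphere_subset_closedBall.trans hsub
  have hcm : ∀ θ : ℝ, circleMap 0 1 θ ∈ sphere (0 : ℂ) 1 := fun θ =>
    circleMap_mem_sphere 0 zero_le_one θ
  have hcmn : ∀ θ : ℝ, ‖circleMap 0 1 θ‖ = 1 := fun θ => by simp
  have hcm0 : ∀ θ : ℝ, circleMap 0 1 θ ≠ 0 := fun θ h => by
    have := hcmn θ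
    rw [h] at this; simp at this
  have hgamc : ContinuousOn (gam κ) (sphere 0 1) := by
    intro ζ hζ
    have h0 : ζ ≠ 0 := by
      rintro rfl
      simp at hζ
    exact (hasDerivAt_gam hκ (hsub' hζ) h0).continuousAt.continuousWithinAt
  have hmaps : MapsTo (gam κ) (sphere 0 1) V := fun ζ hζ => hγ ζ (by simpa using hζ)
  -- continuity along the circle
  have hc1 : Continuous (fun θ : ℝ => g (gam κ (circleMap 0 1 θ))) := by
    have h1 : ContinuousOn (fun ζ => g (gam κ ζ)) (sphere 0 1) := hg.continuousOn.comp hgamc hmaps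
    exact h1.comp_continuous (continuous_circleMap 0 1) hcm
  have hc2 : Continuous (fun θ : ℝ => eker κ (circleMap 0 1 θ)) :=
    ((continuousOn_eker hκ).mono hsub').comp_continuous (continuous_circleMap 0 1) hcm
  have hc3 : Continuous (fun θ : ℝ => κ (circleMap 0 1 θ)) :=
    (hκ.diff.continuousOn.mono hsub').comp_continuous (continuous_circleMap 0 1) hcm
  let F : C(ℝ × K, ℂ) :=
    { toFun := fun p => g (gam κ (circleMap 0 1 p.1)) * (eker κ (circleMap 0 1 p.1) /
        (κ (circleMap 0 1 p.1) - circleMap 0 1 p.1 * (p.2 : ℂ)))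
      continuous_toFun := by
        apply (hc1.comp continuous_fst).mul
        apply (hc2.comp continuous_fst).div
        · exact (hc3.comp continuous_fst).sub
            (((continuous_circleMap 0 1).comp continuous_fst).mul
              (continuous_subtype_val.comp continuous_snd))
        · intro p
          exact sub_ne_zero.mpr ((hstar p.2 p.2.2).ne _ (hsub' (hcm p.1))) }
  have hFmem : ∀ θ : ℝ, F.curry θ ∈ PK K := by
    intro θ
    have hσ : gam κ (circleMap 0 1 θ) ∉ K := by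
      intro hmem
      have h1 := (hstar _ hmem).ne _ (hsub' (hcm θ))
      apply h1
      rw [gam]; field_simp [hcm0 θ]
    let f : C(K, ℂ) :=
      { toFun := fun z => (gam κ (circleMap 0 1 θ) - z)⁻¹
        continuous_toFun := by
          apply Continuous.inv₀ (by fun_prop)
          intro z h
          exact hσ (by rw [sub_eq_zero.mp h]; exact z.2) }
    have hf : f ∈ PK K := inv_mem_PK hK hconv hσ f (fun z => rfl)
    have he : F.curry θ = (g (gam κ (circleMap 0 1 θ)) * eker κ (circleMap 0 1 θ) /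
        circleMap 0 1 θ) • f := by
      ext z
      rw [ContinuousMap.curry_apply, ContinuousMap.smul_apply, smul_eq_mul]
      show g (gam κ (circleMap 0 1 θ)) * (eker κ (circleMap 0 1 θ) /
        (κ (circleMap 0 1 θ) - circleMap 0 1 θ * (z : ℂ))) =
        (g (gam κ (circleMap 0 1 θ)) * eker κ (circleMap 0 1 θ) / circleMap 0 1 θ) *
          (gam κ (circleMap 0 1 θ) - z)⁻¹
      have h1 : κ (circleMap 0 1 θ) - circleMap 0 1 θ * (z : ℂ) ≠ 0 :=
        sub_ne_zero.mpr ((hstar z z.2).ne _ (hsub' (hcm θ)))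
      have h2 : gam κ (circleMap 0 1 θ) - z = (κ (circleMap 0 1 θ) - circleMap 0 1 θ * (z : ℂ)) /
          circleMap 0 1 θ := by
        rw [gam]; field_simp [hcm0 θ]
      rw [h2]
      field_simp [hcm0 θ]
    rw [he]
    exact (PK K).smul_mem hf _
  have hcont : Continuous (fun θ : ℝ => F.curry θ) := F.curry.continuous
  -- the average belongs to the closed algebra
  have hint : (2 * Real.pi)⁻¹ • ∫ θ in (0)..(2 * Real.pi), F.curry θ ∈ PK K := by
    have hconvS : Convex ℝ ((PK K : Subalgebra ℂ C(K, ℂ)) : Set C(K, ℂ)) := by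
      intro x hx y hy a b _ _ _
      have h1 : (a : ℂ) • x + (b : ℂ) • y ∈ PK K :=
        add_mem ((PK K).smul_mem hx _) ((PK K).smul_mem hy _)
      have h2 : a • x + b • y = (a : ℂ) • x + (b : ℂ) • y := by
        rw [Complex.coe_smul, Complex.coe_smul]
      rw [h2]; exact h1
    have h2pi : (0:ℝ) < 2 * Real.pi := Real.two_pi_pos
    have havg := hconvS.set_average_mem (isClosed_PK K)
      (t := Set.Ioc 0 (2 * Real.pi)) (μ := MeasureTheory.volume) (f := fun θ : ℝ => F.curry θ)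
      (by
        rw [Real.volume_Ioc, ne_eq, ENNReal.ofReal_eq_zero, not_le]
        linarith)
      (by rw [Real.volume_Ioc]; exact ENNReal.ofReal_ne_top)
      (by filter_upwards with θ using hFmem θ)
      (hcont.integrableOn_Ioc)
    rw [MeasureTheory.setAverage_eq, MeasureTheory.Measure.real, Real.volume_Ioc, sub_zero,
      ENNReal.toReal_ofReal h2pi.le] at havg
    rw [intervalIntegral.integral_of_le h2pi.le]
    exact havg
  obtain ⟨P, hP⟩ := PK_approx hint ε hε
  refine ⟨P, fun z hz => ?_⟩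
  have h1 := hP ⟨z, hz⟩
  have h2 : ((2 * Real.pi)⁻¹ • ∫ θ in (0)..(2 * Real.pi), F.curry θ : C(K, ℂ)) ⟨z, hz⟩ = g z := by
    rw [← cauchy_formula hκ hV hVc hγ hg (hKV hz) (hstar z hz), Real.circleAverage]
    rw [ContinuousMap.smul_apply]
    congr 1
    have h3 := (ContinuousMap.evalCLM ℂ (⟨z, hz⟩ : K)).intervalIntegral_comp_comm
      (hcont.intervalIntegrable (μ := MeasureTheory.volume) 0 (2 * Real.pi))
    exact h3.symm
  rw [h2] at h1
  exact h1

/-! ### jets -/

/-- division by a product of linear factors -/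
theorem exists_factor {U : Set ℂ} (hU : IsOpen U) (s : Multiset ℂ) :
    ∀ f : ℂ → ℂ, DifferentiableOn ℂ f U → (∀ μ ∈ s, μ ∈ U) →
      (∀ μ ∈ s, ((s.count μ : ℕ) : ℕ∞) ≤ analyticOrderAt f μ) →
      ∃ h : ℂ → ℂ, DifferentiableOn ℂ h U ∧
        ∀ z ∈ U, f z = (s.map (fun μ => z - μ)).prod * h z := by
  induction s using Multiset.induction with
  | empty =>
    intro f hf _ _
    exact ⟨f, hf, fun z _ => by simp⟩
  | cons a s ih =>
    intro f hf hsU hcount
    have haU : a ∈ U := hsU a (Multiset.mem_cons_self a s)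
    have hfa : AnalyticAt ℂ f a := hf.analyticAt (hU.mem_nhds haU)
    have hf0 : f a = 0 := by
      have h1 := hcount a (Multiset.mem_cons_self a s)
      rw [Multiset.count_cons_self] at h1
      by_contra hne
      have h2 := hfa.analyticOrderAt_eq_zero.mpr hne
      rw [h2] at h1
      simp at h1
    let f1 : ℂ → ℂ := dslope f a
    have hf1 : DifferentiableOn ℂ f1 U := (Complex.differentiableOn_dslope (hU.mem_nhds haU)).mpr hf
    have hff1 : ∀ z, f z = (z - a) * f1 z := by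
      intro z
      have := sub_smul_dslope f a z
      rw [hf0, sub_zero, smul_eq_mul] at this
      exact this.symm
    have hcount1 : ∀ ν ∈ s, ((s.count ν : ℕ) : ℕ∞) ≤ analyticOrderAt f1 ν := by
      intro ν hν
      have hνU : ν ∈ U := hsU ν (Multiset.mem_cons_of_mem hν)
      have h1 := hcount ν (Multiset.mem_cons_of_mem hν)
      have hf1ν : AnalyticAt ℂ f1 ν := hf1.analyticAt (hU.mem_nhds hνU)
      have h2 : f = (id - fun _ => a) * f1 := by
        funext z
        simp only [Pi.mul_apply, Pi.sub_apply, id]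
        exact hff1 z
      have h3 : analyticOrderAt f ν = analyticOrderAt (id - fun _ : ℂ => a) ν + analyticOrderAt f1 ν := by
        rw [h2]
        exact analyticOrderAt_mul (analyticAt_id.sub analyticAt_const) hf1ν
      rw [h3] at h1
      by_cases hνa : ν = a
      · subst hνa
        have h4 : analyticOrderAt (id - fun _ : ℂ => ν) ν = 1 := analyticOrderAt_id_sub_const_self
        rw [Multiset.count_cons_self, h4] at h1
        push_cast at h1
        rw [add_comm (1 : ℕ∞)] at h1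
        exact (ENat.add_le_add_iff_right (by simp)).mp h1
      · have h4 : analyticOrderAt (id - fun _ : ℂ => a) ν = 0 := analyticOrderAt_id_sub_const_of_ne hνa
        rw [Multiset.count_cons_of_ne hνa, h4, zero_add] at h1
        exact h1
    obtain ⟨h, hh, hfac⟩ := ih f1 hf1 (fun μ hμ => hsU μ (Multiset.mem_cons_of_mem hμ)) hcount1
    refine ⟨h, hh, fun z hz => ?_⟩
    rw [hff1, hfac z hz, Multiset.map_cons, Multiset.prod_cons]
    ring

end Runge

open Runge

/-- CHUNK 6' (JET), from polynomial approximation. -/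
theorem exists_polynomial_approx_matrix_of (n : ℕ) (A : Matrix (Fin n) (Fin n) ℂ) (K : Set ℂ)
    (hK : IsCompact K) (hspec : spectrum ℂ A ⊆ K)
    (U : Set ℂ) (hU : IsOpen U) (hKU : K ⊆ U)
    (hrunge : ∀ g : ℂ → ℂ, DifferentiableOn ℂ g U → ∀ ε : ℝ, 0 < ε →
      ∃ P : ℂ[X], ∀ z ∈ K, ‖g z - P.eval z‖ < ε)
    (f : ℂ → ℂ) (hf : DifferentiableOn ℂ f U)
    (p : ℂ[X]) (hp : Crest.AnalysisR.NumRange.AgreesOnSpectrum A f p) (ε : ℝ) (hε : 0 < ε) :
    ∃ P : ℂ[X], (∀ z ∈ K, ‖f z - P.eval z‖ < ε) ∧ aeval A P = aeval A p := by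
  have hroot : ∀ μ ∈ A.charpoly.roots, μ ∈ spectrum ℂ A := fun μ hμ =>
    Matrix.mem_spectrum_iff_isRoot_charpoly.mpr (Polynomial.isRoot_of_mem_roots hμ)
  have hcard : A.charpoly.roots.card ≤ n := by
    have h1 := A.charpoly.card_roots'
    rwa [Matrix.charpoly_natDegree_eq_dim, Fintype.card_fin] at h1
  have hpd : Differentiable ℂ (fun z => p.eval z) := p.differentiable
  have hd : DifferentiableOn ℂ (fun z => f z - p.eval z) U := hf.sub hpd.differentiableOn
  obtain ⟨h, hh, hfac⟩ := exists_factor hU A.charpoly.roots (fun z => f z - p.eval z) hd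
    (fun μ hμ => hKU (hspec (hroot μ hμ)))
    (fun μ hμ => by
      have hμU := hKU (hspec (hroot μ hμ))
      have hfμ : AnalyticAt ℂ f μ := hf.analyticAt (hU.mem_nhds hμU)
      have hpμ : AnalyticAt ℂ (fun z => p.eval z) μ := hpd.analyticAt μ
      have h1 : ((n : ℕ) : ℕ∞) ≤ analyticOrderAt (fun z => f z - p.eval z) μ := by
        rw [natCast_le_analyticOrderAt_iff_iteratedDeriv_eq_zero (hfμ.fun_sub hpμ)]
        intro j hj
        rw [iteratedDeriv_fun_sub hfμ.contDiffAt hpμ.contDiffAt, hp μ (hroot μ hμ) j hj, sub_self]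
      refine le_trans ?_ h1
      exact_mod_cast (Multiset.count_le_card μ _).trans hcard)
  have hχ : ∀ z : ℂ, A.charpoly.eval z = (A.charpoly.roots.map (fun μ => z - μ)).prod := fun z =>
    (IsAlgClosed.splits A.charpoly).eval_eq_prod_roots_of_monic A.charpoly_monic z
  obtain ⟨M, hM⟩ := hK.exists_bound_of_continuousOn (f := fun z : ℂ => A.charpoly.eval z)
    A.charpoly.continuous.continuousOn
  obtain ⟨Q, hQ⟩ := hrunge h hh (ε / (|M| + 1)) (by positivity)
  refine ⟨p + A.charpoly * Q, ?_, ?_⟩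
  · intro z hz
    have h1 : f z - (p + A.charpoly * Q).eval z = A.charpoly.eval z * (h z - Q.eval z) := by
      have h2 := hfac z (hKU hz)
      rw [← hχ] at h2
      rw [eval_add, eval_mul]
      linear_combination h2
    rw [h1, norm_mul]
    have h3 := hM z hz
    have h4 := hQ z hz
    have h5 : ‖A.charpoly.eval z‖ < |M| + 1 := by
      have := le_abs_self M
      linarith
    calc ‖A.charpoly.eval z‖ * ‖h z - Q.eval z‖ ≤ (|M| + 1) * ‖h z - Q.eval z‖ := by gcongr
      _ < (|M| + 1) * (ε / (|M| + 1)) := by gcongr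
      _ = ε := by field_simp
  · rw [map_add, map_mul, Matrix.aeval_self_charpoly, zero_mul, add_zero]

/-- The statement of chunk 2 (`exists_curve`). -/
def ExistsCurve : Prop :=
  ∀ (K : Set ℂ), IsCompact K → Convex ℝ K → K.Nonempty →
    ∀ (V : Set ℂ), IsOpen V → K ⊆ V →
    ∃ (κ : ℂ → ℂ) (ρ : ℝ), ConvexCurve κ ρ ∧ (∀ a ∈ K, StarAt κ ρ a) ∧
      ∀ ζ : ℂ, ‖ζ‖ = 1 → gam κ ζ ∈ V

/-- CHUNK 6 (RUNGE), from chunk 2. -/
theorem exists_polynomial_approx_of (hcurve : ExistsCurve) (K : Set ℂ) (hK : IsCompact K)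
    (hconv : Convex ℝ K) (U : Set ℂ) (hU : IsOpen U) (hKU : K ⊆ U) (g : ℂ → ℂ)
    (hg : DifferentiableOn ℂ g U) (ε : ℝ) (hε : 0 < ε) :
    ∃ P : ℂ[X], ∀ z ∈ K, ‖g z - P.eval z‖ < ε := by
  rcases K.eq_empty_or_nonempty with h | hne
  · exact ⟨0, by simp [h]⟩
  obtain ⟨δ, hδ, hsub⟩ := hK.exists_thickening_subset_open hU hKU
  have hVo : IsOpen (thickening δ K) := isOpen_thickening
  have hKV : K ⊆ thickening δ K := self_subset_thickening hδ K
  obtain ⟨κ, ρ, hκ, hstar, hγ⟩ := hcurve K hK hconv hne (thickening δ K) hVo hKV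
  exact approx_of_curve hK hconv hκ hVo (hconv.thickening δ) hKV hstar hγ (hg.mono hsub) ε hε

/-- CHUNK 6' (JET), from chunk 2. -/
theorem exists_polynomial_approx_matrix_of_curve (hcurve : ExistsCurve) (n : ℕ)
    (A : Matrix (Fin n) (Fin n) ℂ) (K : Set ℂ)
    (hK : IsCompact K) (hconv : Convex ℝ K) (hspec : spectrum ℂ A ⊆ interior K)
    (U : Set ℂ) (hU : IsOpen U) (hKU : K ⊆ U) (f : ℂ → ℂ) (hf : DifferentiableOn ℂ f U)
    (p : ℂ[X]) (hp : Crest.AnalysisR.NumRange.AgreesOnSpectrum A f p) (ε : ℝ) (hε : 0 < ε) :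
    ∃ P : ℂ[X], (∀ z ∈ K, ‖f z - P.eval z‖ < ε) ∧
      ∀ i j, ‖(aeval A P) i j - (aeval A p) i j‖ < ε := by
  obtain ⟨P, hP, hPA⟩ := exists_polynomial_approx_matrix_of n A K hK
    (hspec.trans interior_subset) U hU hKU
    (fun g hg ε hε => exists_polynomial_approx_of hcurve K hK hconv U hU hKU g hg ε hε)
    f hf p hp ε hε
  refine ⟨P, hP, fun i j => ?_⟩
  rw [hPA, sub_self, norm_zero]
  exact hε

/-- CHUNK 6 (RUNGE). Polynomial approximation on compact convex sets. -/
theorem exists_polynomial_approx (K : Set ℂ) (hK : IsCompact K) (hconv : Convex ℝ K)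
    (U : Set ℂ) (hU : IsOpen U) (hKU : K ⊆ U) (g : ℂ → ℂ) (hg : DifferentiableOn ℂ g U)
    (ε : ℝ) (hε : 0 < ε) : ∃ P : ℂ[X], ∀ z ∈ K, ‖g z - P.eval z‖ < ε :=
  exists_polynomial_approx_of (fun K hK hconv hne V hV hKV => exists_curve K hK hconv hne V hV hKV)
    K hK hconv U hU hKU g hg ε hε

/-- CHUNK 6' (JET). -/
theorem exists_polynomial_approx_matrix (n : ℕ) (A : Matrix (Fin n) (Fin n) ℂ) (K : Set ℂ)
    (hK : IsCompact K) (hconv : Convex ℝ K) (hspec : spectrum ℂ A ⊆ interior K)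
    (U : Set ℂ) (hU : IsOpen U) (hKU : K ⊆ U) (f : ℂ → ℂ) (hf : DifferentiableOn ℂ f U)
    (p : ℂ[X]) (hp : Crest.AnalysisR.NumRange.AgreesOnSpectrum A f p) (ε : ℝ) (hε : 0 < ε) :
    ∃ P : ℂ[X], (∀ z ∈ K, ‖f z - P.eval z‖ < ε) ∧
      ∀ i j, ‖(aeval A P) i j - (aeval A p) i j‖ < ε :=
  exists_polynomial_approx_matrix_of_curve
    (fun K hK hconv hne V hV hKV => exists_curve K hK hconv hne V hV hKV)
    n A K hK hconv hspec U hU hKU f hf p hp ε hε

end Crest.Agent.Crz
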