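import Crest.Agent.Crz.Complete
import Crest.Agent.Crz.Runge
import Crest.Agent.Crz.Dual
import Crest.Agent.Crz.Opt
import Crest.Agent.Crz.OpPos
import Crest.Agent.Crz.TH
import Crest.Prelude.Def_NumRangeMetric

/-!
# Assembly for S0180
-/

set_option autoImplicit false

open Complex Metric Set Polynomial Matrix
open scoped Topology ComplexOrder ComplexConjugate

namespace Crest.Agent.Crz

open Crest.AnalysisR.NumRange

lemma spectrum_subset_numRange {n : ℕ} (A : Matrix (Fin n) (Fin n) ℂ) :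
    spectrum ℂ A ⊆ numRange A := by
  intro μ hμ
  rw [← Matrix.spectrum_toLpLin 2] at hμ
  obtain ⟨x, hx⟩ := (Module.End.HasEigenvalue.of_mem_spectrum hμ).exists_hasEigenvector
  have hx0 : x ≠ 0 := hx.2
  have hxe : Matrix.toEuclideanLin A x = μ • x := hx.apply_eq_smul
  have hn : ‖x‖ ≠ 0 := norm_ne_zero_iff.mpr hx0
  refine ⟨((‖x‖⁻¹ : ℝ) : ℂ) • x, ?_, ?_⟩
  · rw [norm_smul]; simp [hn]
  · rw [map_smul, hxe, inner_smul_left, inner_smul_right, inner_smul_right,
      inner_self_eq_norm_sq_to_K, Complex.conj_ofReal]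
    push_cast
    have hn' : (‖x‖ : ℂ) ≠ 0 := by exact_mod_cast hn
    change μ = (‖x‖ : ℂ)⁻¹ * ((‖x‖ : ℂ)⁻¹ * (μ * (‖x‖ : ℂ) ^ 2))
    field_simp

lemma isCompact_numRange {n : ℕ} (A : Matrix (Fin n) (Fin n) ℂ) : IsCompact (numRange A) := by
  have h : numRange A = (fun x : EuclideanSpace ℂ (Fin n) =>
      (inner ℂ x (Matrix.toEuclideanCLM (n := Fin n) (𝕜 := ℂ) A x) : ℂ)) '' sphere 0 1 := by
    ext z
    constructor
    · rintro ⟨x, hx, rfl⟩
      exact ⟨x, by simpa using hx, rfl⟩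
    · rintro ⟨x, hx, rfl⟩
      exact ⟨x, by simpa using hx, rfl⟩
  rw [h]
  refine (isCompact_sphere _ _).image ?_
  exact continuous_id.inner (ContinuousLinearMap.continuous _)

lemma exists_compact_convex {n : ℕ} (A : Matrix (Fin n) (Fin n) ℂ) (Ω : Set ℂ)
    (hA : numRange A ⊆ Ω) :
    ∃ K : Set ℂ, IsCompact K ∧ Convex ℝ K ∧ numRange A ⊆ K ∧ K ⊆ Ω :=
  ⟨numRange A, isCompact_numRange A,
    numericalRange_convex (Matrix.toEuclideanCLM (n := Fin n) (𝕜 := ℂ) A), subset_rfl, hA⟩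

/-- spectrum and complete bound for `T = p(A)`. -/
theorem complete_bound_function {n : ℕ} (A : Matrix (Fin n) (Fin n) ℂ)
    (Ω U : Set ℂ) (hU : IsOpen U) (hΩU : closure Ω ⊆ U)
    (f : ℂ → ℂ) (hf₁ : DifferentiableOn ℂ f U) (hf₃ : f '' Ω = Metric.ball 0 1)
    (hA : numRange A ⊆ Ω) (p : Polynomial ℂ) (hp : AgreesOnSpectrum A f p) :
    (∀ μ ∈ spectrum ℂ (aeval A p), ‖μ‖ < 1) ∧
    ∀ (m : ℕ) (Q : Matrix (Fin m) (Fin m) ℂ[X]) (M : ℝ),
      (∀ z : ℂ, ‖z‖ ≤ 1 → evNorm Q z ≤ M) →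
      ∀ v : PiLp 2 (fun _ : Fin m => EuclideanSpace ℂ (Fin n)),
        ‖opAct (Matrix.toEuclideanCLM (n := Fin n) (𝕜 := ℂ) (aeval A p)) Q v‖ ≤ 2 * M * ‖v‖ := by
  obtain ⟨K, hK, hKc, hAK, hKΩ⟩ := exists_compact_convex A Ω hA
  have hKU : K ⊆ U := hKΩ.trans (subset_closure.trans hΩU)
  have hfc : ContinuousOn f K := hf₁.continuousOn.mono hKU
  -- sup of |f| on K is < 1
  have hr : ∃ r : ℝ, r < 1 ∧ ∀ z ∈ K, ‖f z‖ ≤ r := by
    rcases K.eq_empty_or_nonempty with hKe | hKne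
    · exact ⟨0, zero_lt_one, fun z hz => by rw [hKe] at hz; exact absurd hz (notMem_empty z)⟩
    · obtain ⟨z₀, hz₀, hmax⟩ := hK.exists_isMaxOn hKne hfc.norm
      refine ⟨‖f z₀‖, ?_, fun z hz => hmax hz⟩
      have : f z₀ ∈ Metric.ball (0 : ℂ) 1 := by
        rw [← hf₃]; exact Set.mem_image_of_mem f (hKΩ hz₀)
      simpa using this
  obtain ⟨r, hr1, hr⟩ := hr
  obtain ⟨P, hP, hPA⟩ := exists_polynomial_approx_matrix_of n A K hK
    ((spectrum_subset_numRange A).trans hAK) U hU hKU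
    (fun g hg ε hε => exists_polynomial_approx K hK hKc U hU hKU g hg ε hε)
    f hf₁ p hp (1 - r) (by linarith)
  have hP1 : ∀ z ∈ K, ‖P.eval z‖ < 1 := by
    intro z hz
    have h1 := hP z hz
    have h2 := hr z hz
    have h3 : ‖P.eval z‖ ≤ ‖f z‖ + ‖f z - P.eval z‖ := by
      have : P.eval z = f z - (f z - P.eval z) := by ring
      calc ‖P.eval z‖ = ‖f z - (f z - P.eval z)‖ := by rw [← this]
        _ ≤ _ := norm_sub_le _ _
    linarith
  constructor
  · intro μ hμ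
    have hne : (spectrum ℂ A).Nonempty := by
      rcases Nat.eq_zero_or_pos n with hn | hn
      · subst hn
        exfalso
        have : spectrum ℂ (aeval A p) = ∅ := spectrum.of_subsingleton _
        rw [this] at hμ
        exact hμ
      · have : Nonempty (Fin n) := ⟨⟨0, hn⟩⟩
        exact spectrum.nonempty_of_isAlgClosed_of_finiteDimensional ℂ A
    rw [← hPA, spectrum.map_polynomial_aeval_of_nonempty A P hne] at hμ
    obtain ⟨ν, hν, rfl⟩ := hμ
    exact hP1 ν (hAK (spectrum_subset_numRange A hν))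
  · intro m Q M hM v
    set A' := Matrix.toEuclideanCLM (n := Fin n) (𝕜 := ℂ) A with hA'
    have e1 : aeval A' P = Matrix.toEuclideanCLM (n := Fin n) (𝕜 := ℂ) (aeval A p) := by
      rw [← hPA, hA']
      exact Polynomial.aeval_algHom_apply
        ((Matrix.toEuclideanCLM (n := Fin n) (𝕜 := ℂ)).toAlgEquiv.toAlgHom) A P
    set Q' : Matrix (Fin m) (Fin m) ℂ[X] := Q.map (fun q => q.comp P) with hQ'
    have h1 : ∀ z ∈ K, evNorm Q' z ≤ M := by
      intro z hz
      have h2 : evNorm Q' z = evNorm Q (P.eval z) := by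
        unfold evNorm
        congr 2
        ext i j
        simp [hQ', Matrix.map_apply, eval_comp]
      rw [h2]
      exact hM _ (hP1 z hz).le
    have h2 := complete_bound_aux A' (fun κ ρ h1 h2 => opPos_faber κ ρ h1 A' h2) K hK hKc (fun x hx => hAK ⟨x, hx, rfl⟩) m Q' M h1 v
    have h3 : opAct A' Q' v
        = opAct (Matrix.toEuclideanCLM (n := Fin n) (𝕜 := ℂ) (aeval A p)) Q v := by
      ext i : 1
      rw [opAct_apply, opAct_apply]
      refine Finset.sum_congr rfl (fun j _ => ?_)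
      rw [hQ', Matrix.map_apply, Polynomial.aeval_comp, e1]
    rw [← h3]
    exact h2

end Crest.Agent.Crz
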